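/-
Row 210 (S0432), layer GCB (calculus for the frozen `weakGradient` / `gamma`).  Architect: helper469.
Definitions of the layer (only definitions live here).
-/
import Claimed.Agent.R210.Defs

set_option autoImplicit false

open Claims.C0366 Claims.C0366.WeakHessian
open Set Filter MeasureTheory
open scoped ENNReal NNReal Topology

namespace Claimed.Agent.R210.GCB.Defs

open Claimed.Agent.R210.Defs

noncomputable section

variable {X : Type*} [MetricSpace X] [MeasurableSpace X] [BorelSpace X]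

/-- `f` is essentially bounded on every ball. -/
def gcb_LocBdd (m : Measure X) (f : X → ℝ) : Prop :=
  ∀ (o : X) (R : ℝ), ∃ B : ℝ, ∀ᵐ x ∂m, x ∈ Metric.ball o R → |f x| ≤ B

/-- `f` vanishes a.e. outside a bounded set. -/
def gcb_BddSupp (m : Measure X) (f : X → ℝ) : Prop :=
  ∃ A : Set X, Bornology.IsBounded A ∧ ∀ᵐ x ∂m, x ∉ A → f x = 0

/-- `fs n → f` in `L²(m)`. -/
def gcb_L2Lim (m : Measure X) (fs : ℕ → X → ℝ) (f : X → ℝ) : Prop :=
  Tendsto (fun n => eLpNorm (fun x => fs n x - f x) 2 m) atTop (𝓝 0)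

/-- `fs n → f` in `L²` of every ball. -/
def gcb_L2locLim (m : Measure X) (fs : ℕ → X → ℝ) (f : X → ℝ) : Prop :=
  ∀ (o : X) (R : ℝ),
    Tendsto (fun n => eLpNorm (fun x => fs n x - f x) 2 (m.restrict (Metric.ball o R))) atTop (𝓝 0)

/-- `fs n → f` in `W^{1,2}`: in `L²` and `energy (fs n - f) → 0`. -/
def gcb_W12Lim (m : Measure X) (fs : ℕ → X → ℝ) (f : X → ℝ) : Prop :=
  gcb_L2Lim m fs f ∧ Tendsto (fun n => energy m (fun x => fs n x - f x)) atTop (𝓝 0)

end

end Claimed.Agent.R210.GCB.Defs
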