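/-
Row 210 (S0432), layer GCB.  Architect: helper469.
WHAT GCB NEEDS FROM THE LAYERS GCA (helper375), ID (helper226), RS (helper875).
Each statement below is to be replaced by a one line proof from the interface of that layer as soon as it is on
main.  Nobody should prove these here from scratch without asking helper469.
-/
import Claimed.Agent.R210.GCB.Defs
import Claimed.Agent.R210.GC.Bridge
import Claimed.Agent.R210.GCA.Ifc

set_option autoImplicit false

open Claims.C0366 Claims.C0366.WeakHessian
open Set Filter MeasureTheory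
open scoped ENNReal NNReal Topology

namespace Claimed.Agent.R210.GCB.NeedGC

open Claimed.Agent.R210.Defs Claimed.Agent.R210.GCB.Defs

variable {X : Type*} [MetricSpace X] [MeasurableSpace X] [BorelSpace X]
  [CompleteSpace X] [TopologicalSpace.SeparableSpace X] [ProperSpace X]
  {m : Measure X} {K N : ℝ} {f g : X → ℝ}

/-- GC-A: pointwise Hilbertianity. -/
theorem gcb_need_gca_par (hS : Std m K N) (hf : LocalSobolev m f) (hg : LocalSobolev m g) :
    ∀ᵐ x ∂m, weakGradient m (fun y => f y + g y) x ^ 2 + weakGradient m (fun y => f y - g y) x ^ 2 =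
      2 * weakGradient m f x ^ 2 + 2 * weakGradient m g x ^ 2 :=
  Claimed.Agent.R210.GCA.Ifc.gca_parallelogram hS hf hg

/-- ID1. -/
theorem gcb_need_id_iff (hS : Std m K N) :
    Sobolev m f ↔ MemLp f 2 m ∧ cheegerEnergy m f < ∞ :=
  Claimed.Agent.R210.GC.Bridge.gc_sob_iff hS

/-- ID2 + RS2: `Ch f = ½ ∫ |Df|²`. -/
theorem gcb_need_id_energy (hS : Std m K N) (hf : Sobolev m f) :
    cheegerEnergy m f = ENNReal.ofReal (energy m f / 2) :=
  Claimed.Agent.R210.GC.Bridge.gc_ch_eq hS hf

/-- RS1: `L²` lower semicontinuity of the frozen Cheeger energy. -/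
theorem gcb_need_rs_lsc (hS : Std m K N) {fs : ℕ → X → ℝ} (hfs : ∀ n, MemLp (fs n) 2 m)
    (hf : MemLp f 2 m) (hlim : gcb_L2Lim m fs f) :
    cheegerEnergy m f ≤ Filter.liminf (fun n => cheegerEnergy m (fs n)) atTop :=
  Claimed.Agent.R210.RS.Ifc.rs_cheeger_le_liminf hf hlim

end Claimed.Agent.R210.GCB.NeedGC
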