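/-
Row 210 (S0432), layer GCB.  Architect: helper469.
WHAT GCB NEEDS FROM THE TEST PLAN LAYER TP (architect helper661).
Each statement below is to be replaced by a one line proof from `Claimed/Agent/R210/TP/Ifc*.lean` as soon as
that interface is on main.  Nobody should prove these here from scratch without asking helper469 / helper661.
-/
import Claimed.Agent.R210.GCB.Defs
import Claimed.Agent.R210.TP.Ifc

set_option autoImplicit false

open Claims.C0366 Claims.C0366.WeakHessian
open Set Filter MeasureTheory
open scoped ENNReal NNReal Topology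

namespace Claimed.Agent.R210.GCB.NeedTP

open Claimed.Agent.R210.Defs Claimed.Agent.R210.GCB.Defs
open Claimed.Agent.R210.TP.Defs Claimed.Agent.R210.TP.Ifc

variable {X : Type*} [MetricSpace X] [MeasurableSpace X] [BorelSpace X]
  [CompleteSpace X] [TopologicalSpace.SeparableSpace X] [ProperSpace X]
  {m : Measure X} {K N : ℝ} {f g D D' : X → ℝ}

/-- TP2: a weak upper gradient exists ⟹ a minimal one exists. -/
theorem gcb_need_tp_exists_min (hS : Std m K N) (hf : LocallyL2 m f)
    (hD : IsLocalWeakUpperGradient m f D) : ∃ D₀, IsMinimalLocalWeakUpperGradient m f D₀ :=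
  tp_exists_minimal hS.finite (tp_aemeasurable hf) hD

/-- TP2: the notion only depends on the a.e. class of `f`. -/
theorem gcb_need_tp_wug_congr (h : f =ᵐ[m] g) :
    IsLocalWeakUpperGradient m f D ↔ IsLocalWeakUpperGradient m g D :=
  ⟨tp_wug_congr h (EventuallyEq.refl _ _), tp_wug_congr h.symm (EventuallyEq.refl _ _)⟩

/-- TP2: anything a.e. above a weak upper gradient (and in `L²_loc`) is a weak upper gradient. -/
theorem gcb_need_tp_mono (hD : IsLocalWeakUpperGradient m f D) (hD' : LocallyL2 m D')
    (hle : ∀ᵐ x ∂m, D x ≤ D' x) : IsLocalWeakUpperGradient m f D' :=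
  tp_wug_mono hD hD' hle

/-- TP3: subadditivity. -/
theorem gcb_need_tp_add (hS : Std m K N) (hf : LocalSobolev m f) (hg : LocalSobolev m g) :
    IsLocalWeakUpperGradient m (fun x => f x + g x)
      (fun x => weakGradient m f x + weakGradient m g x) :=
  tp_wug_add (tp_aemeasurable hf.1) (tp_aemeasurable hg.1) (tp_weakGradient_wug hf) (tp_weakGradient_wug hg)

/-- TP3: homogeneity (one inequality). -/
theorem gcb_need_tp_smul (hS : Std m K N) (c : ℝ) (hf : LocalSobolev m f) :
    IsLocalWeakUpperGradient m (fun x => c * f x) (fun x => |c| * weakGradient m f x) :=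
  tp_wug_const_mul c (tp_weakGradient_wug hf)

/-- TP3: locality. -/
theorem gcb_need_tp_locality (hS : Std m K N) (hf : LocalSobolev m f) (hg : LocalSobolev m g) :
    ∀ᵐ x ∂m, f x = g x → weakGradient m f x = weakGradient m g x :=
  tp_weakGradient_locality hf hg

/-- TP3: `|Df| = 0` a.e. on the preimage of a Lebesgue null set. -/
theorem gcb_need_tp_null (hS : Std m K N) (hf : LocalSobolev m f) {s : Set ℝ} (hs : volume s = 0) :
    ∀ᵐ x ∂m, f x ∈ s → weakGradient m f x = 0 :=
  tp_weakGradient_null hf hs

/-- TP3: chain rule for Lipschitz `φ` (with Mathlib's `deriv`, which is `0` where `φ` is not differentiable). -/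
theorem gcb_need_tp_chain_lip (hS : Std m K N) {φ : ℝ → ℝ} {L : ℝ≥0} (hφ : LipschitzWith L φ)
    (hf : LocalSobolev m f) :
    LocalSobolev m (fun x => φ (f x)) ∧
      weakGradient m (fun x => φ (f x)) =ᵐ[m] fun x => |deriv φ (f x)| * weakGradient m f x :=
  ⟨tp_localSobolev_comp_lipschitz hS.finite hf hφ, tp_weakGradient_comp_lipschitz hS.finite hf hφ⟩

/-- TP3: Leibniz inequality for locally bounded functions. -/
theorem gcb_need_tp_leibniz (hS : Std m K N) (hf : LocalSobolev m f) (hg : LocalSobolev m g)
    (hbf : gcb_LocBdd m f) (hbg : gcb_LocBdd m g) :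
    IsLocalWeakUpperGradient m (fun x => f x * g x)
      (fun x => |f x| * weakGradient m g x + |g x| * weakGradient m f x) :=
  tp_wug_mul (tp_aemeasurable hf.1) (tp_aemeasurable hg.1) (tp_weakGradient_wug hf) (tp_weakGradient_wug hg)
    (tp_leibniz_locallyL2 hf hg hbf hbg).2

/-- TP4: locally Lipschitz functions. -/
theorem gcb_need_tp_lip (hS : Std m K N) (hf : LocallyLipschitz f) :
    LocalSobolev m f ∧ ∀ᵐ x ∂m, ENNReal.ofReal (weakGradient m f x) ≤ localSlope f x := by
  have hL : tp_LipOnBdd f := by
    intro o R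
    obtain ⟨L, hL⟩ := LocallyLipschitzOn.exists_lipschitzOnWith_of_compact
      (isCompact_closedBall o R) hf.locallyLipschitzOn
    exact ⟨L, hL.mono Metric.ball_subset_closedBall⟩
  exact And.intro (tp_localSobolev_of_lipOnBdd hS.finite hL) (tp_weakGradient_le_localSlope hS.finite hL)

/-- Localisation principle (test plans in the frozen definition have bounded tracks). -/
theorem gcb_need_tp_local (hS : Std m K N)
    (h : ∀ (o : X) (R : ℝ), ∃ g, LocalSobolev m g ∧ ∀ᵐ x ∂m, x ∈ Metric.ball o R → f x = g x) :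
    LocalSobolev m f :=
  tp_localSobolev_of_local hS.finite h

/-- TP5: stability. -/
theorem gcb_need_tp_stab (hS : Std m K N) {fs Ds : ℕ → X → ℝ} (hf : LocallyL2 m f)
    (hD : LocallyL2 m D) (hfs : ∀ n, LocallyL2 m (fs n))
    (hw : ∀ n, IsLocalWeakUpperGradient m (fs n) (Ds n))
    (hlim : gcb_L2locLim m fs f) (hlimD : gcb_L2locLim m Ds D) :
    IsLocalWeakUpperGradient m f D :=
  tp_stability hw hfs hf hD hlim hlimD

end Claimed.Agent.R210.GCB.NeedTP
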