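/-
Row 210 (S0432), layer GCB (calculus for the frozen `weakGradient` / `gamma`).  Architect: helper469.
Leaf file `Basic`: unfolding of the frozen definitions; exact (function level) identities; measurability.
Notation in the comments: |Df| = `weakGradient m f`, Γ(f,g) = `gamma m f g`, E = `form m`.
Consumers never import this file: they import `GCB/Ifc.lean` (or `GCB/IfcA.lean`).
Rules: keep every statement and name as it is (the interface restates them); helper lemmas are welcome
(prefix `gcb_`, fresh names).  Earlier lemmas of this file and of the imported files may be used.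
-/
import Claimed.Agent.R210.GCB.NeedTP

set_option autoImplicit false

open Claims.C0366 Claims.C0366.WeakHessian
open Set Filter MeasureTheory
open scoped ENNReal NNReal Topology

namespace Claimed.Agent.R210.GCB.Basic

open Claimed.Agent.R210.Defs Claimed.Agent.R210.GCB.Defs Claimed.Agent.R210.GCB.NeedTP

variable {X : Type*} [MetricSpace X] [MeasurableSpace X] [BorelSpace X]
  [CompleteSpace X] [TopologicalSpace.SeparableSpace X] [ProperSpace X]
  {m : Measure X} {K N : ℝ} {f g h f' g' f₁ f₂ g₁ g₂ u v D : X → ℝ}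

/-- `dif_pos hf.2`, `Classical.choose_spec`. -/
theorem gcb_wg_spec (hf : LocalSobolev m f) :
    IsMinimalLocalWeakUpperGradient m f (weakGradient m f) := by
  unfold weakGradient
  rw [dif_pos hf.2]
  exact Classical.choose_spec hf.2

theorem gcb_wg_wug (hf : LocalSobolev m f) :
    IsLocalWeakUpperGradient m f (weakGradient m f) := by
  exact (gcb_wg_spec hf).1

theorem gcb_wg_le (hf : LocalSobolev m f) (hD : IsLocalWeakUpperGradient m f D) :
    ∀ᵐ x ∂m, weakGradient m f x ≤ D x := by
  exact (gcb_wg_spec hf).2 D hD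

/-- both branches of the `dite`; no hypothesis on `f`. -/
theorem gcb_wg_nonneg (m : Measure X) (f : X → ℝ) :
    ∀ᵐ x ∂m, 0 ≤ weakGradient m f x := by
  unfold weakGradient
  split_ifs with h
  · exact (Classical.choose_spec h).1.2.1
  · exact Filter.Eventually.of_forall fun _ => le_rfl

/-- both branches of the `dite` (`MemLp.zero`/`memLp_zero`...). -/
theorem gcb_wg_locL2 (m : Measure X) (f : X → ℝ) :
    LocallyL2 m (weakGradient m f) := by
  unfold weakGradient
  split_ifs with h
  · exact (Classical.choose_spec h).1.1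
  · intro o R _
    exact MemLp.zero

/-- `X = ⋃ n, ball o n` (if `X` is empty: trivial); `aestronglyMeasurable_iUnion_iff`, `Measure.restrict_univ`. -/
theorem gcb_aesm_of_locL2 (hf : LocallyL2 m f) :
    AEStronglyMeasurable f m := by
  rcases isEmpty_or_nonempty X with hX | ⟨⟨o⟩⟩
  · exact (measurable_of_empty f).aestronglyMeasurable
  · have h : ∀ n : ℕ, AEStronglyMeasurable f (m.restrict (Metric.ball o ((n : ℝ) + 1))) :=
      fun n => (hf o ((n : ℝ) + 1) (by positivity)).1
    have hU : (⋃ n : ℕ, Metric.ball o ((n : ℝ) + 1)) = univ := by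
      refine eq_univ_of_forall fun x => ?_
      obtain ⟨n, hn⟩ := exists_nat_gt (dist x o)
      exact mem_iUnion.2 ⟨n, by rw [Metric.mem_ball]; linarith⟩
    rw [← Measure.restrict_univ (μ := m), ← hU]
    exact aestronglyMeasurable_iUnion_iff.2 h

theorem gcb_wg_aesm (m : Measure X) (f : X → ℝ) :
    AEStronglyMeasurable (weakGradient m f) m := by
  exact gcb_aesm_of_locL2 (gcb_wg_locL2 m f)

theorem gcb_locSob_aesm (hf : LocalSobolev m f) :
    AEStronglyMeasurable f m := by
  exact gcb_aesm_of_locL2 hf.1

/-- unfold `gamma`; `gcb_wg_aesm`, `.pow`, `.sub`, `.div_const`. -/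
theorem gcb_gamma_aesm (m : Measure X) (f g : X → ℝ) :
    AEStronglyMeasurable (gamma m f g) m := by
  have h1 := gcb_wg_aesm m (fun y => f y + g y)
  have h2 := gcb_wg_aesm m (fun y => f y - g y)
  have h3 : AEStronglyMeasurable (fun x => ((weakGradient m (fun y => f y + g y) x) ^ 2
      - (weakGradient m (fun y => f y - g y) x) ^ 2) * (4 : ℝ)⁻¹) m :=
    ((h1.pow 2).sub (h2.pow 2)).mul_const _
  have e : gamma m f g = fun x => ((weakGradient m (fun y => f y + g y) x) ^ 2
      - (weakGradient m (fun y => f y - g y) x) ^ 2) * (4 : ℝ)⁻¹ := by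
    funext x
    unfold gamma
    rw [div_eq_mul_inv]
  rw [e]
  exact h3

/-- `gcb_need_tp_exists_min`. -/
theorem gcb_locSob_of_wug (hS : Std m K N) (hf : LocallyL2 m f) (hD : IsLocalWeakUpperGradient m f D) :
    LocalSobolev m f := by
  exact ⟨hf, gcb_need_tp_exists_min hS hf hD⟩

theorem gcb_min_eq_of_wug_iff
    (h : ∀ D, IsLocalWeakUpperGradient m f D ↔ IsLocalWeakUpperGradient m g D) :
    IsMinimalLocalWeakUpperGradient m f = IsMinimalLocalWeakUpperGradient m g := by
  have h1 : IsLocalWeakUpperGradient m f = IsLocalWeakUpperGradient m g :=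
    funext fun D => propext (h D)
  funext D
  unfold IsMinimalLocalWeakUpperGradient
  rw [h1]

theorem gcb_wg_eq_of_wug_iff
    (h : ∀ D, IsLocalWeakUpperGradient m f D ↔ IsLocalWeakUpperGradient m g D) :
    weakGradient m f = weakGradient m g := by
  have h2 := gcb_min_eq_of_wug_iff h
  have key : ∀ P Q : (X → ℝ) → Prop, P = Q →
      (@dite _ (∃ D, P D) (Classical.propDecidable _) (fun h => Classical.choose h) (fun _ => (0 : X → ℝ)))
        = (@dite _ (∃ D, Q D) (Classical.propDecidable _) (fun h => Classical.choose h) (fun _ => (0 : X → ℝ))) := by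
    intro P Q hPQ
    subst hPQ
    rfl
  exact key _ _ h2

/-- EQUALITY OF FUNCTIONS.  `gcb_need_tp_wug_congr` + `funext`/`propext`: the predicates
`IsMinimalLocalWeakUpperGradient m f` and `.. m g` are equal, then `unfold weakGradient; simp only [this]` (or
`congr`). -/
theorem gcb_wg_congr (h : f =ᵐ[m] g) :
    weakGradient m f = weakGradient m g := by
  exact gcb_wg_eq_of_wug_iff fun _ => gcb_need_tp_wug_congr h

theorem gcb_locSob_congr (h : f =ᵐ[m] g) (hf : LocalSobolev m f) :
    LocalSobolev m g := by
  refine ⟨fun o R hR => (hf.1 o R hR).ae_eq (ae_restrict_of_ae h), ?_⟩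
  rw [← gcb_min_eq_of_wug_iff fun _ => gcb_need_tp_wug_congr h]
  exact hf.2

theorem gcb_sob_congr (h : f =ᵐ[m] g) (hf : Sobolev m f) :
    Sobolev m g := by
  refine ⟨hf.1.ae_eq h, gcb_locSob_congr h hf.2.1, ?_⟩
  rw [← gcb_wg_congr h]
  exact hf.2.2

/-- equality of functions, from `gcb_wg_congr`. -/
theorem gcb_gamma_congr (hf : f =ᵐ[m] f') (hg : g =ᵐ[m] g') :
    gamma m f g = gamma m f' g' := by
  have h1 : (fun y => f y + g y) =ᵐ[m] (fun y => f' y + g' y) := hf.add hg
  have h2 : (fun y => f y - g y) =ᵐ[m] (fun y => f' y - g' y) := hf.sub hg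
  funext x
  unfold gamma
  rw [gcb_wg_congr h1, gcb_wg_congr h2]

/-- equality of functions, NO hypothesis: `IsLocalWeakUpperGradient m (fun x => -f x) D ↔ IsLocalWeakUpperGradient
m f D` since `|-a - -b| = |a - b|`; then as in `gcb_wg_congr`. -/
theorem gcb_wg_neg (m : Measure X) (f : X → ℝ) :
    weakGradient m (fun x => -f x) = weakGradient m f := by
  refine gcb_wg_eq_of_wug_iff fun D => ?_
  have h1 : ∀ a b : ℝ, |(-a) - (-b)| = |a - b| := fun a b => by
    rw [← abs_neg (a - b)]
    congr 1
    ring
  unfold IsLocalWeakUpperGradient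
  simp only [h1]

/-- same trick: `f a + c - (f b + c) = f a - f b`. -/
theorem gcb_wg_add_const (m : Measure X) (f : X → ℝ) (c : ℝ) :
    weakGradient m (fun x => f x + c) = weakGradient m f := by
  refine gcb_wg_eq_of_wug_iff fun D => ?_
  unfold IsLocalWeakUpperGradient
  simp only [add_sub_add_right_eq_sub]

theorem gcb_wg_sub_comm (m : Measure X) (f g : X → ℝ) :
    weakGradient m (fun x => f x - g x) = weakGradient m (fun x => g x - f x) := by
  have h1 : (fun x => f x - g x) = fun x => -(g x - f x) := by
    funext x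
    ring
  rw [h1]
  exact gcb_wg_neg m (fun x => g x - f x)

/-- equality of functions, no hypothesis (`add_comm`, `gcb_wg_sub_comm`). -/
theorem gcb_gamma_comm (m : Measure X) (f g : X → ℝ) :
    gamma m f g = gamma m g f := by
  funext x
  unfold gamma
  have h1 : (fun y => f y + g y) = fun y => g y + f y := by funext y; ring
  rw [gcb_wg_sub_comm m f g, h1]

/-- exact: `-f + g = -(f - g)`, `-f - g = -(f + g)`, `gcb_wg_neg`. -/
theorem gcb_gamma_neg_left (m : Measure X) (f g : X → ℝ) :
    gamma m (fun x => -f x) g = fun x => -gamma m f g x := by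
  funext x
  unfold gamma
  have h1 : (fun y => -f y + g y) = fun y => -(f y - g y) := by funext y; ring
  have h2 : (fun y => -f y - g y) = fun y => -(f y + g y) := by funext y; ring
  rw [h1, h2, gcb_wg_neg m (fun y => f y - g y), gcb_wg_neg m (fun y => f y + g y)]
  ring

theorem gcb_gamma_neg_right (m : Measure X) (f g : X → ℝ) :
    gamma m f (fun x => -g x) = fun x => -gamma m f g x := by
  funext x
  unfold gamma
  have h1 : (fun y => f y + -g y) = fun y => f y - g y := by funext y; ring
  have h2 : (fun y => f y - -g y) = fun y => f y + g y := by funext y; ring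
  rw [h1, h2]
  ring

theorem gcb_gamma_add_const_left (m : Measure X) (f g : X → ℝ) (c : ℝ) :
    gamma m (fun x => f x + c) g = gamma m f g := by
  funext x
  unfold gamma
  have h1 : (fun y => f y + c + g y) = fun y => (f y + g y) + c := by funext y; ring
  have h2 : (fun y => f y + c - g y) = fun y => (f y - g y) + c := by funext y; ring
  rw [h1, h2, gcb_wg_add_const m (fun y => f y + g y) c, gcb_wg_add_const m (fun y => f y - g y) c]

theorem gcb_gamma_add_const_right (m : Measure X) (f g : X → ℝ) (c : ℝ) :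
    gamma m f (fun x => g x + c) = gamma m f g := by
  rw [gcb_gamma_comm, gcb_gamma_add_const_left, gcb_gamma_comm]

/-- exact: `|D(c+g)| = |Dg| = |D(c-g)|` as functions. -/
theorem gcb_gamma_const_left (m : Measure X) (c : ℝ) (g : X → ℝ) :
    gamma m (fun _ => c) g = fun _ => 0 := by
  funext x
  unfold gamma
  have h1 : (fun y => c + g y) = fun y => g y + c := by funext y; ring
  have h2 : (fun y => c - g y) = fun y => (-g y) + c := by funext y; ring
  rw [h1, h2, gcb_wg_add_const m g c, gcb_wg_add_const m (fun y => -g y) c, gcb_wg_neg m g]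
  ring

theorem gcb_gamma_const_right (m : Measure X) (f : X → ℝ) (c : ℝ) :
    gamma m f (fun _ => c) = fun _ => 0 := by
  rw [gcb_gamma_comm, gcb_gamma_const_left]

theorem gcb_sob_locSob (hf : Sobolev m f) :
    LocalSobolev m f :=
  hf.2.1

theorem gcb_sob_memLp (hf : Sobolev m f) :
    MemLp f 2 m :=
  hf.1

theorem gcb_sob_wg_memLp (hf : Sobolev m f) :
    MemLp (weakGradient m f) 2 m :=
  hf.2.2

/-- `MemLp.mono` with `gcb_wg_nonneg`, `gcb_wg_aesm`. -/
theorem gcb_sob_of_le {G : X → ℝ} (hf : LocalSobolev m f) (h2 : MemLp f 2 m) (hG : MemLp G 2 m) (hle : ∀ᵐ x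
    ∂m, weakGradient m f x ≤ G x) :
    Sobolev m f := by
  refine ⟨h2, hf, hG.mono (gcb_wg_aesm m f) ?_⟩
  filter_upwards [hle, gcb_wg_nonneg m f] with x h1 h3
  rw [Real.norm_eq_abs, Real.norm_eq_abs, abs_of_nonneg h3]
  exact h1.trans (le_abs_self _)

end Claimed.Agent.R210.GCB.Basic
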