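/-
Row 210 (S0432), layer GCB (calculus for the frozen `weakGradient` / `gamma`).  Architect: helper469.
Leaf file `LocBdd`: locally bounded functions, bounded supports, `LocallyL2`, elementary integrability.
Notation in the comments: |Df| = `weakGradient m f`, Γ(f,g) = `gamma m f g`, E = `form m`.
Consumers never import this file: they import `GCB/Ifc.lean` (or `GCB/IfcA.lean`).
Rules: keep every statement and name as it is (the interface restates them); helper lemmas are welcome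
(prefix `gcb_`, fresh names).  Earlier lemmas of this file and of the imported files may be used.
-/
import Claimed.Agent.R210.GCB.Basic

set_option autoImplicit false

open Claims.C0366 Claims.C0366.WeakHessian
open Set Filter MeasureTheory
open scoped ENNReal NNReal Topology

namespace Claimed.Agent.R210.GCB.LocBdd

open Claimed.Agent.R210.Defs Claimed.Agent.R210.GCB.Defs Claimed.Agent.R210.GCB.NeedTP
  Claimed.Agent.R210.GCB.Basic

variable {X : Type*} [MetricSpace X] [MeasurableSpace X] [BorelSpace X]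
  [CompleteSpace X] [TopologicalSpace.SeparableSpace X] [ProperSpace X]
  {m : Measure X} {K N : ℝ} {f g h f' g' f₁ f₂ g₁ g₂ u v D : X → ℝ}

theorem gcb_locBdd_of_bdd (m : Measure X) (hf : BoundedFunction f) :
    gcb_LocBdd m f := by
  obtain ⟨B, hB⟩ := hf
  exact fun o R => ⟨B, Eventually.of_forall fun x _ => hB x⟩

theorem gcb_locBdd_of_aebdd {B : ℝ} (hf : AEBdd m f B) :
    gcb_LocBdd m f := by
  exact fun o R => ⟨B, hf.mono fun x hx _ => hx⟩

/-- `closedBall o R` is compact (proper space). -/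
theorem gcb_locBdd_of_continuous (m : Measure X) (hf : Continuous f) :
    gcb_LocBdd m f := by
  intro o R
  have hc : IsCompact (Metric.closedBall o R) := isCompact_closedBall o R
  obtain ⟨B, hB⟩ := hc.exists_bound_of_continuousOn hf.continuousOn
  exact ⟨B, Eventually.of_forall fun x hx => by
    simpa [Real.norm_eq_abs] using hB x (Metric.ball_subset_closedBall hx)⟩

theorem gcb_locBdd_of_lip (m : Measure X) (hf : GloballyLipschitz f) :
    gcb_LocBdd m f := by
  obtain ⟨L, hL⟩ := hf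
  exact gcb_locBdd_of_continuous m hL.continuous

theorem gcb_locBdd_const (m : Measure X) (c : ℝ) :
    gcb_LocBdd m (fun _ : X => c) := by
  exact fun o R => ⟨|c|, Eventually.of_forall fun _ _ => le_refl _⟩

theorem gcb_locBdd_add (hf : gcb_LocBdd m f) (hg : gcb_LocBdd m g) :
    gcb_LocBdd m (fun x => f x + g x) := by
  intro o R
  obtain ⟨A, hA⟩ := hf o R
  obtain ⟨B, hB⟩ := hg o R
  refine ⟨A + B, ?_⟩
  filter_upwards [hA, hB] with x h1 h2 hx
  exact (abs_add_le _ _).trans (add_le_add (h1 hx) (h2 hx))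

theorem gcb_locBdd_sub (hf : gcb_LocBdd m f) (hg : gcb_LocBdd m g) :
    gcb_LocBdd m (fun x => f x - g x) := by
  intro o R
  obtain ⟨A, hA⟩ := hf o R
  obtain ⟨B, hB⟩ := hg o R
  refine ⟨A + B, ?_⟩
  filter_upwards [hA, hB] with x h1 h2 hx
  have h3 := abs_add_le (f x) (-g x)
  rw [abs_neg, ← sub_eq_add_neg] at h3
  exact h3.trans (add_le_add (h1 hx) (h2 hx))

theorem gcb_locBdd_neg (hf : gcb_LocBdd m f) :
    gcb_LocBdd m (fun x => -f x) := by
  intro o R
  obtain ⟨A, hA⟩ := hf o R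
  refine ⟨A, ?_⟩
  filter_upwards [hA] with x h1 hx
  rw [abs_neg]
  exact h1 hx

theorem gcb_locBdd_mul (hf : gcb_LocBdd m f) (hg : gcb_LocBdd m g) :
    gcb_LocBdd m (fun x => f x * g x) := by
  intro o R
  obtain ⟨A, hA⟩ := hf o R
  obtain ⟨B, hB⟩ := hg o R
  refine ⟨|A| * |B|, ?_⟩
  filter_upwards [hA, hB] with x h1 h2 hx
  rw [abs_mul]
  exact mul_le_mul ((h1 hx).trans (le_abs_self A)) ((h2 hx).trans (le_abs_self B))
    (abs_nonneg _) (abs_nonneg _)

theorem gcb_locBdd_const_mul (c : ℝ) (hf : gcb_LocBdd m f) :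
    gcb_LocBdd m (fun x => c * f x) := by
  intro o R
  obtain ⟨A, hA⟩ := hf o R
  refine ⟨|c| * A, ?_⟩
  filter_upwards [hA] with x h1 hx
  rw [abs_mul]
  exact mul_le_mul_of_nonneg_left (h1 hx) (abs_nonneg _)

theorem gcb_locBdd_max (hf : gcb_LocBdd m f) (hg : gcb_LocBdd m g) :
    gcb_LocBdd m (fun x => max (f x) (g x)) := by
  intro o R
  obtain ⟨A, hA⟩ := hf o R
  obtain ⟨B, hB⟩ := hg o R
  refine ⟨max A B, ?_⟩
  filter_upwards [hA, hB] with x h1 h2 hx
  exact abs_max_le_max_abs_abs.trans (max_le_max (h1 hx) (h2 hx))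

theorem gcb_locBdd_min (hf : gcb_LocBdd m f) (hg : gcb_LocBdd m g) :
    gcb_LocBdd m (fun x => min (f x) (g x)) := by
  intro o R
  obtain ⟨A, hA⟩ := hf o R
  obtain ⟨B, hB⟩ := hg o R
  refine ⟨max A B, ?_⟩
  filter_upwards [hA, hB] with x h1 h2 hx
  exact abs_min_le_max_abs_abs.trans (max_le_max (h1 hx) (h2 hx))

/-- `φ` is bounded on `Icc (-B) B`. -/
theorem gcb_locBdd_comp {φ : ℝ → ℝ} (hφ : Continuous φ) (hf : gcb_LocBdd m f) :
    gcb_LocBdd m (fun x => φ (f x)) := by
  intro o R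
  obtain ⟨A, hA⟩ := hf o R
  obtain ⟨C, hC⟩ := (isCompact_Icc (a := -A) (b := A)).exists_bound_of_continuousOn hφ.continuousOn
  refine ⟨C, ?_⟩
  filter_upwards [hA] with x h1 hx
  simpa [Real.norm_eq_abs] using hC (f x) (abs_le.1 (h1 hx))

theorem gcb_locBdd_congr (h : f =ᵐ[m] g) (hf : gcb_LocBdd m f) :
    gcb_LocBdd m g := by
  intro o R
  obtain ⟨A, hA⟩ := hf o R
  refine ⟨A, ?_⟩
  filter_upwards [hA, h] with x h1 h2 hx
  rw [← h2]
  exact h1 hx

/-- `MemLp.restrict`. -/
theorem gcb_locL2_of_memLp (hf : MemLp f 2 m) :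
    LocallyL2 m f := by
  exact fun o R _ => hf.restrict _

/-- balls have finite measure (`hS.finite`, `Metric.isBounded_ball`); `MemLp.of_bound` on the restricted measure
(`ae_restrict_iff'`). -/
theorem gcb_locL2_of_locBdd (hS : Std m K N) (hf : AEStronglyMeasurable f m) (hb : gcb_LocBdd m f) :
    LocallyL2 m f := by
  intro o R _
  obtain ⟨B, hB⟩ := hb o R
  haveI : IsFiniteMeasure (m.restrict (Metric.ball o R)) :=
    ⟨by simpa using hS.finite _ Metric.isBounded_ball⟩
  exact MemLp.of_bound hf.restrict B ((ae_restrict_iff' measurableSet_ball).2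
    (hB.mono fun x hx hmem => by simpa [Real.norm_eq_abs] using hx hmem))

theorem gcb_locL2_add (hf : LocallyL2 m f) (hg : LocallyL2 m g) :
    LocallyL2 m (fun x => f x + g x) := by
  exact fun o R hR => (hf o R hR).add (hg o R hR)

theorem gcb_locL2_sub (hf : LocallyL2 m f) (hg : LocallyL2 m g) :
    LocallyL2 m (fun x => f x - g x) := by
  exact fun o R hR => (hf o R hR).sub (hg o R hR)

theorem gcb_locL2_const_mul (c : ℝ) (hf : LocallyL2 m f) :
    LocallyL2 m (fun x => c * f x) := by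
  exact fun o R hR => (hf o R hR).const_mul c

theorem gcb_locL2_mul_locBdd (hf : LocallyL2 m f) (hg : AEStronglyMeasurable g m) (hb : gcb_LocBdd m g) :
    LocallyL2 m (fun x => g x * f x) := by
  intro o R hR
  obtain ⟨B, hB⟩ := hb o R
  refine (hf o R hR).of_le_mul (c := |B|) (hg.restrict.mul (hf o R hR).aestronglyMeasurable) ?_
  refine (ae_restrict_iff' measurableSet_ball).2 (hB.mono fun x hx hmem => ?_)
  rw [norm_mul, Real.norm_eq_abs, Real.norm_eq_abs]
  exact mul_le_mul_of_nonneg_right ((hx hmem).trans (le_abs_self B)) (abs_nonneg _)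

theorem gcb_locL2_congr (h : f =ᵐ[m] g) (hf : LocallyL2 m f) :
    LocallyL2 m g := by
  exact fun o R hR => (hf o R hR).ae_eq (ae_restrict_of_ae h)

theorem gcb_locL2_mono (hg : LocallyL2 m g) (hf : AEStronglyMeasurable f m) (hle : ∀ᵐ x ∂m, |f x| ≤ |g x|) :
    LocallyL2 m f := by
  exact fun o R hR => (hg o R hR).mono hf.restrict (ae_restrict_of_ae hle)

theorem gcb_bddSupp_of_compact (m : Measure X) (hf : HasCompactSupport f) :
    gcb_BddSupp m f := by
  refine ⟨tsupport f, hf.isCompact.isBounded, Filter.Eventually.of_forall fun x hx => ?_⟩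
  exact image_eq_zero_of_notMem_tsupport hx

theorem gcb_bddSupp_mul_left (hf : gcb_BddSupp m f) (g : X → ℝ) :
    gcb_BddSupp m (fun x => f x * g x) := by
  obtain ⟨A, hA, h⟩ := hf
  refine ⟨A, hA, ?_⟩
  filter_upwards [h] with x hx hxA
  rw [hx hxA, zero_mul]

theorem gcb_bddSupp_mul_right (f : X → ℝ) (hg : gcb_BddSupp m g) :
    gcb_BddSupp m (fun x => f x * g x) := by
  obtain ⟨A, hA, h⟩ := hg
  refine ⟨A, hA, ?_⟩
  filter_upwards [h] with x hx hxA
  rw [hx hxA, mul_zero]

/-- `Bornology.IsBounded.union`. -/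
theorem gcb_bddSupp_add (hf : gcb_BddSupp m f) (hg : gcb_BddSupp m g) :
    gcb_BddSupp m (fun x => f x + g x) := by
  obtain ⟨A, hA, h⟩ := hf
  obtain ⟨B, hB, h'⟩ := hg
  refine ⟨A ∪ B, hA.union hB, ?_⟩
  filter_upwards [h, h'] with x hx hx' hxA
  rw [hx (fun hh => hxA (Or.inl hh)), hx' (fun hh => hxA (Or.inr hh)), add_zero]

/-- `A ⊆ ball o R` with `0 < R` (`Bornology.IsBounded.subset_ball_lt`; `X` empty: trivial); `f =ᵐ indicator (ball
o R) f`, `memLp_indicator_iff_restrict`. -/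
theorem gcb_memLp_of_locL2_bddSupp (hf : LocallyL2 m f) (hs : gcb_BddSupp m f) :
    MemLp f 2 m := by
  obtain ⟨A, hA, h⟩ := hs
  rcases isEmpty_or_nonempty X with hX | ⟨⟨o⟩⟩
  · have : m = 0 := Measure.eq_zero_of_isEmpty m
    rw [this]
    exact memLp_measure_zero
  · obtain ⟨R, hR, hAR⟩ := hA.subset_ball_lt 0 o
    have h1 : MemLp ((Metric.ball o R).indicator f) 2 m :=
      (memLp_indicator_iff_restrict Metric.isOpen_ball.measurableSet).2 (hf o R hR)
    refine h1.ae_eq ?_
    filter_upwards [h] with x hx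
    by_cases hxb : x ∈ Metric.ball o R
    · rw [Set.indicator_of_mem hxb]
    · rw [Set.indicator_of_notMem hxb, hx (fun hh => hxb (hAR hh))]

/-- `MemLp.integrable_mul` on the restricted measure; `R ≤ 0`: empty ball. -/
theorem gcb_integrableOn_mul (hf : LocallyL2 m f) (hg : LocallyL2 m g) (o : X) (R : ℝ) :
    IntegrableOn (fun x => f x * g x) (Metric.ball o R) m := by
  rcases le_or_gt R 0 with hR | hR
  · rw [Metric.ball_eq_empty.2 hR]
    exact integrableOn_empty
  · exact (hf o R hR).integrable_mul (hg o R hR)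

theorem gcb_integrable_of_locBdd_bddSupp (hS : Std m K N) (hf : AEStronglyMeasurable f m) (hb : gcb_LocBdd m
    f) (hs : gcb_BddSupp m f) :
    Integrable f m := by
  obtain ⟨A, hA, h⟩ := hs
  rcases isEmpty_or_nonempty X with hX | ⟨⟨o⟩⟩
  · have : m = 0 := Measure.eq_zero_of_isEmpty m
    rw [this]
    exact integrable_zero_measure
  · obtain ⟨R, hR, hAR⟩ := hA.subset_ball_lt 0 o
    have hfin : m (Metric.ball o R) < ∞ := hS.finite _ Metric.isBounded_ball
    have : IsFiniteMeasure (m.restrict (Metric.ball o R)) :=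
      ⟨by rw [Measure.restrict_apply_univ]; exact hfin⟩
    have h2 : MemLp f 2 (m.restrict (Metric.ball o R)) := gcb_locL2_of_locBdd hS hf hb o R hR
    have h3 : IntegrableOn f (Metric.ball o R) m := h2.integrable (by norm_num)
    have h1 : Integrable ((Metric.ball o R).indicator f) m :=
      (integrable_indicator_iff Metric.isOpen_ball.measurableSet).2 h3
    refine h1.congr ?_
    filter_upwards [h] with x hx
    by_cases hxb : x ∈ Metric.ball o R
    · rw [Set.indicator_of_mem hxb]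
    · rw [Set.indicator_of_notMem hxb, hx (fun hh => hxb (hAR hh))]

/-- `μ ≤ M • m` gives `μ ≪ m`. -/
theorem gcb_ae_of_bddDens {μ : Measure X} {M : ℝ≥0} {o : X} {R : ℝ} (hμ : BddDens m μ M o R) {p : X → Prop}
    (hp : ∀ᵐ x ∂m, p x) :
    ∀ᵐ x ∂μ, p x := by
  have h1 : μ ≪ m := by
    refine (Measure.absolutelyContinuous_of_le hμ.le).trans ?_
    exact Measure.smul_absolutelyContinuous
  exact h1.ae_le hp

/-- `μ = μ.restrict (closedBall o R) ≤ M • m.restrict (ball o (R+1))`; `Integrable.mono_measure`,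
`Integrable.smul_measure`. -/
theorem gcb_integrable_bddDens {μ : Measure X} {M : ℝ≥0} {o : X} {R : ℝ} (hμ : BddDens m μ M o R) (hf :
    IntegrableOn f (Metric.ball o (R + 1)) m) :
    Integrable f μ := by
  have hsub : Metric.closedBall o R ⊆ Metric.ball o (R + 1) :=
    Metric.closedBall_subset_ball (by linarith)
  have h0 : μ (Metric.ball o (R + 1))ᶜ = 0 :=
    measure_mono_null (Set.compl_subset_compl.2 hsub) hμ.conc
  have h1 : μ.restrict (Metric.ball o (R + 1)) = μ := Measure.restrict_eq_self_of_ae_mem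
    (by
      rw [ae_iff]
      exact h0)
  have h2 : μ ≤ (M : ℝ≥0∞) • m.restrict (Metric.ball o (R + 1)) := by
    calc μ = μ.restrict (Metric.ball o (R + 1)) := h1.symm
      _ ≤ ((M : ℝ≥0∞) • m).restrict (Metric.ball o (R + 1)) := Measure.restrict_mono le_rfl hμ.le
      _ = (M : ℝ≥0∞) • m.restrict (Metric.ball o (R + 1)) := Measure.restrict_smul _ _ _
  exact (Integrable.smul_measure hf ENNReal.coe_ne_top).mono_measure h2

/-- DOMINATED CONVERGENCE in `L²` (any measure `μ`, used with `m` and `m.restrict (ball o R)`):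
`eLpNorm_eq_lintegral_rpow_enorm`, `tendsto_lintegral_of_dominated_convergence` for `‖Fs n x‖ₑ ^ 2` with bound
`‖G x‖ₑ ^ 2`, then continuity of `t ↦ t ^ (1/2)` at `0`. -/
theorem gcb_eLpNorm_tendsto_of_dominated {μ : Measure X} {Fs : ℕ → X → ℝ} {G : X → ℝ} (hFs : ∀ n,
    AEStronglyMeasurable (Fs n) μ) (hG : MemLp G 2 μ) (hle : ∀ n, ∀ᵐ x ∂μ, |Fs n x| ≤ |G x|) (hlim : ∀ᵐ x ∂μ,
    Tendsto (fun n => Fs n x) atTop (𝓝 0)) :
    Tendsto (fun n => eLpNorm (Fs n) 2 μ) atTop (𝓝 0) := by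
  have h2 : (2 : ℝ≥0∞) ≠ 0 := by norm_num
  have h2' : (2 : ℝ≥0∞) ≠ ∞ := by norm_num
  have hlin : Tendsto (fun n => ∫⁻ x, ‖Fs n x‖ₑ ^ (2 : ℝ) ∂μ) atTop (𝓝 (∫⁻ _, (0 : ℝ≥0∞) ∂μ)) := by
    refine tendsto_lintegral_of_dominated_convergence' (fun x => ‖G x‖ₑ ^ (2 : ℝ))
      (fun n => ((hFs n).enorm.pow_const _)) ?_ ?_ ?_
    · intro n
      filter_upwards [hle n] with x hx
      have : ‖Fs n x‖ₑ ≤ ‖G x‖ₑ := by
        rw [enorm_le_iff_norm_le]
        simpa [Real.norm_eq_abs] using hx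
      gcongr
    · have := lintegral_rpow_enorm_lt_top_of_eLpNorm_lt_top h2 h2' hG.2
      simpa using this.ne
    · filter_upwards [hlim] with x hx
      have h1 : Tendsto (fun n => ‖Fs n x‖ₑ) atTop (𝓝 0) := by
        have := (continuous_enorm.tendsto (0 : ℝ)).comp hx
        simpa [Function.comp_def] using this
      have h3 := (ENNReal.continuous_rpow_const (y := (2 : ℝ))).tendsto (0 : ℝ≥0∞) |>.comp h1
      simpa [Function.comp_def] using h3
  have h4 : ∀ n, eLpNorm (Fs n) 2 μ = (∫⁻ x, ‖Fs n x‖ₑ ^ (2 : ℝ) ∂μ) ^ (1 / (2 : ℝ)) := by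
    intro n
    rw [eLpNorm_eq_lintegral_rpow_enorm_toReal h2 h2']
    simp
  simp only [h4]
  have h5 := (ENNReal.continuous_rpow_const (y := (1 / (2 : ℝ)))).tendsto (∫⁻ _, (0 : ℝ≥0∞) ∂μ) |>.comp hlin
  simpa [Function.comp_def] using h5

/-- `tendsto_integral_of_dominated_convergence` with bound `G ^ 2` (`MemLp.integrable_sq`). -/
theorem gcb_integral_sq_tendsto_of_dominated {μ : Measure X} {Fs : ℕ → X → ℝ} {G : X → ℝ} (hFs : ∀ n,
    AEStronglyMeasurable (Fs n) μ) (hG : MemLp G 2 μ) (hle : ∀ n, ∀ᵐ x ∂μ, |Fs n x| ≤ |G x|) (hlim : ∀ᵐ x ∂μ,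
    Tendsto (fun n => Fs n x) atTop (𝓝 0)) :
    Tendsto (fun n => ∫ x, Fs n x ^ 2 ∂μ) atTop (𝓝 0) := by
  have h := tendsto_integral_of_dominated_convergence (μ := μ) (F := fun n x => Fs n x ^ 2)
    (f := fun _ => (0 : ℝ)) (fun x => G x ^ 2) (fun n => (hFs n).pow 2) hG.integrable_sq ?_ ?_
  · simpa using h
  · intro n
    filter_upwards [hle n] with x hx
    rw [Real.norm_eq_abs, abs_of_nonneg (sq_nonneg _)]
    exact sq_le_sq.2 hx
  · filter_upwards [hlim] with x hx
    simpa using hx.pow 2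

end Claimed.Agent.R210.GCB.LocBdd
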