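/-
Row 210 (S0432), layer GCB (calculus for the frozen `weakGradient` / `gamma`).  Architect: helper469.
Leaf file `Grad`: `LocalSobolev` is a vector space; sublinearity, locality, localisation and stability of `weakGradient`.
Notation in the comments: |Df| = `weakGradient m f`, Γ(f,g) = `gamma m f g`, E = `form m`.
Consumers never import this file: they import `GCB/Ifc.lean` (or `GCB/IfcA.lean`).
Rules: keep every statement and name as it is (the interface restates them); helper lemmas are welcome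
(prefix `gcb_`, fresh names).  Earlier lemmas of this file and of the imported files may be used.
-/
import Claimed.Agent.R210.GCB.LocBdd

set_option autoImplicit false

open Claims.C0366 Claims.C0366.WeakHessian
open Set Filter MeasureTheory
open scoped ENNReal NNReal Topology

namespace Claimed.Agent.R210.GCB.Grad

open Claimed.Agent.R210.Defs Claimed.Agent.R210.GCB.Defs Claimed.Agent.R210.GCB.NeedTP
  Claimed.Agent.R210.GCB.Basic Claimed.Agent.R210.GCB.LocBdd

variable {X : Type*} [MetricSpace X] [MeasurableSpace X] [BorelSpace X]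
  [CompleteSpace X] [TopologicalSpace.SeparableSpace X] [ProperSpace X]
  {m : Measure X} {K N : ℝ} {f g h f' g' f₁ f₂ g₁ g₂ u v D : X → ℝ}

theorem gcb_wug_const_aux (m : Measure X) (c : ℝ) :
    IsLocalWeakUpperGradient m (fun _ : X => c) (fun _ => 0) := by
  refine ⟨fun o R _ => MemLp.zero, Filter.Eventually.of_forall fun _ => le_rfl, ?_⟩
  intro π _ _
  simp

/-- `0` is a w.u.g.; `gcb_locSob_of_wug`, `gcb_locL2_of_locBdd`. -/
theorem gcb_locSob_const (hS : Std m K N) (c : ℝ) :
    LocalSobolev m (fun _ : X => c) := by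
  refine gcb_locSob_of_wug hS ?_ (gcb_wug_const_aux m c)
  exact gcb_locL2_of_locBdd hS aestronglyMeasurable_const (gcb_locBdd_const m c)

/-- unfold; `sub_self`, `abs_zero`, `ENNReal.ofReal_zero`, `lintegral_zero`, `zero_le`. -/
theorem gcb_wug_const (m : Measure X) (c : ℝ) :
    IsLocalWeakUpperGradient m (fun _ : X => c) (fun _ => 0) := by
  exact gcb_wug_const_aux m c

/-- NO hypothesis: if a minimal w.u.g. exists it is `≤ 0` a.e. (`gcb_wug_const`) and `≥ 0` a.e.; otherwise
`weakGradient = 0` by `dif_neg`. -/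
theorem gcb_wg_const (m : Measure X) (c : ℝ) :
    weakGradient m (fun _ : X => c) =ᵐ[m] fun _ => 0 := by
  by_cases h : ∃ D, IsMinimalLocalWeakUpperGradient m (fun _ : X => c) D
  · have hsp : IsMinimalLocalWeakUpperGradient m (fun _ : X => c)
        (weakGradient m (fun _ : X => c)) := by
      unfold weakGradient
      rw [dif_pos h]
      exact Classical.choose_spec h
    have h1 := hsp.2 _ (gcb_wug_const m c)
    have h2 := gcb_wg_nonneg m (fun _ : X => c)
    filter_upwards [h1, h2] with x hx1 hx2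
    exact le_antisymm hx1 hx2
  · unfold weakGradient
    rw [dif_neg h]
    exact Filter.EventuallyEq.refl _ _

/-- `gcb_need_tp_add`, `gcb_locSob_of_wug`. -/
theorem gcb_locSob_add (hS : Std m K N) (hf : LocalSobolev m f) (hg : LocalSobolev m g) :
    LocalSobolev m (fun x => f x + g x) := by
  exact gcb_locSob_of_wug hS (gcb_locL2_add hf.1 hg.1) (gcb_need_tp_add hS hf hg)

theorem gcb_wug_neg_iff_aux (m : Measure X) (f D : X → ℝ) :
    IsLocalWeakUpperGradient m (fun x => -f x) D ↔ IsLocalWeakUpperGradient m f D := by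
  unfold IsLocalWeakUpperGradient
  have h : ∀ a b : ℝ, |-a - -b| = |a - b| := by
    intro a b
    rw [← abs_neg (a - b)]
    congr 1
    ring
  simp only [h]

/-- the w.u.g. of `-f` and `f` are the same (see `gcb_wg_neg`). -/
theorem gcb_locSob_neg (hf : LocalSobolev m f) :
    LocalSobolev m (fun x => -f x) := by
  obtain ⟨hL, D₀, hD₀⟩ := hf
  refine ⟨?_, D₀, (gcb_wug_neg_iff_aux m f D₀).2 hD₀.1, fun D' hD' =>
    hD₀.2 D' ((gcb_wug_neg_iff_aux m f D').1 hD')⟩
  have := gcb_locL2_const_mul (-1) hL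
  simpa using this

theorem gcb_locSob_sub (hS : Std m K N) (hf : LocalSobolev m f) (hg : LocalSobolev m g) :
    LocalSobolev m (fun x => f x - g x) := by
  have := gcb_locSob_add hS hf (gcb_locSob_neg hg)
  simpa [sub_eq_add_neg] using this

/-- `gcb_need_tp_smul`. -/
theorem gcb_locSob_const_mul (hS : Std m K N) (c : ℝ) (hf : LocalSobolev m f) :
    LocalSobolev m (fun x => c * f x) := by
  exact gcb_locSob_of_wug hS (gcb_locL2_const_mul c hf.1) (gcb_need_tp_smul hS c hf)

theorem gcb_locSob_mul_const (hS : Std m K N) (hf : LocalSobolev m f) (c : ℝ) :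
    LocalSobolev m (fun x => f x * c) := by
  have := gcb_locSob_const_mul hS c hf
  simpa [mul_comm] using this

theorem gcb_locSob_add_const (hS : Std m K N) (hf : LocalSobolev m f) (c : ℝ) :
    LocalSobolev m (fun x => f x + c) := by
  exact gcb_locSob_add hS hf (gcb_locSob_const hS c)

/-- `Finset.induction_on` (classical). -/
theorem gcb_locSob_sum (hS : Std m K N) {ι : Type*} (s : Finset ι) (G : ι → X → ℝ) (hG : ∀ i ∈ s, LocalSobolev
    m (G i)) :
    LocalSobolev m (fun x => ∑ i ∈ s, G i x) := by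
  classical
  induction s using Finset.induction_on with
  | empty => simpa using gcb_locSob_const hS 0
  | insert a s ha ih =>
    have h1 : LocalSobolev m (G a) := hG a (Finset.mem_insert_self a s)
    have h2 : LocalSobolev m (fun x => ∑ i ∈ s, G i x) :=
      ih fun i hi => hG i (Finset.mem_insert_of_mem hi)
    have := gcb_locSob_add hS h1 h2
    simpa [Finset.sum_insert ha] using this

theorem gcb_wg_add_le (hS : Std m K N) (hf : LocalSobolev m f) (hg : LocalSobolev m g) :
    ∀ᵐ x ∂m, weakGradient m (fun y => f y + g y) x ≤ weakGradient m f x + weakGradient m g x := by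
  exact gcb_wg_le (gcb_locSob_add hS hf hg) (gcb_need_tp_add hS hf hg)

theorem gcb_wg_sub_le (hS : Std m K N) (hf : LocalSobolev m f) (hg : LocalSobolev m g) :
    ∀ᵐ x ∂m, weakGradient m (fun y => f y - g y) x ≤ weakGradient m f x + weakGradient m g x := by
  have h := gcb_wg_add_le hS hf (gcb_locSob_neg hg)
  rw [gcb_wg_neg m g] at h
  simpa only [sub_eq_add_neg] using h

/-- `≤` by `gcb_need_tp_smul`; `≥` by the same for `c⁻¹` applied to `c f` (`c ≠ 0`); `c = 0`: `gcb_wg_const`. -/
theorem gcb_wg_const_mul (hS : Std m K N) (c : ℝ) (hf : LocalSobolev m f) :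
    weakGradient m (fun y => c * f y) =ᵐ[m] fun x => |c| * weakGradient m f x := by
  rcases eq_or_ne c 0 with rfl | hc
  · have h := gcb_wg_const m (0 : ℝ)
    simpa only [zero_mul, abs_zero] using h
  · have hcf : LocalSobolev m (fun y => c * f y) := gcb_locSob_const_mul hS c hf
    have h1 : ∀ᵐ x ∂m, weakGradient m (fun y => c * f y) x ≤ |c| * weakGradient m f x :=
      gcb_wg_le hcf (gcb_need_tp_smul hS c hf)
    have h2w := gcb_need_tp_smul hS c⁻¹ hcf
    have hfun : (fun x => c⁻¹ * (c * f x)) = f := by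
      funext x
      rw [← mul_assoc, inv_mul_cancel₀ hc, one_mul]
    rw [hfun] at h2w
    have h2 : ∀ᵐ x ∂m, weakGradient m f x ≤ |c⁻¹| * weakGradient m (fun y => c * f y) x :=
      gcb_wg_le hf h2w
    filter_upwards [h1, h2] with x hx1 hx2
    apply le_antisymm hx1
    have hpos : 0 < |c| := abs_pos.mpr hc
    have h3 : |c| * weakGradient m f x ≤
        |c| * (|c⁻¹| * weakGradient m (fun y => c * f y) x) :=
      mul_le_mul_of_nonneg_left hx2 hpos.le
    have h4 : |c| * (|c⁻¹| * weakGradient m (fun y => c * f y) x) =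
        weakGradient m (fun y => c * f y) x := by
      rw [← mul_assoc, abs_inv, mul_inv_cancel₀ hpos.ne', one_mul]
    rw [h4] at h3
    exact h3

/-- `f = (f - g) + g`, `g = (g - f) + f`, `gcb_wg_sub_comm`. -/
theorem gcb_wg_abs_sub_le (hS : Std m K N) (hf : LocalSobolev m f) (hg : LocalSobolev m g) :
    ∀ᵐ x ∂m, |weakGradient m f x - weakGradient m g x| ≤ weakGradient m (fun y => f y - g y) x := by
  have hfg : LocalSobolev m (fun y => f y - g y) := gcb_locSob_sub hS hf hg
  have hgf : LocalSobolev m (fun y => g y - f y) := gcb_locSob_sub hS hg hf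
  have h1 := gcb_wg_add_le hS hfg hg
  have h2 := gcb_wg_add_le hS hgf hf
  have e1 : (fun y => f y - g y + g y) = f := by
    funext y; ring
  have e2 : (fun y => g y - f y + f y) = g := by
    funext y; ring
  rw [e1] at h1
  rw [e2, ← gcb_wg_sub_comm m f g] at h2
  filter_upwards [h1, h2] with x hx1 hx2
  rw [abs_le]
  constructor <;> linarith

/-- LOCALITY, `gcb_need_tp_locality`. -/
theorem gcb_wg_eq_on (hS : Std m K N) (hf : LocalSobolev m f) (hg : LocalSobolev m g) :
    ∀ᵐ x ∂m, f x = g x → weakGradient m f x = weakGradient m g x := by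
  exact gcb_need_tp_locality hS hf hg

theorem gcb_wg_eq_zero_on_const (hS : Std m K N) (hf : LocalSobolev m f) (c : ℝ) :
    ∀ᵐ x ∂m, f x = c → weakGradient m f x = 0 := by
  have h1 := gcb_wg_eq_on hS hf (gcb_locSob_const (m := m) hS c)
  have h2 := gcb_wg_const m c
  filter_upwards [h1, h2] with x hx1 hx2 hfx
  rw [hx1 hfx, hx2]

/-- `gcb_need_tp_null`. -/
theorem gcb_wg_eq_zero_on_null (hS : Std m K N) (hf : LocalSobolev m f) {s : Set ℝ} (hs : volume s = 0) :
    ∀ᵐ x ∂m, f x ∈ s → weakGradient m f x = 0 := by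
  exact gcb_need_tp_null hS hf hs

theorem gcb_wg_eq_zero_off (hS : Std m K N) (hf : LocalSobolev m f) {A : Set X} (h0 : ∀ᵐ x ∂m, x ∉ A → f x =
    0) :
    ∀ᵐ x ∂m, x ∉ A → weakGradient m f x = 0 := by
  have h1 := gcb_wg_eq_zero_on_const hS hf 0
  filter_upwards [h1, h0] with x hx1 hx0 hxA
  exact hx1 (hx0 hxA)

/-- LOCALISATION PRINCIPLE, `gcb_need_tp_local`. -/
theorem gcb_locSob_of_local (hS : Std m K N) (h : ∀ (o : X) (R : ℝ), ∃ g, LocalSobolev m g ∧ ∀ᵐ x ∂m, x ∈
    Metric.ball o R → f x = g x) :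
    LocalSobolev m f := by
  exact gcb_need_tp_local hS h

/-- MONOTONICITY.  `gcb_need_tp_mono`. -/
theorem gcb_wug_mono {D' : X → ℝ} (hD : IsLocalWeakUpperGradient m f D) (hD' : LocallyL2 m D') (hle : ∀ᵐ x ∂m,
    D x ≤ D' x) :
    IsLocalWeakUpperGradient m f D' := by
  exact gcb_need_tp_mono hD hD' hle

/-- STABILITY with a fixed w.u.g.: `gcb_need_tp_stab` with the constant sequence `D`. -/
theorem gcb_wug_stab (hS : Std m K N) {fs : ℕ → X → ℝ} (hf : LocallyL2 m f) (hfs : ∀ n, LocallyL2 m (fs n))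
    (hw : ∀ n, IsLocalWeakUpperGradient m (fs n) D) (hlim : gcb_L2locLim m fs f) :
    IsLocalWeakUpperGradient m f D := by
  refine gcb_need_tp_stab hS (fs := fs) (Ds := fun _ => D) hf (hw 0).1 hfs hw hlim ?_
  intro o R
  simp

/-- `D` is a w.u.g. of every `fs n` (`gcb_wug_mono`), `gcb_wug_stab`, `gcb_locSob_of_wug`, `gcb_wg_le`. -/
theorem gcb_locSob_of_lim (hS : Std m K N) {fs : ℕ → X → ℝ} (hf : LocallyL2 m f) (hfs : ∀ n, LocalSobolev m
    (fs n)) (hD : LocallyL2 m D) (hle : ∀ n, ∀ᵐ x ∂m, weakGradient m (fs n) x ≤ D x) (hlim : gcb_L2locLim m fs f)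
    :
    LocalSobolev m f ∧ ∀ᵐ x ∂m, weakGradient m f x ≤ D x := by
  have hw : ∀ n, IsLocalWeakUpperGradient m (fs n) D := fun n =>
    gcb_wug_mono (gcb_wg_wug (hfs n)) hD (hle n)
  have hwf : IsLocalWeakUpperGradient m f D := gcb_wug_stab hS hf (fun n => (hfs n).1) hw hlim
  have hLS : LocalSobolev m f := gcb_locSob_of_wug hS hf hwf
  exact ⟨hLS, gcb_wg_le hLS hwf⟩

end Claimed.Agent.R210.GCB.Grad
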