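/-
Row 210 (S0432), layer GCB (calculus for the frozen `weakGradient` / `gamma`).  Architect: helper469.
Leaf file `Lip`: (locally) Lipschitz functions, distance functions, cut-off functions.
Notation in the comments: |Df| = `weakGradient m f`, Γ(f,g) = `gamma m f g`, E = `form m`.
Consumers never import this file: they import `GCB/Ifc.lean` (or `GCB/IfcA.lean`).
Rules: keep every statement and name as it is (the interface restates them); helper lemmas are welcome
(prefix `gcb_`, fresh names).  Earlier lemmas of this file and of the imported files may be used.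
-/
import Claimed.Agent.R210.GCB.Grad

set_option autoImplicit false

open Claims.C0366 Claims.C0366.WeakHessian
open Set Filter MeasureTheory
open scoped ENNReal NNReal Topology

namespace Claimed.Agent.R210.GCB.Lip

open Claimed.Agent.R210.Defs Claimed.Agent.R210.GCB.Defs Claimed.Agent.R210.GCB.NeedTP
  Claimed.Agent.R210.GCB.Basic Claimed.Agent.R210.GCB.LocBdd Claimed.Agent.R210.GCB.Grad

variable {X : Type*} [MetricSpace X] [MeasurableSpace X] [BorelSpace X]
  [CompleteSpace X] [TopologicalSpace.SeparableSpace X] [ProperSpace X]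
  {m : Measure X} {K N : ℝ} {f g h f' g' f₁ f₂ g₁ g₂ u v D : X → ℝ}

/-- `gcb_need_tp_lip`. -/
theorem gcb_locSob_of_locLip (hS : Std m K N) (hf : LocallyLipschitz f) :
    LocalSobolev m f := by
  exact (gcb_need_tp_lip hS hf).1

theorem gcb_locSob_of_lip (hS : Std m K N) (hf : GloballyLipschitz f) :
    LocalSobolev m f := by
  obtain ⟨L, hL⟩ := hf
  exact gcb_locSob_of_locLip hS hL.locallyLipschitz

theorem gcb_wg_le_slope (hS : Std m K N) (hf : LocallyLipschitz f) :
    ∀ᵐ x ∂m, ENNReal.ofReal (weakGradient m f x) ≤ localSlope f x := by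
  exact (gcb_need_tp_lip hS hf).2

/-- `limsup_le_of_le`: `|f y - f x| / dist y x ≤ L` for `y ≠ x`. -/
theorem gcb_slope_le_lip {L : ℝ≥0} (hf : LipschitzWith L f) (x : X) :
    localSlope f x ≤ L := by
  unfold localSlope
  refine Filter.limsup_le_of_le (h := ?_)
  filter_upwards [self_mem_nhdsWithin] with y hy
  have hne : y ≠ x := hy
  have hpos : 0 < dist y x := dist_pos.mpr hne
  have h1 : |f y - f x| ≤ L * dist y x := by
    have := hf.dist_le_mul y x
    rwa [Real.dist_eq] at this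
  have h2 : |f y - f x| / dist y x ≤ L := by
    rw [div_le_iff₀ hpos]
    exact h1
  calc ENNReal.ofReal (|f y - f x| / dist y x) ≤ ENNReal.ofReal (L : ℝ) :=
        ENNReal.ofReal_le_ofReal h2
    _ = L := ENNReal.ofReal_coe_nnreal

theorem gcb_wg_le_lip (hS : Std m K N) {L : ℝ≥0} (hf : LipschitzWith L f) :
    ∀ᵐ x ∂m, weakGradient m f x ≤ L := by
  filter_upwards [gcb_wg_le_slope hS hf.locallyLipschitz] with x hx
  have h1 : ENNReal.ofReal (weakGradient m f x) ≤ ENNReal.ofReal (L : ℝ) := by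
    rw [ENNReal.ofReal_coe_nnreal]
    exact le_trans hx (gcb_slope_le_lip hf x)
  exact (ENNReal.ofReal_le_ofReal_iff L.coe_nonneg).1 h1

/-- `LipschitzOnWith.extend_real` gives a global `L`-Lipschitz `g = f` on `U`; `gcb_wg_eq_on`, `gcb_wg_le_lip`. -/
theorem gcb_wg_le_lipOn (hS : Std m K N) (hf : LocalSobolev m f) {L : ℝ≥0} {U : Set X} (hL : LipschitzOnWith L
    f U) :
    ∀ᵐ x ∂m, x ∈ U → weakGradient m f x ≤ L := by
  obtain ⟨g, hg, hfg⟩ := hL.extend_real
  have hg' : LocalSobolev m g := gcb_locSob_of_lip hS ⟨L, hg⟩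
  filter_upwards [gcb_wg_eq_on hS hf hg', gcb_wg_le_lip hS hg] with x hx1 hx2 hxU
  rw [hx1 (hfg hxU)]
  exact hx2

/-- a locally Lipschitz function is Lipschitz on the compact `closedBall o R`
(`LocallyLipschitz`/`LocallyLipschitzOn.exists_lipschitzOnWith_of_compact`); `gcb_wg_le_lipOn`,
`gcb_wg_nonneg`. -/
theorem gcb_locBdd_wg_of_locLip (hS : Std m K N) (hf : LocallyLipschitz f) :
    gcb_LocBdd m (weakGradient m f) := by
  intro o R
  obtain ⟨L, hL⟩ := LocallyLipschitzOn.exists_lipschitzOnWith_of_compact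
    (isCompact_closedBall o R) (hf.locallyLipschitzOn (s := Metric.closedBall o R))
  refine ⟨L, ?_⟩
  filter_upwards [gcb_wg_le_lipOn hS (gcb_locSob_of_locLip hS hf) hL, gcb_wg_nonneg m f]
    with x hx1 hx2 hxB
  rw [abs_of_nonneg hx2]
  exact hx1 (Metric.ball_subset_closedBall hxB)

theorem gcb_locSob_dist (hS : Std m K N) (x₀ : X) :
    LocalSobolev m (fun z => dist z x₀) := by
  exact gcb_locSob_of_lip hS ⟨1, LipschitzWith.dist_left x₀⟩

theorem gcb_wg_dist_le (hS : Std m K N) (x₀ : X) :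
    ∀ᵐ z ∂m, weakGradient m (fun z => dist z x₀) z ≤ 1 := by
  have h := gcb_wg_le_lip hS (LipschitzWith.dist_left x₀)
  simpa using h

theorem gcb_locLip_wfun (x₀ : X) :
    LocallyLipschitz (wfun x₀) := by
  have h1 : LocallyLipschitz (fun t : ℝ => t ^ 2 / 2) := by
    have : ContDiff ℝ 1 (fun t : ℝ => t ^ 2 / 2) := by fun_prop
    exact this.locallyLipschitz
  have h2 : LocallyLipschitz (fun z : X => dist z x₀) :=
    (LipschitzWith.dist_left x₀).locallyLipschitz
  exact h1.comp h2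

theorem gcb_locSob_wfun (hS : Std m K N) (x₀ : X) :
    LocalSobolev m (wfun x₀) :=
  gcb_locSob_of_locLip hS (gcb_locLip_wfun x₀)

/-- the slope of `d²/2` is at most `d`. -/
theorem gcb_slope_wfun_le (x₀ z : X) : localSlope (wfun x₀) z ≤ ENNReal.ofReal (dist z x₀) := by
  unfold localSlope
  by_cases hne : (𝓝[≠] z).NeBot
  · have hev : (fun y => ENNReal.ofReal (|wfun x₀ y - wfun x₀ z| / dist y z))
        ≤ᶠ[𝓝[≠] z] fun y => ENNReal.ofReal ((dist y x₀ + dist z x₀) / 2) := by
      filter_upwards [self_mem_nhdsWithin] with y hy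
      apply ENNReal.ofReal_le_ofReal
      have hpos : 0 < dist y z := dist_pos.2 hy
      rw [div_le_iff₀ hpos]
      have h1 : |dist y x₀ - dist z x₀| ≤ dist y z := abs_dist_sub_le y z x₀
      have h2 : wfun x₀ y - wfun x₀ z = (dist y x₀ - dist z x₀) * ((dist y x₀ + dist z x₀) / 2) := by
        unfold wfun
        ring
      have h3 : 0 ≤ (dist y x₀ + dist z x₀) / 2 := by positivity
      rw [h2, abs_mul, abs_of_nonneg h3, mul_comm]
      exact mul_le_mul_of_nonneg_left h1 h3
    have ht : Tendsto (fun y => ENNReal.ofReal ((dist y x₀ + dist z x₀) / 2)) (𝓝[≠] z)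
        (𝓝 (ENNReal.ofReal (dist z x₀))) := by
      have hc : Continuous (fun y : X => ENNReal.ofReal ((dist y x₀ + dist z x₀) / 2)) :=
        ENNReal.continuous_ofReal.comp (by fun_prop)
      have := (hc.tendsto z).mono_left (nhdsWithin_le_nhds (s := {z}ᶜ))
      simpa using this
    exact (limsup_le_limsup hev).trans_eq ht.limsup_eq
  · rw [not_neBot.1 hne]
    simp

/-- `localSlope (wfun x₀) z ≤ ofReal (dist z x₀)`: `|d(y)² - d(z)²|/2 ≤ dist y z (d(y) + d(z))/2`; or the chain
rule `gcb_wg_comp_C1` in a later file. -/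
theorem gcb_wg_wfun_le (hS : Std m K N) (x₀ : X) :
    ∀ᵐ z ∂m, weakGradient m (wfun x₀) z ≤ dist z x₀ := by
  filter_upwards [gcb_wg_le_slope hS (gcb_locLip_wfun x₀)] with z hz
  exact (ENNReal.ofReal_le_ofReal_iff dist_nonneg).1 (hz.trans (gcb_slope_wfun_le x₀ z))

theorem gcb_locBdd_wfun (m : Measure X) (x₀ : X) :
    gcb_LocBdd m (wfun x₀) :=
  gcb_locBdd_of_continuous m (gcb_locLip_wfun x₀).continuous

theorem gcb_lipC_lipB (hf : LipC f) :
    LipB f := by
  obtain ⟨⟨L, hL⟩, hc⟩ := hf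
  obtain ⟨C, hC⟩ := hL.continuous.bounded_above_of_compact_support hc
  exact ⟨⟨L, hL⟩, ⟨C, fun x => by simpa using hC x⟩⟩

/-- continuous with compact support, `m` finite on compact sets (`hS.finite`):
`Continuous.memLp_of_hasCompactSupport` needs `IsFiniteMeasureOnCompacts m` (construct the instance from
`hS.finite`). -/
theorem gcb_lipC_memLp (hS : Std m K N) (hf : LipC f) (p : ℝ≥0∞) :
    MemLp f p m := by
  obtain ⟨⟨L, hL⟩, hc⟩ := hf
  have : IsFiniteMeasureOnCompacts m := ⟨fun K hK => hS.finite K hK.isBounded⟩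
  exact hL.continuous.memLp_of_hasCompactSupport hc

/-- `|Df| ≤ L` and `|Df| = 0` a.e. off the support (`gcb_wg_eq_zero_off`). -/
theorem gcb_sob_of_lipC (hS : Std m K N) (hf : LipC f) :
    Sobolev m f := by
  have h2 : MemLp f 2 m := gcb_lipC_memLp hS hf 2
  obtain ⟨⟨L, hL⟩, hc⟩ := hf
  have hloc : LocalSobolev m f := gcb_locSob_of_lip hS ⟨L, hL⟩
  have hcpt : IsCompact (tsupport f) := hc
  have hG : MemLp ((tsupport f).indicator (fun _ : X => (L : ℝ))) 2 m :=
    memLp_indicator_const 2 hcpt.measurableSet (L : ℝ) (Or.inr (hS.finite _ hcpt.isBounded).ne)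
  refine gcb_sob_of_le hloc h2 hG ?_
  have h0 : ∀ᵐ x ∂m, x ∉ tsupport f → f x = 0 :=
    Filter.Eventually.of_forall fun x hx => image_eq_zero_of_notMem_tsupport hx
  filter_upwards [gcb_wg_le_lip hS hL, gcb_wg_eq_zero_off hS hloc h0] with x h1 h3
  by_cases hx : x ∈ tsupport f
  · rw [Set.indicator_of_mem hx]
    exact h1
  · rw [Set.indicator_of_notMem hx, h3 hx]

/-- `χ x = max 0 (min 1 (R + 1 - dist x o))`; support in the compact `closedBall o (R+1)`. -/
theorem gcb_exists_cutoff (o : X) (R : ℝ) :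
    ∃ χ : X → ℝ, LipC χ ∧ LipschitzWith 1 χ ∧ (∀ x, 0 ≤ χ x ∧ χ x ≤ 1) ∧ (∀ x ∈ Metric.closedBall o R, χ x = 1) ∧
    ∀ x, x ∉ Metric.ball o (R + 1) → χ x = 0 := by
  have hL : LipschitzWith 1 (fun x : X => max 0 (min 1 (R + 1 - dist x o))) := by
    have h1 : LipschitzWith 1 (fun x : X => dist x o) := LipschitzWith.dist_left o
    have h2 : LipschitzWith 1 (fun x : X => R + 1 - dist x o) := by
      refine LipschitzWith.of_dist_le_mul fun x y => ?_
      have := h1.dist_le_mul x y
      simp only [Real.dist_eq] at this ⊢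
      rw [show R + 1 - dist x o - (R + 1 - dist y o) = -(dist x o - dist y o) by ring, abs_neg]
      exact this
    exact (h2.const_min 1).const_max 0
  have h0 : ∀ x, x ∉ Metric.ball o (R + 1) → max 0 (min 1 (R + 1 - dist x o)) = 0 := by
    intro x hx
    rw [Metric.mem_ball, not_lt] at hx
    apply max_eq_left
    exact (min_le_right _ _).trans (by linarith)
  refine ⟨fun x => max 0 (min 1 (R + 1 - dist x o)), ⟨⟨1, hL⟩, ?_⟩, hL, ?_, ?_, h0⟩
  · refine HasCompactSupport.intro (isCompact_closedBall o (R + 1)) fun x hx => ?_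
    exact h0 x fun hx' => hx (Metric.ball_subset_closedBall hx')
  · intro x
    exact ⟨le_max_left _ _, max_le zero_le_one (min_le_left _ _)⟩
  · intro x hx
    rw [Metric.mem_closedBall] at hx
    have : min 1 (R + 1 - dist x o) = 1 := min_eq_left (by linarith)
    simp only [this]
    exact max_eq_right zero_le_one

/-- `χ x = max 0 (min 1 (2 - dist x o / (n+1)))`-type formula. -/
theorem gcb_exists_cutoff_slow (o : X) (n : ℕ) :
    ∃ χ : X → ℝ, LipC χ ∧ LipschitzWith (1 / ((n : ℝ≥0) + 1)) χ ∧ (∀ x, 0 ≤ χ x ∧ χ x ≤ 1) ∧ (∀ x ∈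
    Metric.closedBall o n, χ x = 1) := by
  have hn : (0 : ℝ) < (n : ℝ) + 1 := by positivity
  have hL : LipschitzWith (1 / ((n : ℝ≥0) + 1))
      (fun x : X => max 0 (min 1 (2 - dist x o / ((n : ℝ) + 1)))) := by
    have h1 : LipschitzWith 1 (fun x : X => dist x o) := LipschitzWith.dist_left o
    have h2 : LipschitzWith (1 / ((n : ℝ≥0) + 1)) (fun x : X => 2 - dist x o / ((n : ℝ) + 1)) := by
      refine LipschitzWith.of_dist_le_mul fun x y => ?_
      have := h1.dist_le_mul x y
      simp only [Real.dist_eq, NNReal.coe_one, one_mul] at this ⊢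
      rw [show 2 - dist x o / ((n : ℝ) + 1) - (2 - dist y o / ((n : ℝ) + 1))
        = -((dist x o - dist y o) / ((n : ℝ) + 1)) by ring, abs_neg, abs_div, abs_of_pos hn]
      push_cast
      rw [div_mul_eq_mul_div, one_mul]
      gcongr
    exact (h2.const_min 1).const_max 0
  refine ⟨fun x => max 0 (min 1 (2 - dist x o / ((n : ℝ) + 1))), ⟨⟨_, hL⟩, ?_⟩, hL, ?_, ?_⟩
  · refine HasCompactSupport.intro (isCompact_closedBall o (2 * ((n : ℝ) + 1))) fun x hx => ?_
    rw [Metric.mem_closedBall, not_le] at hx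
    apply max_eq_left
    refine (min_le_right _ _).trans ?_
    have : 2 < dist x o / ((n : ℝ) + 1) := by
      rw [lt_div_iff₀ hn]; exact hx
    linarith
  · intro x
    exact ⟨le_max_left _ _, max_le zero_le_one (min_le_left _ _)⟩
  · intro x hx
    rw [Metric.mem_closedBall] at hx
    have h3 : dist x o / ((n : ℝ) + 1) ≤ 1 := by
      rw [div_le_one hn]; linarith
    have : min 1 (2 - dist x o / ((n : ℝ) + 1)) = 1 := min_eq_left (by linarith)
    simp only [this]
    exact max_eq_right zero_le_one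

theorem gcb_locLip_of_lip (hf : GloballyLipschitz f) :
    LocallyLipschitz f := by
  obtain ⟨L, hL⟩ := hf
  exact hL.locallyLipschitz

theorem gcb_lipB_add (hf : LipB f) (hg : LipB g) :
    LipB (fun x => f x + g x) := by
  obtain ⟨⟨L, hL⟩, B, hB⟩ := hf
  obtain ⟨⟨L', hL'⟩, B', hB'⟩ := hg
  exact ⟨⟨_, hL.add hL'⟩, B + B', fun x => (abs_add_le _ _).trans (add_le_add (hB x) (hB' x))⟩

theorem gcb_lipB_const (c : ℝ) :
    LipB (fun _ : X => c) := by
  exact ⟨⟨0, LipschitzWith.const c⟩, |c|, fun _ => le_rfl⟩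

theorem gcb_lipB_const_mul (c : ℝ) (hf : LipB f) :
    LipB (fun x => c * f x) := by
  obtain ⟨⟨L, hL⟩, B, hB⟩ := hf
  refine ⟨⟨(|c|).toNNReal * L, LipschitzWith.of_dist_le_mul fun x y => ?_⟩, |c| * B, fun x => ?_⟩
  · have h1 := hL.dist_le_mul x y
    simp only [Real.dist_eq] at h1 ⊢
    push_cast
    rw [Real.coe_toNNReal _ (abs_nonneg c), ← mul_sub, abs_mul, mul_assoc]
    gcongr
  · rw [abs_mul]
    exact mul_le_mul_of_nonneg_left (hB x) (abs_nonneg c)

/-- `|f x g x - f y g y| ≤ |f x| |g x - g y| + |g y| |f x - f y|`; `LipschitzWith.of_dist_le_mul`. -/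
theorem gcb_lipB_mul (hf : LipB f) (hg : LipB g) :
    LipB (fun x => f x * g x) := by
  obtain ⟨⟨L, hL⟩, B, hB⟩ := hf
  obtain ⟨⟨L', hL'⟩, B', hB'⟩ := hg
  refine ⟨⟨B.toNNReal * L' + B'.toNNReal * L, LipschitzWith.of_dist_le_mul fun x y => ?_⟩,
    B * B', fun x => ?_⟩
  · have h1 := hL.dist_le_mul x y
    have h2 := hL'.dist_le_mul x y
    have hB0 : 0 ≤ B := (abs_nonneg _).trans (hB x)
    have hB0' : 0 ≤ B' := (abs_nonneg _).trans (hB' x)
    simp only [Real.dist_eq] at h1 h2 ⊢
    push_cast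
    rw [Real.coe_toNNReal _ hB0, Real.coe_toNNReal _ hB0']
    calc |f x * g x - f y * g y| = |f x * (g x - g y) + g y * (f x - f y)| := by ring_nf
      _ ≤ |f x| * |g x - g y| + |g y| * |f x - f y| := by
          refine (abs_add_le _ _).trans ?_
          rw [abs_mul, abs_mul]
      _ ≤ B * (L' * dist x y) + B' * (L * dist x y) := by
          gcongr
          · exact hB x
          · exact hB' y
      _ = (B * L' + B' * L) * dist x y := by ring
  · rw [abs_mul]
    exact mul_le_mul (hB x) (hB' x) (abs_nonneg _) ((abs_nonneg _).trans (hB x))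

/-- `φ` is Lipschitz on the compact `Icc (-B) B` which contains the range of `f`. -/
theorem gcb_lipB_comp {φ : ℝ → ℝ} (hφ : LocallyLipschitz φ) (hf : LipB f) :
    LipB (fun x => φ (f x)) := by
  obtain ⟨⟨L, hL⟩, B, hB⟩ := hf
  obtain ⟨L', hL'⟩ := (hφ.locallyLipschitzOn (s := Icc (-B) B)).exists_lipschitzOnWith_of_compact
    isCompact_Icc
  have hmem : ∀ x, f x ∈ Icc (-B) B := fun x => abs_le.mp (hB x)
  refine ⟨⟨L' * L, LipschitzWith.of_dist_le_mul fun x y => ?_⟩, ?_⟩
  · have h1 := hL.dist_le_mul x y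
    have h2 := hL'.dist_le_mul _ (hmem x) _ (hmem y)
    push_cast
    calc dist (φ (f x)) (φ (f y)) ≤ L' * dist (f x) (f y) := h2
      _ ≤ L' * (L * dist x y) := by gcongr
      _ = L' * L * dist x y := by ring
  · obtain ⟨C, hC⟩ := (isCompact_Icc (a := -B) (b := B)).exists_bound_of_continuousOn
      hφ.continuous.continuousOn
    exact ⟨C, fun x => by simpa using hC _ (hmem x)⟩

/-- `HasCompactSupport.add`. -/
theorem gcb_lipC_add (hf : LipC f) (hg : LipC g) :
    LipC (fun x => f x + g x) := by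
  obtain ⟨⟨L, hL⟩, hc⟩ := hf
  obtain ⟨⟨L', hL'⟩, hc'⟩ := hg
  exact ⟨⟨_, hL.add hL'⟩, hc.add hc'⟩

theorem gcb_lipC_neg (hf : LipC f) :
    LipC (fun x => -f x) := by
  obtain ⟨⟨L, hL⟩, hc⟩ := hf
  exact ⟨⟨_, hL.neg⟩, hc.neg⟩

theorem gcb_lipC_const_mul (c : ℝ) (hf : LipC f) :
    LipC (fun x => c * f x) := by
  exact ⟨(gcb_lipB_const_mul c (gcb_lipC_lipB hf)).1, hf.2.comp_left (g := fun t => c * t) (mul_zero c)⟩

/-- `gcb_lipB_comp`, `HasCompactSupport.comp_left`. -/
theorem gcb_lipC_comp {φ : ℝ → ℝ} (hφ : LocallyLipschitz φ) (h0 : φ 0 = 0) (hf : LipC f) :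
    LipC (fun x => φ (f x)) := by
  exact ⟨(gcb_lipB_comp hφ (gcb_lipC_lipB hf)).1, hf.2.comp_left h0⟩

theorem gcb_lipC_clamp_Icc {a b : ℝ} (ha : a ≤ 0) (hb : 0 ≤ b) (hf : LipC f) :
    LipC (fun x => max (min (f x) b) a) := by
  obtain ⟨⟨L, hL⟩, hc⟩ := hf
  refine ⟨⟨L, (hL.min_const b).max_const a⟩, hc.comp_left (g := fun t => max (min t b) a) ?_⟩
  simp [hb, ha]

/-- `K = tsupport f` compact; `g` is bounded by `B` and `L'`-Lipschitz on `K`
(`LocallyLipschitzOn.exists_lipschitzOnWith_of_compact`).  `x, y ∈ K`: product estimate; `x ∈ K, y ∉ K`: `|g x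
f x| = |g x| |f x - f y| ≤ B L dist x y`; `x, y ∉ K`: `0`. -/
theorem gcb_lipC_mul_locLip (hg : LocallyLipschitz g) (hf : LipC f) :
    LipC (fun x => g x * f x) := by
  obtain ⟨⟨L, hL⟩, hc⟩ := hf
  have hK : IsCompact (tsupport f) := hc
  obtain ⟨L', hL'⟩ := (hg.locallyLipschitzOn (s := tsupport f)).exists_lipschitzOnWith_of_compact hK
  obtain ⟨B, hB⟩ := hK.exists_bound_of_continuousOn hg.continuous.continuousOn
  obtain ⟨B', hB'⟩ := hK.exists_bound_of_continuousOn hL.continuous.continuousOn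
  have hoff : ∀ x, x ∉ tsupport f → f x = 0 := fun x hx => image_eq_zero_of_notMem_tsupport hx
  refine ⟨⟨(|B|).toNNReal * L + (|B'|).toNNReal * L', LipschitzWith.of_dist_le_mul fun x y => ?_⟩,
    hc.mul_left⟩
  have h1 := hL.dist_le_mul x y
  simp only [Real.dist_eq] at h1 ⊢
  push_cast
  rw [Real.coe_toNNReal _ (abs_nonneg B), Real.coe_toNNReal _ (abs_nonneg B')]
  have hd := dist_nonneg (x := x) (y := y)
  have hextra : 0 ≤ |B'| * (L' * dist x y) := by positivity
  have hextra2 : 0 ≤ |B| * (L * dist x y) := by positivity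
  by_cases hx : x ∈ tsupport f
  · by_cases hy : y ∈ tsupport f
    · have h2 := hL'.dist_le_mul _ hx _ hy
      simp only [Real.dist_eq] at h2
      have hBx : |g x| ≤ |B| := (by simpa using hB x hx : |g x| ≤ B).trans (le_abs_self B)
      have hBy : |f y| ≤ |B'| := (by simpa using hB' y hy : |f y| ≤ B').trans (le_abs_self B')
      calc |g x * f x - g y * f y| = |g x * (f x - f y) + f y * (g x - g y)| := by ring_nf
        _ ≤ |g x| * |f x - f y| + |f y| * |g x - g y| := by
            refine (abs_add_le _ _).trans ?_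
            rw [abs_mul, abs_mul]
        _ ≤ |B| * (L * dist x y) + |B'| * (L' * dist x y) := by gcongr
        _ = (|B| * L + |B'| * L') * dist x y := by ring
    · have hBx : |g x| ≤ |B| := (by simpa using hB x hx : |g x| ≤ B).trans (le_abs_self B)
      rw [hoff y hy] at h1 ⊢
      calc |g x * f x - g y * 0| = |g x| * |f x - 0| := by rw [mul_zero, sub_zero, sub_zero, abs_mul]
        _ ≤ |B| * (L * dist x y) := by gcongr
        _ ≤ (|B| * L + |B'| * L') * dist x y := by nlinarith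
  · by_cases hy : y ∈ tsupport f
    · have hBy : |g y| ≤ |B| := (by simpa using hB y hy : |g y| ≤ B).trans (le_abs_self B)
      rw [hoff x hx] at h1 ⊢
      calc |g x * 0 - g y * f y| = |g y| * |0 - f y| := by
            rw [mul_zero, zero_sub, zero_sub, abs_neg, abs_neg, abs_mul]
        _ ≤ |B| * (L * dist x y) := by gcongr
        _ ≤ (|B| * L + |B'| * L') * dist x y := by nlinarith
    · rw [hoff x hx, hoff y hy]
      simp only [mul_zero, sub_self, abs_zero]
      positivity

theorem gcb_lipC_mul_lipB (hg : LipB g) (hf : LipC f) :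
    LipC (fun x => g x * f x) := by
  exact gcb_lipC_mul_locLip (gcb_locLip_of_lip hg.1) hf

end Claimed.Agent.R210.GCB.Lip
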