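/-
Row 210 (S0432), layer GCB (calculus for the frozen `weakGradient` / `gamma`).  Architect: helper469.
Leaf file `Comp`: chain rule and Leibniz rule for `weakGradient`; lattice operations.
Notation in the comments: |Df| = `weakGradient m f`, Γ(f,g) = `gamma m f g`, E = `form m`.
Consumers never import this file: they import `GCB/Ifc.lean` (or `GCB/IfcA.lean`).
Rules: keep every statement and name as it is (the interface restates them); helper lemmas are welcome
(prefix `gcb_`, fresh names).  Earlier lemmas of this file and of the imported files may be used.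
-/
import Claimed.Agent.R210.GCB.Lip

set_option autoImplicit false

open Claims.C0366 Claims.C0366.WeakHessian
open Set Filter MeasureTheory
open scoped ENNReal NNReal Topology

namespace Claimed.Agent.R210.GCB.Comp

open Claimed.Agent.R210.Defs Claimed.Agent.R210.GCB.Defs Claimed.Agent.R210.GCB.NeedTP
  Claimed.Agent.R210.GCB.Basic Claimed.Agent.R210.GCB.LocBdd Claimed.Agent.R210.GCB.Grad
  Claimed.Agent.R210.GCB.Lip

variable {X : Type*} [MetricSpace X] [MeasurableSpace X] [BorelSpace X]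
  [CompleteSpace X] [TopologicalSpace.SeparableSpace X] [ProperSpace X]
  {m : Measure X} {K N : ℝ} {f g h f' g' f₁ f₂ g₁ g₂ u v D : X → ℝ}

/-- `gcb_need_tp_chain_lip`. -/
theorem gcb_locSob_comp_lip (hS : Std m K N) {φ : ℝ → ℝ} {L : ℝ≥0} (hφ : LipschitzWith L φ) (hf : LocalSobolev
    m f) :
    LocalSobolev m (fun x => φ (f x)) := by
  exact (gcb_need_tp_chain_lip hS hφ hf).1

/-- `gcb_need_tp_chain_lip` (`deriv φ = 0` where `φ` is not differentiable: a null set, where `|Df| = 0`). -/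
theorem gcb_wg_comp_lip (hS : Std m K N) {φ : ℝ → ℝ} {L : ℝ≥0} (hφ : LipschitzWith L φ) (hf : LocalSobolev m
    f) :
    weakGradient m (fun x => φ (f x)) =ᵐ[m] fun x => |deriv φ (f x)| * weakGradient m f x := by
  exact (gcb_need_tp_chain_lip hS hφ hf).2

/-- `norm_deriv_le_of_lipschitz`. -/
theorem gcb_wg_comp_lip_le (hS : Std m K N) {φ : ℝ → ℝ} {L : ℝ≥0} (hφ : LipschitzWith L φ) (hf : LocalSobolev
    m f) :
    ∀ᵐ x ∂m, weakGradient m (fun x => φ (f x)) x ≤ L * weakGradient m f x := by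
  filter_upwards [gcb_wg_comp_lip hS hφ hf, gcb_wg_nonneg m f] with x hx h0
  rw [hx]
  have : |deriv φ (f x)| ≤ L := by
    simpa using norm_deriv_le_of_lipschitz (x₀ := f x) hφ
  exact mul_le_mul_of_nonneg_right this h0

/-- a `C¹` function coincides near `Icc (-B) B` with a globally Lipschitz function (`φ ∘ clamp_{B+1}`). -/
theorem gcb_exists_lip_eq_near_Icc {φ : ℝ → ℝ} (hφ : ContDiff ℝ 1 φ) (B : ℝ) :
    ∃ (ψ : ℝ → ℝ) (L : ℝ≥0), LipschitzWith L ψ ∧ ∀ t, |t| ≤ B → ψ =ᶠ[𝓝 t] φ := by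
  have hloc : LocallyLipschitz φ := hφ.locallyLipschitz
  obtain ⟨L, hL⟩ := (hloc.locallyLipschitzOn (s := Icc (-(B + 1)) (B + 1))).exists_lipschitzOnWith_of_compact
    isCompact_Icc
  by_cases hB : 0 ≤ B
  · have hcl : LipschitzWith 1 (fun t : ℝ => max (min t (B + 1)) (-(B + 1))) :=
      (LipschitzWith.id.min_const (B + 1)).max_const (-(B + 1))
    have hmem : ∀ t : ℝ, max (min t (B + 1)) (-(B + 1)) ∈ Icc (-(B + 1)) (B + 1) := fun t =>
      ⟨le_max_right _ _, max_le (min_le_right _ _) (by linarith)⟩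
    refine ⟨fun t => φ (max (min t (B + 1)) (-(B + 1))), L * 1, ?_, fun t ht => ?_⟩
    · refine LipschitzWith.of_dist_le_mul fun x y => ?_
      have h1 := hL.dist_le_mul _ (hmem x) _ (hmem y)
      have h2 := hcl.dist_le_mul x y
      simp only [NNReal.coe_one, one_mul, NNReal.coe_mul, mul_one] at h2 ⊢
      exact h1.trans (mul_le_mul_of_nonneg_left h2 L.coe_nonneg)
    · have hI : Ioo (-(B + 1)) (B + 1) ∈ 𝓝 t := by
        apply Ioo_mem_nhds
        · linarith [(abs_le.1 ht).1]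
        · linarith [(abs_le.1 ht).2]
      filter_upwards [hI] with s hs
      rw [min_eq_left hs.2.le, max_eq_left hs.1.le]
  · refine ⟨fun _ => 0, 0, LipschitzWith.const 0, fun t ht => ?_⟩
    exact absurd ((abs_nonneg t).trans ht) hB

/-- `gcb_locSob_of_local`: on `ball o R`, `|f| ≤ B` a.e., `φ ∘ f = (φ ∘ clamp) ∘ f`, `clamp t = max (-B) (min B
t)`, and `φ ∘ clamp` is Lipschitz (`φ` is Lipschitz on `Icc (-B) B`). -/
theorem gcb_locSob_comp_C1 (hS : Std m K N) {φ : ℝ → ℝ} (hφ : ContDiff ℝ 1 φ) (hf : LocalSobolev m f) (hb :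
    gcb_LocBdd m f) :
    LocalSobolev m (fun x => φ (f x)) := by
  refine gcb_locSob_of_local hS fun o R => ?_
  obtain ⟨B, hB⟩ := hb o R
  obtain ⟨ψ, L, hL, hψ⟩ := gcb_exists_lip_eq_near_Icc hφ B
  refine ⟨fun x => ψ (f x), gcb_locSob_comp_lip hS hL hf, ?_⟩
  filter_upwards [hB] with x hx hxB
  exact ((hψ _ (hx hxB)).self_of_nhds).symm

/-- on `ball o n` compare with `φ ∘ clamp_{B+1}` (locality; the derivatives agree on `(-B-1, B+1)`); countable
union of balls. -/
theorem gcb_wg_comp_C1 (hS : Std m K N) {φ : ℝ → ℝ} (hφ : ContDiff ℝ 1 φ) (hf : LocalSobolev m f) (hb :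
    gcb_LocBdd m f) :
    weakGradient m (fun x => φ (f x)) =ᵐ[m] fun x => |deriv φ (f x)| * weakGradient m f x := by
  have hφf : LocalSobolev m (fun x => φ (f x)) := gcb_locSob_comp_C1 hS hφ hf hb
  rcases isEmpty_or_nonempty X with hX | ⟨⟨o⟩⟩
  · exact Eventually.of_forall fun x => (hX.false x).elim
  have key : ∀ n : ℕ, ∀ᵐ x ∂m, x ∈ Metric.ball o (n : ℝ) →
      weakGradient m (fun x => φ (f x)) x = |deriv φ (f x)| * weakGradient m f x := by
    intro n
    obtain ⟨B, hB⟩ := hb o n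
    obtain ⟨ψ, L, hL, hψ⟩ := gcb_exists_lip_eq_near_Icc hφ B
    filter_upwards [hB, gcb_wg_eq_on hS hφf (gcb_locSob_comp_lip hS hL hf), gcb_wg_comp_lip hS hL hf]
      with x hx hloc hch hxB
    have hxC := hx hxB
    rw [hloc ((hψ _ hxC).self_of_nhds).symm, hch, (hψ _ hxC).deriv_eq]
  filter_upwards [ae_all_iff.2 key] with x hx
  obtain ⟨n, hn⟩ := exists_nat_gt (dist x o)
  exact hx n (Metric.mem_ball.2 hn)

/-- a `C¹` function on an open subset `I` of the line coincides near a compact subset `C` of `I` with a globally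
Lipschitz function (multiply by a smooth cut-off). -/
theorem gcb_exists_lip_eq_near {φ : ℝ → ℝ} {I C : Set ℝ} (hI : IsOpen I) (hφ : ContDiffOn ℝ 1 φ I)
    (hC : IsCompact C) (hCI : C ⊆ I) :
    ∃ (ψ : ℝ → ℝ) (L : ℝ≥0), LipschitzWith L ψ ∧ ∀ t ∈ C, ψ =ᶠ[𝓝 t] φ := by
  obtain ⟨K', hK', hCK', hK'I⟩ := exists_compact_between hC hI hCI
  obtain ⟨χ, h1, h0, -⟩ := exists_contMDiffMap_one_nhds_of_subset_interior (n := 1) (modelWithCornersSelf ℝ ℝ)
    hC.isClosed hCK'
  have hχ : ContDiff ℝ 1 (χ : ℝ → ℝ) := by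
    have := χ.contMDiff
    exact this.contDiff
  have hψ : ContDiff ℝ 1 (fun t => χ t * φ t) := by
    rw [contDiff_iff_contDiffAt]
    intro t
    by_cases ht : t ∈ I
    · exact hχ.contDiffAt.mul (hφ.contDiffAt (hI.mem_nhds ht))
    · have htK : t ∈ K'ᶜ := fun h => ht (hK'I h)
      have hev : (fun t => χ t * φ t) =ᶠ[𝓝 t] fun _ => (0 : ℝ) := by
        filter_upwards [hK'.isClosed.isOpen_compl.mem_nhds htK] with s hs
        rw [h0 s hs, zero_mul]
      exact contDiffAt_const.congr_of_eventuallyEq hev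
  have hsupp : HasCompactSupport (fun t => χ t * φ t) := by
    refine HasCompactSupport.intro hK' ?_
    intro s hs
    rw [h0 s hs, zero_mul]
  obtain ⟨L, hL⟩ := hψ.lipschitzWith_of_hasCompactSupport hsupp one_ne_zero
  refine ⟨_, L, hL, fun t ht => ?_⟩
  have := (eventually_nhdsSet_iff_forall.1 h1) t ht
  filter_upwards [this] with s hs
  rw [hs, one_mul]

/-- for each ball: smooth bump `χ = 1` near `C`, `tsupport χ ⊆ I` compact (`exists_contDiff_tsupport_subset` /
`exists_smooth_...`); `χ φ` is `C¹` with compact support, hence Lipschitz; `gcb_locSob_of_local`. -/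
theorem gcb_locSob_comp_on (hS : Std m K N) {φ : ℝ → ℝ} {I : Set ℝ} (hI : IsOpen I) (hφ : ContDiffOn ℝ 1 φ I)
    (hf : LocalSobolev m f) (hr : ∀ (o : X) (R : ℝ), ∃ C : Set ℝ, IsCompact C ∧ C ⊆ I ∧ ∀ᵐ x ∂m, x ∈ Metric.ball o
    R → f x ∈ C) :
    LocalSobolev m (fun x => φ (f x)) := by
  refine gcb_locSob_of_local hS fun o R => ?_
  obtain ⟨C, hC, hCI, hfC⟩ := hr o R
  obtain ⟨ψ, L, hL, hψ⟩ := gcb_exists_lip_eq_near hI hφ hC hCI
  refine ⟨fun x => ψ (f x), gcb_locSob_comp_lip hS hL hf, ?_⟩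
  filter_upwards [hfC] with x hx hxB
  exact ((hψ _ (hx hxB)).self_of_nhds).symm

theorem gcb_wg_comp_on (hS : Std m K N) {φ : ℝ → ℝ} {I : Set ℝ} (hI : IsOpen I) (hφ : ContDiffOn ℝ 1 φ I) (hf
    : LocalSobolev m f) (hr : ∀ (o : X) (R : ℝ), ∃ C : Set ℝ, IsCompact C ∧ C ⊆ I ∧ ∀ᵐ x ∂m, x ∈ Metric.ball o R →
    f x ∈ C) :
    weakGradient m (fun x => φ (f x)) =ᵐ[m] fun x => |deriv φ (f x)| * weakGradient m f x := by
  have hφf : LocalSobolev m (fun x => φ (f x)) := gcb_locSob_comp_on hS hI hφ hf hr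
  rcases isEmpty_or_nonempty X with hX | ⟨⟨o⟩⟩
  · exact Eventually.of_forall fun x => (hX.false x).elim
  have key : ∀ n : ℕ, ∀ᵐ x ∂m, x ∈ Metric.ball o (n : ℝ) →
      weakGradient m (fun x => φ (f x)) x = |deriv φ (f x)| * weakGradient m f x := by
    intro n
    obtain ⟨C, hC, hCI, hfC⟩ := hr o n
    obtain ⟨ψ, L, hL, hψ⟩ := gcb_exists_lip_eq_near hI hφ hC hCI
    filter_upwards [hfC, gcb_wg_eq_on hS hφf (gcb_locSob_comp_lip hS hL hf), gcb_wg_comp_lip hS hL hf]
      with x hx hloc hch hxB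
    have hxC := hx hxB
    rw [hloc ((hψ _ hxC).self_of_nhds).symm, hch, (hψ _ hxC).deriv_eq]
  filter_upwards [ae_all_iff.2 key] with x hx
  obtain ⟨n, hn⟩ := exists_nat_gt (dist x o)
  exact hx n (Metric.mem_ball.2 hn)

/-- `gcb_need_tp_leibniz`. -/
theorem gcb_locSob_mul (hS : Std m K N) (hf : LocalSobolev m f) (hg : LocalSobolev m g) (hbf : gcb_LocBdd m f)
    (hbg : gcb_LocBdd m g) :
    LocalSobolev m (fun x => f x * g x) := by
  exact gcb_locSob_of_wug hS (gcb_locL2_mul_locBdd hg.1 (gcb_locSob_aesm hf) hbf)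
    (gcb_need_tp_leibniz hS hf hg hbf hbg)

theorem gcb_wg_mul_le (hS : Std m K N) (hf : LocalSobolev m f) (hg : LocalSobolev m g) (hbf : gcb_LocBdd m f)
    (hbg : gcb_LocBdd m g) :
    ∀ᵐ x ∂m, weakGradient m (fun y => f y * g y) x ≤ |f x| * weakGradient m g x + |g x| * weakGradient m f x := by
  exact gcb_wg_le (gcb_locSob_mul hS hf hg hbf hbg) (gcb_need_tp_leibniz hS hf hg hbf hbg)

theorem gcb_locSob_abs (hS : Std m K N) (hf : LocalSobolev m f) :
    LocalSobolev m (fun x => |f x|) := by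
  have h1 : LipschitzWith 1 (fun t : ℝ => |t|) := by
    refine LipschitzWith.of_dist_le_mul fun x y => ?_
    simp only [Real.dist_eq, NNReal.coe_one, one_mul]
    exact abs_abs_sub_abs_le_abs_sub x y
  exact gcb_locSob_comp_lip hS h1 hf

theorem gcb_locSob_posPart (hS : Std m K N) (hf : LocalSobolev m f) :
    LocalSobolev m (fun x => max (f x) 0) := by
  exact gcb_locSob_comp_lip hS (φ := fun t => max t 0) (LipschitzWith.id.max_const 0) hf

/-- `max a b = b + max (a - b) 0`. -/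
theorem gcb_locSob_max (hS : Std m K N) (hf : LocalSobolev m f) (hg : LocalSobolev m g) :
    LocalSobolev m (fun x => max (f x) (g x)) := by
  have h1 := gcb_locSob_add hS hg (gcb_locSob_posPart hS (gcb_locSob_sub hS hf hg))
  have h2 : (fun x => max (f x) (g x)) = fun x => g x + max (f x - g x) 0 := by
    funext x
    rw [← max_add_add_left]
    congr 1 <;> ring
  rw [h2]
  exact h1

theorem gcb_locSob_min (hS : Std m K N) (hf : LocalSobolev m f) (hg : LocalSobolev m g) :
    LocalSobolev m (fun x => min (f x) (g x)) := by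
  have h1 := gcb_locSob_neg (gcb_locSob_max hS (gcb_locSob_neg hf) (gcb_locSob_neg hg))
  have h2 : (fun x => min (f x) (g x)) = fun x => -max (-f x) (-g x) := by
    funext x
    rw [max_neg_neg, neg_neg]
  rw [h2]
  exact h1

theorem gcb_locSob_clamp (hS : Std m K N) (hf : LocalSobolev m f) (c : ℝ) :
    LocalSobolev m (fun x => max (min (f x) c) (-c)) := by
  exact gcb_locSob_comp_lip hS (φ := fun t => max (min t c) (-c))
    ((LipschitzWith.id.min_const c).max_const (-c)) hf

/-- locality on `{f ≥ 0}` (`|f| = f`) and on `{f ≤ 0}` (`|f| = -f`, `gcb_wg_neg`). -/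
theorem gcb_wg_abs (hS : Std m K N) (hf : LocalSobolev m f) :
    weakGradient m (fun x => |f x|) =ᵐ[m] weakGradient m f := by
  filter_upwards [gcb_wg_eq_on hS (gcb_locSob_abs hS hf) hf,
    gcb_wg_eq_on hS (gcb_locSob_abs hS hf) (gcb_locSob_neg hf)] with x h1 h2
  rcases le_total 0 (f x) with h | h
  · exact h1 (abs_of_nonneg h)
  · rw [h2 (abs_of_nonpos h), gcb_wg_neg]

/-- locality (`gcb_wg_eq_on` with `f`, `gcb_wg_eq_zero_on_const`). -/
theorem gcb_wg_posPart (hS : Std m K N) (hf : LocalSobolev m f) :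
    ∀ᵐ x ∂m, (0 < f x → weakGradient m (fun y => max (f y) 0) x = weakGradient m f x) ∧ (f x ≤ 0 → weakGradient m
    (fun y => max (f y) 0) x = 0) := by
  filter_upwards [gcb_wg_eq_on hS (gcb_locSob_posPart hS hf) hf,
    gcb_wg_eq_zero_on_const hS (gcb_locSob_posPart hS hf) 0] with x h1 h2
  exact ⟨fun h => h1 (max_eq_left h.le), fun h => h2 (max_eq_right h)⟩

theorem gcb_wg_max (hS : Std m K N) (hf : LocalSobolev m f) (hg : LocalSobolev m g) :
    ∀ᵐ x ∂m, (g x ≤ f x → weakGradient m (fun y => max (f y) (g y)) x = weakGradient m f x) ∧ (f x ≤ g x →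
    weakGradient m (fun y => max (f y) (g y)) x = weakGradient m g x) := by
  filter_upwards [gcb_wg_eq_on hS (gcb_locSob_max hS hf hg) hf,
    gcb_wg_eq_on hS (gcb_locSob_max hS hf hg) hg] with x h1 h2
  exact ⟨fun h => h1 (max_eq_left h), fun h => h2 (max_eq_right h)⟩

theorem gcb_wg_min (hS : Std m K N) (hf : LocalSobolev m f) (hg : LocalSobolev m g) :
    ∀ᵐ x ∂m, (f x ≤ g x → weakGradient m (fun y => min (f y) (g y)) x = weakGradient m f x) ∧ (g x ≤ f x →
    weakGradient m (fun y => min (f y) (g y)) x = weakGradient m g x) := by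
  filter_upwards [gcb_wg_eq_on hS (gcb_locSob_min hS hf hg) hf,
    gcb_wg_eq_on hS (gcb_locSob_min hS hf hg) hg] with x h1 h2
  exact ⟨fun h => h1 (min_eq_left h), fun h => h2 (min_eq_right h)⟩

theorem gcb_wg_clamp (hS : Std m K N) (hf : LocalSobolev m f) {c : ℝ} (hc : 0 ≤ c) :
    ∀ᵐ x ∂m, (|f x| < c → weakGradient m (fun y => max (min (f y) c) (-c)) x = weakGradient m f x) ∧ (c ≤ |f x| →
    weakGradient m (fun y => max (min (f y) c) (-c)) x = 0) := by
  filter_upwards [gcb_wg_eq_on hS (gcb_locSob_clamp hS hf c) hf,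
    gcb_wg_eq_zero_on_const hS (gcb_locSob_clamp hS hf c) c,
    gcb_wg_eq_zero_on_const hS (gcb_locSob_clamp hS hf c) (-c)] with x h1 h2 h3
  refine ⟨fun h => h1 ?_, fun h => ?_⟩
  · rw [abs_lt] at h
    rw [min_eq_left h.2.le, max_eq_left h.1.le]
  · rcases le_abs.1 h with h | h
    · apply h2
      rw [min_eq_right h, max_eq_left (by linarith)]
    · apply h3
      have h4 : f x ≤ -c := by linarith
      rw [min_eq_left (by linarith), max_eq_right h4]

/-- the clamp is `1`-Lipschitz: `gcb_wg_comp_lip_le`. -/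
theorem gcb_wg_clamp_le (hS : Std m K N) (hf : LocalSobolev m f) (c : ℝ) :
    ∀ᵐ x ∂m, weakGradient m (fun y => max (min (f y) c) (-c)) x ≤ weakGradient m f x := by
  have := gcb_wg_comp_lip_le hS (φ := fun t => max (min t c) (-c))
    ((LipschitzWith.id.min_const c).max_const (-c)) hf
  simpa using this

theorem gcb_clamp_abs_le (t : ℝ) {c : ℝ} (hc : 0 ≤ c) : |max (min t c) (-c)| ≤ c := by
  rw [abs_le]
  exact ⟨le_max_right _ _, max_le (min_le_right _ _) (by linarith)⟩

theorem gcb_clamp_abs_le_abs (t : ℝ) {c : ℝ} (hc : 0 ≤ c) : |max (min t c) (-c)| ≤ |t| := by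
  rcases le_total 0 t with ht | ht
  · rw [abs_of_nonneg ht, abs_le]
    refine ⟨?_, max_le (min_le_left _ _) (by linarith)⟩
    exact le_trans (by linarith) (le_max_left _ _ |>.trans' (le_min ht hc))
  · rw [abs_of_nonpos ht, abs_le]
    refine ⟨?_, max_le ((min_le_left _ _).trans (by linarith)) (by linarith)⟩
    rw [neg_neg]
    exact le_trans (le_min le_rfl (by linarith)) (le_max_left _ _)

theorem gcb_clamp_eq (t : ℝ) {c : ℝ} (hc : |t| ≤ c) : max (min t c) (-c) = t := by
  rw [abs_le] at hc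
  rw [min_eq_left hc.2, max_eq_left hc.1]

/-- both conclusions of the general Leibniz inequality at once. -/
theorem gcb_mul_gen_aux (hS : Std m K N) (hf : LocalSobolev m f) (hg : LocalSobolev m g) (h2 : LocallyL2 m
    (fun x => f x * g x)) (hG : LocallyL2 m (fun x => |f x| * weakGradient m g x + |g x| * weakGradient m f x)) :
    LocalSobolev m (fun x => f x * g x) ∧
      ∀ᵐ x ∂m, weakGradient m (fun y => f y * g y) x ≤ |f x| * weakGradient m g x + |g x| * weakGradient m f x := by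
  set fn : ℕ → X → ℝ := fun n x => max (min (f x) (n : ℝ)) (-(n : ℝ)) with hfn
  set gn : ℕ → X → ℝ := fun n x => max (min (g x) (n : ℝ)) (-(n : ℝ)) with hgn
  have hn0 : ∀ n : ℕ, (0 : ℝ) ≤ (n : ℝ) := fun n => Nat.cast_nonneg n
  have hfnS : ∀ n, LocalSobolev m (fn n) := fun n => gcb_locSob_clamp hS hf n
  have hgnS : ∀ n, LocalSobolev m (gn n) := fun n => gcb_locSob_clamp hS hg n
  have hfnB : ∀ n, gcb_LocBdd m (fn n) := fun n =>
    gcb_locBdd_of_bdd m ⟨n, fun x => gcb_clamp_abs_le (f x) (hn0 n)⟩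
  have hgnB : ∀ n, gcb_LocBdd m (gn n) := fun n =>
    gcb_locBdd_of_bdd m ⟨n, fun x => gcb_clamp_abs_le (g x) (hn0 n)⟩
  have hfs : ∀ n, LocalSobolev m (fun x => fn n x * gn n x) := fun n =>
    gcb_locSob_mul hS (hfnS n) (hgnS n) (hfnB n) (hgnB n)
  refine gcb_locSob_of_lim hS (fs := fun n x => fn n x * gn n x) h2 hfs hG (fun n => ?_) ?_
  · filter_upwards [gcb_wg_mul_le hS (hfnS n) (hgnS n) (hfnB n) (hgnB n), gcb_wg_clamp_le hS hf (n : ℝ),
      gcb_wg_clamp_le hS hg (n : ℝ), gcb_wg_nonneg m (fn n), gcb_wg_nonneg m (gn n), gcb_wg_nonneg m f,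
      gcb_wg_nonneg m g] with x h1 h3 h4 h5 h6 h7 h8
    refine h1.trans (add_le_add ?_ ?_)
    · exact mul_le_mul (gcb_clamp_abs_le_abs (f x) (hn0 n)) h4 h6 (abs_nonneg _)
    · exact mul_le_mul (gcb_clamp_abs_le_abs (g x) (hn0 n)) h3 h5 (abs_nonneg _)
  · intro o R
    rcases le_or_gt R 0 with hR | hR
    · rw [Metric.ball_eq_empty.2 hR]
      simp
    · refine gcb_eLpNorm_tendsto_of_dominated (G := fun x => 2 * (f x * g x)) (fun n => ?_) ((h2 o R hR).const_mul 2)
        (fun n => Eventually.of_forall fun x => ?_) (Eventually.of_forall fun x => ?_)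
      · exact ((gcb_locSob_aesm (hfs n)).sub (gcb_aesm_of_locL2 h2)).restrict
      · have h1 : |fn n x * gn n x| ≤ |f x * g x| := by
          rw [abs_mul, abs_mul]
          exact mul_le_mul (gcb_clamp_abs_le_abs (f x) (hn0 n)) (gcb_clamp_abs_le_abs (g x) (hn0 n)) (abs_nonneg _)
            (abs_nonneg _)
        calc |fn n x * gn n x - f x * g x| ≤ |fn n x * gn n x| + |f x * g x| := abs_sub _ _
          _ ≤ |f x * g x| + |f x * g x| := by linarith
          _ = |2 * (f x * g x)| := by rw [abs_mul]; norm_num; ring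
      · refine tendsto_const_nhds.congr' ?_
        obtain ⟨n0, hn0'⟩ := exists_nat_ge (max |f x| |g x|)
        filter_upwards [eventually_ge_atTop n0] with n hn
        have hn' : max |f x| |g x| ≤ (n : ℝ) := hn0'.trans (by exact_mod_cast hn)
        have e1 : fn n x = f x := gcb_clamp_eq (f x) ((le_max_left _ _).trans hn')
        have e2 : gn n x = g x := gcb_clamp_eq (g x) ((le_max_right _ _).trans hn')
        rw [e1, e2, sub_self]

/-- clamp both factors at level `n`: `|D(fₙ gₙ)| ≤ |fₙ||Dgₙ| + |gₙ||Dfₙ| ≤ G` (`gcb_wg_mul_le`,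
`gcb_wg_clamp_le`), `fₙ gₙ → f g` in `L²` of every ball (dominated by `|f g|`); `gcb_locSob_of_lim`.  (Put it
AFTER the clamp lemmas in the file.) -/
theorem gcb_locSob_mul_gen (hS : Std m K N) (hf : LocalSobolev m f) (hg : LocalSobolev m g) (h2 : LocallyL2 m
    (fun x => f x * g x)) (hG : LocallyL2 m (fun x => |f x| * weakGradient m g x + |g x| * weakGradient m f x)) :
    LocalSobolev m (fun x => f x * g x) :=
  (gcb_mul_gen_aux hS hf hg h2 hG).1

theorem gcb_wg_mul_le_gen (hS : Std m K N) (hf : LocalSobolev m f) (hg : LocalSobolev m g) (h2 : LocallyL2 m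
    (fun x => f x * g x)) (hG : LocallyL2 m (fun x => |f x| * weakGradient m g x + |g x| * weakGradient m f x)) :
    ∀ᵐ x ∂m, weakGradient m (fun y => f y * g y) x ≤ |f x| * weakGradient m g x + |g x| * weakGradient m f x :=
  (gcb_mul_gen_aux hS hf hg h2 hG).2

theorem gcb_mul_locLip_aux1 (hg : LocallyLipschitz g) (hf : LocalSobolev m f) :
    LocallyL2 m (fun x => g x * f x) :=
  gcb_locL2_mul_locBdd hf.1 hg.continuous.aestronglyMeasurable (gcb_locBdd_of_continuous m hg.continuous)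

theorem gcb_mul_locLip_aux2 (hS : Std m K N) (hg : LocallyLipschitz g) (hf : LocalSobolev m f) :
    LocallyL2 m (fun x => |g x| * weakGradient m f x + |f x| * weakGradient m g x) := by
  have hc : Continuous (fun x => |g x|) := continuous_abs.comp hg.continuous
  have h1 : LocallyL2 m (fun x => |g x| * weakGradient m f x) :=
    gcb_locL2_mul_locBdd (gcb_wg_locL2 m f) hc.aestronglyMeasurable (gcb_locBdd_of_continuous m hc)
  have hfa : AEStronglyMeasurable (fun x => |f x|) m :=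
    continuous_abs.comp_aestronglyMeasurable (gcb_locSob_aesm hf)
  have h2 : LocallyL2 m (fun x => |f x|) :=
    gcb_locL2_mono hf.1 hfa (Eventually.of_forall fun x => by rw [abs_abs])
  have h3 : LocallyL2 m (fun x => weakGradient m g x * |f x|) :=
    gcb_locL2_mul_locBdd h2 (gcb_wg_aesm m g) (gcb_locBdd_wg_of_locLip hS hg)
  have h4 : LocallyL2 m (fun x => |f x| * weakGradient m g x) :=
    gcb_locL2_congr (Eventually.of_forall fun x => mul_comm _ _) h3
  exact gcb_locL2_add h1 h4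

/-- `gcb_locSob_mul_gen`; `g` and `|Dg|` are locally bounded (`gcb_locBdd_of_continuous`,
`gcb_locBdd_wg_of_locLip`). -/
theorem gcb_locSob_mul_locLip (hS : Std m K N) (hg : LocallyLipschitz g) (hf : LocalSobolev m f) :
    LocalSobolev m (fun x => g x * f x) :=
  gcb_locSob_mul_gen hS (gcb_locSob_of_locLip hS hg) hf (gcb_mul_locLip_aux1 hg hf) (gcb_mul_locLip_aux2 hS hg hf)

theorem gcb_wg_mul_locLip_le (hS : Std m K N) (hg : LocallyLipschitz g) (hf : LocalSobolev m f) :
    ∀ᵐ x ∂m, weakGradient m (fun y => g y * f y) x ≤ |g x| * weakGradient m f x + |f x| * weakGradient m g x :=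
  gcb_wg_mul_le_gen hS (gcb_locSob_of_locLip hS hg) hf (gcb_mul_locLip_aux1 hg hf) (gcb_mul_locLip_aux2 hS hg hf)

end Claimed.Agent.R210.GCB.Comp
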