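/-
Row 210 (S0432), layer GCB (calculus for the frozen `weakGradient` / `gamma`).  Architect: helper469.
Leaf file `Sob`: the class `Sobolev`: vector space, lattice, algebra, cut-off.
Notation in the comments: |Df| = `weakGradient m f`, Γ(f,g) = `gamma m f g`, E = `form m`.
Consumers never import this file: they import `GCB/Ifc.lean` (or `GCB/IfcA.lean`).
Rules: keep every statement and name as it is (the interface restates them); helper lemmas are welcome
(prefix `gcb_`, fresh names).  Earlier lemmas of this file and of the imported files may be used.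
-/
import Claimed.Agent.R210.GCB.Comp

set_option autoImplicit false

open Claims.C0366 Claims.C0366.WeakHessian
open Set Filter MeasureTheory
open scoped ENNReal NNReal Topology

namespace Claimed.Agent.R210.GCB.Sob

open Claimed.Agent.R210.Defs Claimed.Agent.R210.GCB.Defs Claimed.Agent.R210.GCB.NeedTP
  Claimed.Agent.R210.GCB.Basic Claimed.Agent.R210.GCB.LocBdd Claimed.Agent.R210.GCB.Grad
  Claimed.Agent.R210.GCB.Lip Claimed.Agent.R210.GCB.Comp

variable {X : Type*} [MetricSpace X] [MeasurableSpace X] [BorelSpace X]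
  [CompleteSpace X] [TopologicalSpace.SeparableSpace X] [ProperSpace X]
  {m : Measure X} {K N : ℝ} {f g h f' g' f₁ f₂ g₁ g₂ u v D : X → ℝ}

theorem gcb_sob_zero (hS : Std m K N) :
    Sobolev m (fun _ : X => (0 : ℝ)) := by
  exact gcb_sob_of_le (G := fun _ => (0 : ℝ)) (gcb_locSob_const hS 0) MemLp.zero' MemLp.zero'
    (gcb_wg_const m 0).le

/-- `gcb_sob_of_le` with `G = |Df| + |Dg|`. -/
theorem gcb_sob_add (hS : Std m K N) (hf : Sobolev m f) (hg : Sobolev m g) :
    Sobolev m (fun x => f x + g x) := by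
  exact gcb_sob_of_le (gcb_locSob_add hS (gcb_sob_locSob hf) (gcb_sob_locSob hg))
    ((gcb_sob_memLp hf).add (gcb_sob_memLp hg))
    ((gcb_sob_wg_memLp hf).add (gcb_sob_wg_memLp hg))
    (gcb_wg_add_le hS (gcb_sob_locSob hf) (gcb_sob_locSob hg))

theorem gcb_sob_neg (hf : Sobolev m f) :
    Sobolev m (fun x => -f x) := by
  refine gcb_sob_of_le (gcb_locSob_neg (gcb_sob_locSob hf)) (gcb_sob_memLp hf).neg
    (gcb_sob_wg_memLp hf) ?_
  rw [gcb_wg_neg]
  exact Eventually.of_forall fun x => le_rfl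

theorem gcb_sob_sub (hS : Std m K N) (hf : Sobolev m f) (hg : Sobolev m g) :
    Sobolev m (fun x => f x - g x) := by
  exact gcb_sob_of_le (gcb_locSob_sub hS (gcb_sob_locSob hf) (gcb_sob_locSob hg))
    ((gcb_sob_memLp hf).sub (gcb_sob_memLp hg))
    ((gcb_sob_wg_memLp hf).add (gcb_sob_wg_memLp hg))
    (gcb_wg_sub_le hS (gcb_sob_locSob hf) (gcb_sob_locSob hg))

theorem gcb_sob_const_mul (hS : Std m K N) (c : ℝ) (hf : Sobolev m f) :
    Sobolev m (fun x => c * f x) := by
  exact gcb_sob_of_le (gcb_locSob_const_mul hS c (gcb_sob_locSob hf))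
    ((gcb_sob_memLp hf).const_mul c) ((gcb_sob_wg_memLp hf).const_mul |c|)
    (gcb_wg_const_mul hS c (gcb_sob_locSob hf)).le

theorem gcb_sob_sum (hS : Std m K N) {ι : Type*} (s : Finset ι) (G : ι → X → ℝ) (hG : ∀ i ∈ s, Sobolev m (G
    i)) :
    Sobolev m (fun x => ∑ i ∈ s, G i x) := by
  classical
  induction s using Finset.induction_on with
  | empty =>
    simp only [Finset.sum_empty]
    exact gcb_sob_zero hS
  | insert a s ha ih =>
    simp only [Finset.sum_insert ha]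
    exact gcb_sob_add hS (hG a (Finset.mem_insert_self a s))
      (ih fun i hi => hG i (Finset.mem_insert_of_mem hi))

/-- `|φ (f x)| ≤ L |f x|`, `gcb_wg_comp_lip_le`. -/
theorem gcb_sob_comp_lip (hS : Std m K N) {φ : ℝ → ℝ} {L : ℝ≥0} (hφ : LipschitzWith L φ) (h0 : φ 0 = 0) (hf :
    Sobolev m f) :
    Sobolev m (fun x => φ (f x)) := by
  exact gcb_sob_of_le (gcb_locSob_comp_lip hS hφ (gcb_sob_locSob hf))
    (hφ.comp_memLp h0 (gcb_sob_memLp hf)) ((gcb_sob_wg_memLp hf).const_mul (L : ℝ))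
    (gcb_wg_comp_lip_le hS hφ (gcb_sob_locSob hf))

theorem gcb_sob_abs (hS : Std m K N) (hf : Sobolev m f) :
    Sobolev m (fun x => |f x|) := by
  have hφ : LipschitzWith 1 (fun t : ℝ => |t|) := LipschitzWith.mk_one fun x y => by
    rw [Real.dist_eq, Real.dist_eq]
    exact abs_abs_sub_abs_le_abs_sub x y
  exact gcb_sob_comp_lip hS hφ abs_zero hf

theorem gcb_sob_posPart (hS : Std m K N) (hf : Sobolev m f) :
    Sobolev m (fun x => max (f x) 0) := by
  have hφ : LipschitzWith 1 (fun t : ℝ => max t 0) := LipschitzWith.id.max_const 0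
  exact gcb_sob_comp_lip hS hφ (max_self 0) hf

theorem gcb_sob_max (hS : Std m K N) (hf : Sobolev m f) (hg : Sobolev m g) :
    Sobolev m (fun x => max (f x) (g x)) := by
  have h1 : Sobolev m (fun x => g x + max (f x - g x) 0) :=
    gcb_sob_add hS hg (gcb_sob_posPart hS (gcb_sob_sub hS hf hg))
  have e : (fun x => max (f x) (g x)) = fun x => g x + max (f x - g x) 0 := by
    funext x
    rw [← max_add_add_left, add_sub_cancel, add_zero]
  rw [e]
  exact h1

theorem gcb_sob_min (hS : Std m K N) (hf : Sobolev m f) (hg : Sobolev m g) :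
    Sobolev m (fun x => min (f x) (g x)) := by
  have h1 : Sobolev m (fun x => -max (-f x) (-g x)) :=
    gcb_sob_neg (gcb_sob_max hS (gcb_sob_neg hf) (gcb_sob_neg hg))
  have e : (fun x => min (f x) (g x)) = fun x => -max (-f x) (-g x) := by
    funext x
    rw [max_neg_neg, neg_neg]
  rw [e]
  exact h1

theorem gcb_sob_clamp (hS : Std m K N) (hf : Sobolev m f) {c : ℝ} (hc : 0 ≤ c) :
    Sobolev m (fun x => max (min (f x) c) (-c)) := by
  have hφ : LipschitzWith 1 (fun t : ℝ => max (min t c) (-c)) :=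
    (LipschitzWith.id.min_const c).max_const (-c)
  have h0 : (fun t : ℝ => max (min t c) (-c)) 0 = 0 := by
    simp only
    rw [min_eq_left hc, max_eq_left (by linarith)]
  exact gcb_sob_comp_lip hS hφ h0 hf

theorem gcb_sob_clamp_Icc (hS : Std m K N) (hf : Sobolev m f) {a b : ℝ} (ha : a ≤ 0) (hb : 0 ≤ b) :
    Sobolev m (fun x => max (min (f x) b) a) := by
  have hφ : LipschitzWith 1 (fun t : ℝ => max (min t b) a) :=
    (LipschitzWith.id.min_const b).max_const a
  have h0 : (fun t : ℝ => max (min t b) a) 0 = 0 := by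
    simp only
    rw [min_eq_left hb, max_eq_left ha]
  exact gcb_sob_comp_lip hS hφ h0 hf

theorem gcb_memLp_aebdd_mul {B : ℝ} (hb : AEBdd m f B) (hf : AEStronglyMeasurable f m)
    (hg : MemLp g 2 m) : MemLp (fun x => f x * g x) 2 m := by
  refine MemLp.of_le_mul (c := B) hg (hf.mul hg.1) ?_
  filter_upwards [hb] with x hx
  rw [norm_mul, Real.norm_eq_abs]
  exact mul_le_mul_of_nonneg_right hx (norm_nonneg _)

theorem gcb_memLp_abs_aebdd_mul {B : ℝ} (hb : AEBdd m f B) (hf : AEStronglyMeasurable f m)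
    (hg : MemLp g 2 m) : MemLp (fun x => |f x| * g x) 2 m := by
  refine gcb_memLp_aebdd_mul (f := fun x => |f x|) (B := B) ?_ ?_ hg
  · filter_upwards [hb] with x hx
    rwa [abs_abs]
  · exact hf.norm

/-- `gcb_locSob_mul`, `gcb_wg_mul_le`, `gcb_sob_of_le`. -/
theorem gcb_sob_mul (hS : Std m K N) (hf : Sobolev m f) (hg : Sobolev m g) {B B' : ℝ} (hbf : AEBdd m f B) (hbg
    : AEBdd m g B') :
    Sobolev m (fun x => f x * g x) := by
  have hlf := gcb_sob_locSob hf
  have hlg := gcb_sob_locSob hg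
  have hLf := gcb_locBdd_of_aebdd hbf
  have hLg := gcb_locBdd_of_aebdd hbg
  refine gcb_sob_of_le (G := fun x => |f x| * weakGradient m g x + |g x| * weakGradient m f x)
    (gcb_locSob_mul hS hlf hlg hLf hLg) ?_ ?_ (gcb_wg_mul_le hS hlf hlg hLf hLg)
  · exact gcb_memLp_aebdd_mul hbf (gcb_locSob_aesm hlf) (gcb_sob_memLp hg)
  · exact (gcb_memLp_abs_aebdd_mul hbf (gcb_locSob_aesm hlf) (gcb_sob_wg_memLp hg)).add
      (gcb_memLp_abs_aebdd_mul hbg (gcb_locSob_aesm hlg) (gcb_sob_wg_memLp hf))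

/-- `gcb_locSob_mul_gen`, `gcb_wg_mul_le_gen`: `|D(g f)| ≤ |g| |Df| + |f| L`. -/
theorem gcb_sob_mul_lipB (hS : Std m K N) (hg : LipB g) (hf : Sobolev m f) :
    Sobolev m (fun x => g x * f x) := by
  have hlf := gcb_sob_locSob hf
  obtain ⟨⟨L, hL⟩, ⟨B, hB⟩⟩ := hg
  have hgl : LocallyLipschitz g := hL.locallyLipschitz
  have hgm : AEStronglyMeasurable g m := hL.continuous.aestronglyMeasurable
  have hbg : AEBdd m g B := Filter.Eventually.of_forall hB
  have hbw : AEBdd m (weakGradient m g) L := by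
    filter_upwards [gcb_wg_le_lip hS hL, gcb_wg_nonneg m g] with x h1 h2
    rwa [abs_of_nonneg h2]
  refine gcb_sob_of_le (G := fun x => |g x| * weakGradient m f x + |f x| * weakGradient m g x)
    (gcb_locSob_mul_locLip hS hgl hlf) ?_ ?_ (gcb_wg_mul_locLip_le hS hgl hlf)
  · exact gcb_memLp_aebdd_mul hbg hgm (gcb_sob_memLp hf)
  · refine (gcb_memLp_abs_aebdd_mul hbg hgm (gcb_sob_wg_memLp hf)).add ?_
    have h1 : MemLp (fun x => weakGradient m g x * |f x|) 2 m :=
      gcb_memLp_aebdd_mul hbw (gcb_wg_aesm m g) (gcb_sob_memLp hf).norm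
    simpa only [mul_comm] using h1

/-- `gcb_memLp_of_locL2_bddSupp` for `f` and for `|Df|` (`gcb_wg_eq_zero_off`). -/
theorem gcb_sob_of_bddSupp (hS : Std m K N) (hf : LocalSobolev m f) (hs : gcb_BddSupp m f) :
    Sobolev m f := by
  obtain ⟨A, hA, h0⟩ := hs
  exact ⟨gcb_memLp_of_locL2_bddSupp hf.1 ⟨A, hA, h0⟩, hf,
    gcb_memLp_of_locL2_bddSupp (gcb_wg_locL2 m f) ⟨A, hA, gcb_wg_eq_zero_off hS hf h0⟩⟩

/-- `gcb_locSob_mul_gen`; `χ f` and its gradient vanish a.e. off a ball: `gcb_sob_of_bddSupp`. -/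
theorem gcb_sob_cutoff (hS : Std m K N) {χ : X → ℝ} (hχ : LipC χ) (hf : LocalSobolev m f) :
    Sobolev m (fun x => χ x * f x) :=
  gcb_sob_of_bddSupp hS (gcb_locSob_mul_locLip hS (gcb_locLip_of_lip hχ.1) hf)
    (gcb_bddSupp_mul_left (gcb_bddSupp_of_compact m hχ.2) f)

/-- `φ ∘ f = (φ ∘ clamp_B) ∘ f` a.e., `φ ∘ clamp_B` Lipschitz and `0 ↦ 0`; `gcb_sob_comp_lip`, `gcb_sob_congr`. -/
theorem gcb_sob_comp_C1 (hS : Std m K N) {φ : ℝ → ℝ} (hφ : ContDiff ℝ 1 φ) (h0 : φ 0 = 0) (hf : Sobolev m f)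
    {B : ℝ} (hb : AEBdd m f B) :
    Sobolev m (fun x => φ (f x)) := by
  set c : ℝ := |B| with hc
  have hc0 : 0 ≤ c := abs_nonneg B
  obtain ⟨L, hL⟩ := (hφ.locallyLipschitz.locallyLipschitzOn (s := Set.Icc (-c) c)).exists_lipschitzOnWith_of_compact
    isCompact_Icc
  have hcl : LipschitzWith 1 (fun t : ℝ => max (min t c) (-c)) :=
    (LipschitzWith.id.min_const c).max_const (-c)
  have hmaps : Set.MapsTo (fun t : ℝ => max (min t c) (-c)) Set.univ (Set.Icc (-c) c) := by
    intro t _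
    exact ⟨le_max_right _ _, max_le (min_le_right _ _) (by linarith)⟩
  have hψ : LipschitzWith (L * 1) (fun t : ℝ => φ (max (min t c) (-c))) := by
    have := hL.comp hcl.lipschitzOnWith hmaps
    exact lipschitzOnWith_univ.1 this
  have hψ0 : (fun t : ℝ => φ (max (min t c) (-c))) 0 = 0 := by
    simp only
    rw [min_eq_left hc0, max_eq_left (by linarith), h0]
  have h1 := gcb_sob_comp_lip hS hψ hψ0 hf
  refine gcb_sob_congr ?_ h1
  filter_upwards [hb] with x hx
  have hx' : |f x| ≤ c := hx.trans (le_abs_self B)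
  rw [abs_le] at hx'
  show φ (max (min (f x) c) (-c)) = φ (f x)
  rw [min_eq_left hx'.2, max_eq_left hx'.1]

/-- `f' = χ f` with `gcb_exists_cutoff`. -/
theorem gcb_exists_sob_eq_on_ball (hS : Std m K N) (hf : LocalSobolev m f) (o : X) (R : ℝ) :
    ∃ f' : X → ℝ, Sobolev m f' ∧ (∀ x ∈ Metric.closedBall o R, f' x = f x) ∧ ∀ x, x ∉ Metric.ball o (R + 1) → f' x
    = 0 := by
  obtain ⟨χ, hχ, -, -, h1, h0⟩ := gcb_exists_cutoff o R
  refine ⟨fun x => χ x * f x, gcb_sob_cutoff hS hχ hf, fun x hx => ?_, fun x hx => ?_⟩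
  · simp only [h1 x hx, one_mul]
  · simp only [h0 x hx, zero_mul]

end Claimed.Agent.R210.GCB.Sob
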