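/-
Row 210 (S0432), layer GCB (calculus for the frozen `weakGradient` / `gamma`).  Architect: helper469.
Leaf file `Gam`: `gamma` is a.e. bilinear, symmetric, local, Cauchy-Schwarz.
Notation in the comments: |Df| = `weakGradient m f`, Γ(f,g) = `gamma m f g`, E = `form m`.
Consumers never import this file: they import `GCB/Ifc.lean` (or `GCB/IfcA.lean`).
Rules: keep every statement and name as it is (the interface restates them); helper lemmas are welcome
(prefix `gcb_`, fresh names).  Earlier lemmas of this file and of the imported files may be used.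
-/
import Claimed.Agent.R210.GCB.Sob
import Claimed.Agent.R210.GCB.NeedGC

set_option autoImplicit false

open Claims.C0366 Claims.C0366.WeakHessian
open Set Filter MeasureTheory
open scoped ENNReal NNReal Topology

namespace Claimed.Agent.R210.GCB.Gam

open Claimed.Agent.R210.Defs Claimed.Agent.R210.GCB.Defs Claimed.Agent.R210.GCB.NeedTP
  Claimed.Agent.R210.GCB.NeedGC Claimed.Agent.R210.GCB.Basic Claimed.Agent.R210.GCB.LocBdd
  Claimed.Agent.R210.GCB.Grad Claimed.Agent.R210.GCB.Lip Claimed.Agent.R210.GCB.Comp Claimed.Agent.R210.GCB.Sob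

variable {X : Type*} [MetricSpace X] [MeasurableSpace X] [BorelSpace X]
  [CompleteSpace X] [TopologicalSpace.SeparableSpace X] [ProperSpace X]
  {m : Measure X} {K N : ℝ} {f g h f' g' f₁ f₂ g₁ g₂ u v D : X → ℝ}

/-- `gcb_need_gca_par`. -/
theorem gcb_par (hS : Std m K N) (hf : LocalSobolev m f) (hg : LocalSobolev m g) :
    ∀ᵐ x ∂m, weakGradient m (fun y => f y + g y) x ^ 2 + weakGradient m (fun y => f y - g y) x ^ 2 = 2 *
    weakGradient m f x ^ 2 + 2 * weakGradient m g x ^ 2 := by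
  exact gcb_need_gca_par hS hf hg

/-- `f + f = 2 * f` (`gcb_wg_const_mul`), `f - f = 0` (`gcb_wg_const`). -/
theorem gcb_gamma_self (hS : Std m K N) (hf : LocalSobolev m f) :
    gamma m f f =ᵐ[m] fun x => weakGradient m f x ^ 2 := by
  have e1 : (fun y => f y + f y) = fun y => 2 * f y := by
    funext y; ring
  have e2 : (fun y => f y - f y) = fun _ => (0 : ℝ) := by
    funext y; ring
  filter_upwards [gcb_wg_const_mul hS 2 hf, gcb_wg_const m (0 : ℝ)] with x h1 h2
  simp only [gamma, e1, e2, h1, h2]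
  norm_num
  ring

/-- no hypothesis: `f - f = 0`, `gcb_wg_const`. -/
theorem gcb_gamma_self_nonneg (m : Measure X) (f : X → ℝ) :
    ∀ᵐ x ∂m, 0 ≤ gamma m f f x := by
  have e2 : (fun y => f y - f y) = fun _ => (0 : ℝ) := by
    funext y; ring
  filter_upwards [gcb_wg_const m (0 : ℝ)] with x h2
  simp only [gamma, e2, h2]
  have := sq_nonneg (weakGradient m (fun y => f y + f y) x)
  linarith

/-- `gcb_par`, unfold `gamma`, `linarith`. -/
theorem gcb_wg_sq_add (hS : Std m K N) (hf : LocalSobolev m f) (hg : LocalSobolev m g) :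
    ∀ᵐ x ∂m, weakGradient m (fun y => f y + g y) x ^ 2 = weakGradient m f x ^ 2 + 2 * gamma m f g x + weakGradient
    m g x ^ 2 := by
  filter_upwards [gcb_par hS hf hg] with x hx
  simp only [gamma]
  linarith

theorem gcb_wg_sq_sub (hS : Std m K N) (hf : LocalSobolev m f) (hg : LocalSobolev m g) :
    ∀ᵐ x ∂m, weakGradient m (fun y => f y - g y) x ^ 2 = weakGradient m f x ^ 2 - 2 * gamma m f g x + weakGradient
    m g x ^ 2 := by
  filter_upwards [gcb_par hS hf hg] with x hx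
  simp only [gamma]
  linarith

/-- `4Γ = 2|D(f+g)|² - 2|Df|² - 2|Dg|² ≤ 4|Df||Dg|` by `gcb_par`, `gcb_wg_add_le`; the other sign with
`gcb_wg_sub_le`. -/
theorem gcb_gamma_abs_le (hS : Std m K N) (hf : LocalSobolev m f) (hg : LocalSobolev m g) :
    ∀ᵐ x ∂m, |gamma m f g x| ≤ weakGradient m f x * weakGradient m g x := by
  filter_upwards [gcb_wg_sq_add hS hf hg, gcb_wg_sq_sub hS hf hg, gcb_wg_add_le hS hf hg,
    gcb_wg_sub_le hS hf hg, gcb_wg_nonneg m (fun y => f y + g y), gcb_wg_nonneg m (fun y => f y - g y),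
    gcb_wg_nonneg m f, gcb_wg_nonneg m g] with x h1 h2 h3 h4 h5 h6 h7 h8
  rw [abs_le]
  constructor
  · nlinarith
  · nlinarith

/-- JORDAN - VON NEUMANN, a.e.: finitely many instances of `gcb_par` (for the pairs `(f₁+g, f₂)`, `(f₁-g, f₂)`,
`(f₁+f₂.., ..)` as in `InnerProductSpace.ofNorm`/`add_left_aux`), rewriting functions with `funext`/`ring`,
then `linarith`. -/
theorem gcb_gamma_add_left (hS : Std m K N) (hf₁ : LocalSobolev m f₁) (hf₂ : LocalSobolev m f₂) (hg :
    LocalSobolev m g) :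
    ∀ᵐ x ∂m, gamma m (fun y => f₁ y + f₂ y) g x = gamma m f₁ g x + gamma m f₂ g x := by
  have p1 := gcb_par hS (gcb_locSob_add hS hf₁ hg) hf₂
  have p2 := gcb_par hS (gcb_locSob_add hS hf₂ hg) hf₁
  have p3 := gcb_par hS (gcb_locSob_sub hS hf₁ hg) hf₂
  have p4 := gcb_par hS (gcb_locSob_sub hS hf₂ hg) hf₁
  have E1 : (fun y => f₁ y + g y + f₂ y) = (fun y => f₁ y + f₂ y + g y) := by
    funext y; ring
  have E2 : (fun y => f₂ y + g y + f₁ y) = (fun y => f₁ y + f₂ y + g y) := by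
    funext y; ring
  have E3 : (fun y => f₁ y - g y + f₂ y) = (fun y => f₁ y + f₂ y - g y) := by
    funext y; ring
  have E4 : (fun y => f₂ y - g y + f₁ y) = (fun y => f₁ y + f₂ y - g y) := by
    funext y; ring
  have E5 : weakGradient m (fun y => f₁ y - g y - f₂ y) = weakGradient m (fun y => f₂ y + g y - f₁ y) := by
    rw [← gcb_wg_neg m (fun y => f₂ y + g y - f₁ y)]
    congr 1
    funext y; ring
  have E6 : weakGradient m (fun y => f₂ y - g y - f₁ y) = weakGradient m (fun y => f₁ y + g y - f₂ y) := by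
    rw [← gcb_wg_neg m (fun y => f₁ y + g y - f₂ y)]
    congr 1
    funext y; ring
  beta_reduce at p1 p2 p3 p4
  rw [E1] at p1
  rw [E2] at p2
  rw [E3, E5] at p3
  rw [E4, E6] at p4
  filter_upwards [p1, p2, p3, p4] with x h1 h2 h3 h4
  unfold gamma
  beta_reduce
  linarith

theorem gcb_gamma_add_right (hS : Std m K N) (hf : LocalSobolev m f) (hg₁ : LocalSobolev m g₁) (hg₂ :
    LocalSobolev m g₂) :
    ∀ᵐ x ∂m, gamma m f (fun y => g₁ y + g₂ y) x = gamma m f g₁ x + gamma m f g₂ x := by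
  rw [gcb_gamma_comm m f (fun y => g₁ y + g₂ y), gcb_gamma_comm m f g₁, gcb_gamma_comm m f g₂]
  exact gcb_gamma_add_left hS hg₁ hg₂ hf

theorem gcb_gamma_sub_left (hS : Std m K N) (hf₁ : LocalSobolev m f₁) (hf₂ : LocalSobolev m f₂) (hg :
    LocalSobolev m g) :
    ∀ᵐ x ∂m, gamma m (fun y => f₁ y - f₂ y) g x = gamma m f₁ g x - gamma m f₂ g x := by
  have h1 := gcb_gamma_add_left hS hf₁ (gcb_locSob_neg hf₂) hg
  have E : (fun y => f₁ y + -f₂ y) = (fun y => f₁ y - f₂ y) := by
    funext y; ring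
  rw [E, gcb_gamma_neg_left m f₂ g] at h1
  filter_upwards [h1] with x hx
  rw [hx]
  ring

theorem gcb_gamma_sub_right (hS : Std m K N) (hf : LocalSobolev m f) (hg₁ : LocalSobolev m g₁) (hg₂ :
    LocalSobolev m g₂) :
    ∀ᵐ x ∂m, gamma m f (fun y => g₁ y - g₂ y) x = gamma m f g₁ x - gamma m f g₂ x := by
  rw [gcb_gamma_comm m f (fun y => g₁ y - g₂ y), gcb_gamma_comm m f g₁, gcb_gamma_comm m f g₂]
  exact gcb_gamma_sub_left hS hg₁ hg₂ hf

/-- induction, `gcb_gamma_add_left`, `gcb_gamma_const_left`. -/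
theorem gcb_gamma_nat_mul_left (hS : Std m K N) (n : ℕ) (hf : LocalSobolev m f) (hg : LocalSobolev m g) :
    ∀ᵐ x ∂m, gamma m (fun y => (n : ℝ) * f y) g x = n * gamma m f g x := by
  induction n with
  | zero =>
    have e : (fun y => ((0 : ℕ) : ℝ) * f y) = fun _ => (0 : ℝ) := by
      funext y; simp
    rw [e, gcb_gamma_const_left m 0 g]
    exact Eventually.of_forall fun x => by simp
  | succ n ih =>
    have e : (fun y => ((n + 1 : ℕ) : ℝ) * f y) = fun y => (n : ℝ) * f y + f y := by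
      funext y; push_cast; ring
    rw [e]
    filter_upwards [ih, gcb_gamma_add_left hS (gcb_locSob_const_mul hS (n : ℝ) hf) hf hg] with x h1 h2
    rw [h2, h1]
    push_cast
    ring

/-- integer multiples -/
theorem gcb_gamma_int_mul_left (hS : Std m K N) (z : ℤ) (hf : LocalSobolev m f) (hg : LocalSobolev m g) :
    ∀ᵐ x ∂m, gamma m (fun y => (z : ℝ) * f y) g x = z * gamma m f g x := by
  cases z with
  | ofNat n =>
    simpa using gcb_gamma_nat_mul_left hS n hf hg
  | negSucc n =>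
    have e : (fun y => ((Int.negSucc n : ℤ) : ℝ) * f y) = fun y => -(((n + 1 : ℕ) : ℝ) * f y) := by
      funext y
      rw [Int.cast_negSucc]
      ring
    rw [e, gcb_gamma_neg_left m (fun y => ((n + 1 : ℕ) : ℝ) * f y) g]
    filter_upwards [gcb_gamma_nat_mul_left hS (n + 1) hf hg] with x h1
    rw [h1, Int.cast_negSucc]
    ring

/-- `q = a / b`: apply the `ℕ` version to `f / b`; sign by `gcb_gamma_neg_left`. -/
theorem gcb_gamma_rat_mul_left (hS : Std m K N) (q : ℚ) (hf : LocalSobolev m f) (hg : LocalSobolev m g) :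
    ∀ᵐ x ∂m, gamma m (fun y => (q : ℝ) * f y) g x = q * gamma m f g x := by
  have hden : ((q.den : ℕ) : ℝ) ≠ 0 := by exact_mod_cast q.den_ne_zero
  have hq : (q : ℝ) = (q.num : ℝ) / (q.den : ℝ) := by
    exact_mod_cast (Rat.num_div_den q).symm
  have e : (fun y => ((q.den : ℕ) : ℝ) * ((q : ℝ) * f y)) = fun y => ((q.num : ℤ) : ℝ) * f y := by
    funext y
    rw [hq]
    field_simp
  filter_upwards [gcb_gamma_nat_mul_left hS q.den (gcb_locSob_const_mul hS (q : ℝ) hf) hg,
    gcb_gamma_int_mul_left hS q.num hf hg] with x h1 h2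
  rw [e, h2] at h1
  have h3 : gamma m (fun y => (q : ℝ) * f y) g x = (q.num : ℝ) / (q.den : ℝ) * gamma m f g x := by
    field_simp
    linarith
  rw [h3, ← hq]

/-- closing a rational approximation -/
theorem gcb_eq_of_rat_approx {G γ₀ M c : ℝ} (h : ∀ q : ℚ, |G - q * γ₀| ≤ |c - q| * M) : G = c * γ₀ := by
  have hcl : IsClosed {r : ℝ | |G - r * γ₀| ≤ |c - r| * M} :=
    isClosed_le (by fun_prop) (by fun_prop)
  have hall : ∀ r : ℝ, r ∈ {r : ℝ | |G - r * γ₀| ≤ |c - r| * M} := by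
    intro r
    have hd : Dense {r : ℝ | |G - r * γ₀| ≤ |c - r| * M} :=
      Rat.denseRange_cast.mono (by rintro _ ⟨q, rfl⟩; exact h q)
    rw [← hcl.closure_eq]
    exact hd r
  have := hall c
  simp only [Set.mem_ofPred_eq, sub_self, abs_zero, zero_mul] at this
  exact sub_eq_zero.1 (abs_nonpos_iff.1 this)

/-- a.e. for ALL rationals `q` at once (`ae_all_iff`): `|Γ(c f,g) - q Γ(f,g)| = |Γ((c-q) f, g)| ≤ |c - q| |Df|
|Dg|`; let `q → c`. -/
theorem gcb_gamma_const_mul_left (hS : Std m K N) (c : ℝ) (hf : LocalSobolev m f) (hg : LocalSobolev m g) :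
    ∀ᵐ x ∂m, gamma m (fun y => c * f y) g x = c * gamma m f g x := by
  have hall : ∀ᵐ x ∂m, ∀ q : ℚ, |gamma m (fun y => c * f y) g x - q * gamma m f g x|
      ≤ |c - q| * (weakGradient m f x * weakGradient m g x) := by
    rw [ae_all_iff]
    intro q
    have e : (fun y => c * f y - (q : ℝ) * f y) = fun y => (c - q) * f y := by
      funext y; ring
    filter_upwards [gcb_gamma_rat_mul_left hS q hf hg,
      gcb_gamma_sub_left hS (gcb_locSob_const_mul hS c hf) (gcb_locSob_const_mul hS (q : ℝ) hf) hg,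
      gcb_gamma_abs_le hS (gcb_locSob_const_mul hS (c - q) hf) hg,
      gcb_wg_const_mul hS (c - q) hf] with x h1 h2 h3 h4
    rw [e] at h2
    rw [← h1, ← h2]
    rw [h4] at h3
    linarith
  filter_upwards [hall] with x hx
  exact gcb_eq_of_rat_approx hx

theorem gcb_gamma_const_mul_right (hS : Std m K N) (c : ℝ) (hf : LocalSobolev m f) (hg : LocalSobolev m g) :
    ∀ᵐ x ∂m, gamma m f (fun y => c * g y) x = c * gamma m f g x := by
  rw [gcb_gamma_comm m f (fun y => c * g y), gcb_gamma_comm m f g]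
  exact gcb_gamma_const_mul_left hS c hg hf

theorem gcb_gamma_sum_left (hS : Std m K N) {ι : Type*} (s : Finset ι) (G : ι → X → ℝ) (hG : ∀ i ∈ s,
    LocalSobolev m (G i)) (hg : LocalSobolev m g) :
    ∀ᵐ x ∂m, gamma m (fun y => ∑ i ∈ s, G i y) g x = ∑ i ∈ s, gamma m (G i) g x := by
  classical
  induction s using Finset.induction_on with
  | empty =>
    simp only [Finset.sum_empty]
    rw [gcb_gamma_const_left m 0 g]
    exact Eventually.of_forall fun x => rfl
  | insert a s ha ih =>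
    have e : (fun y => ∑ i ∈ insert a s, G i y) = fun y => G a y + ∑ i ∈ s, G i y := by
      funext y; rw [Finset.sum_insert ha]
    rw [e]
    have hs : ∀ i ∈ s, LocalSobolev m (G i) := fun i hi => hG i (Finset.mem_insert_of_mem hi)
    filter_upwards [ih hs, gcb_gamma_add_left hS (hG a (Finset.mem_insert_self a s))
      (gcb_locSob_sum hS s G hs) hg] with x h1 h2
    rw [h2, h1, Finset.sum_insert ha]

theorem gcb_wg_sq_add_smul (hS : Std m K N) (hf : LocalSobolev m f) (hg : LocalSobolev m g) (t : ℝ) :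
    ∀ᵐ x ∂m, weakGradient m (fun y => f y + t * g y) x ^ 2 = weakGradient m f x ^ 2 + 2 * t * gamma m f g x + t ^
    2 * weakGradient m g x ^ 2 := by
  filter_upwards [gcb_wg_sq_add hS hf (gcb_locSob_const_mul hS t hg), gcb_gamma_const_mul_right hS t hf hg,
    gcb_wg_const_mul hS t hg] with x h1 h2 h3
  rw [h1, h2, h3, mul_pow, sq_abs]
  ring

/-- LOCALITY: `gcb_wg_eq_on` for `f ± g`, `f' ± g`. -/
theorem gcb_gamma_eq_on_left (hS : Std m K N) (hf : LocalSobolev m f) (hf' : LocalSobolev m f') (hg :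
    LocalSobolev m g) :
    ∀ᵐ x ∂m, f x = f' x → gamma m f g x = gamma m f' g x := by
  filter_upwards [gcb_wg_eq_on hS (gcb_locSob_add hS hf hg) (gcb_locSob_add hS hf' hg),
    gcb_wg_eq_on hS (gcb_locSob_sub hS hf hg) (gcb_locSob_sub hS hf' hg)] with x h1 h2 hx
  simp only [gamma]
  rw [h1 (by rw [hx]), h2 (by rw [hx])]

theorem gcb_gamma_eq_on_right (hS : Std m K N) (hf : LocalSobolev m f) (hg : LocalSobolev m g) (hg' :
    LocalSobolev m g') :
    ∀ᵐ x ∂m, g x = g' x → gamma m f g x = gamma m f g' x := by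
  rw [gcb_gamma_comm m f g, gcb_gamma_comm m f g']
  exact gcb_gamma_eq_on_left hS hg hg' hf

theorem gcb_gamma_eq_on (hS : Std m K N) (hf : LocalSobolev m f) (hf' : LocalSobolev m f') (hg : LocalSobolev
    m g) (hg' : LocalSobolev m g') :
    ∀ᵐ x ∂m, f x = f' x → g x = g' x → gamma m f g x = gamma m f' g' x := by
  filter_upwards [gcb_gamma_eq_on_left hS hf hf' hg, gcb_gamma_eq_on_right hS hf' hg hg'] with x h1 h2 hx hy
  rw [h1 hx, h2 hy]

/-- `gcb_gamma_abs_le`, `gcb_wg_eq_zero_on_const`. -/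
theorem gcb_gamma_eq_zero_on_const_left (hS : Std m K N) (hf : LocalSobolev m f) (hg : LocalSobolev m g) (c :
    ℝ) :
    ∀ᵐ x ∂m, f x = c → gamma m f g x = 0 := by
  filter_upwards [gcb_gamma_abs_le hS hf hg, gcb_wg_eq_zero_on_const hS hf c] with x h1 h2 hx
  rw [h2 hx, zero_mul] at h1
  exact abs_nonpos_iff.1 h1

theorem gcb_gamma_eq_zero_on_const_right (hS : Std m K N) (hf : LocalSobolev m f) (hg : LocalSobolev m g) (c :
    ℝ) :
    ∀ᵐ x ∂m, g x = c → gamma m f g x = 0 := by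
  filter_upwards [gcb_gamma_abs_le hS hf hg, gcb_wg_eq_zero_on_const hS hg c] with x h1 h2 hx
  rw [h2 hx, mul_zero] at h1
  exact abs_nonpos_iff.1 h1

theorem gcb_gamma_eq_zero_on_null_left (hS : Std m K N) (hf : LocalSobolev m f) (hg : LocalSobolev m g) {s :
    Set ℝ} (hs : volume s = 0) :
    ∀ᵐ x ∂m, f x ∈ s → gamma m f g x = 0 := by
  filter_upwards [gcb_gamma_abs_le hS hf hg, gcb_wg_eq_zero_on_null hS hf hs] with x h1 h2 hx
  rw [h2 hx, zero_mul] at h1
  exact abs_nonpos_iff.1 h1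

theorem gcb_gamma_eq_zero_off_left (hS : Std m K N) (hf : LocalSobolev m f) (hg : LocalSobolev m g) {A : Set
    X} (h0 : ∀ᵐ x ∂m, x ∉ A → f x = 0) :
    ∀ᵐ x ∂m, x ∉ A → gamma m f g x = 0 := by
  filter_upwards [gcb_gamma_abs_le hS hf hg, gcb_wg_eq_zero_off hS hf h0] with x h1 h2 hx
  rw [h2 hx, zero_mul] at h1
  exact abs_nonpos_iff.1 h1

theorem gcb_gamma_eq_zero_off_right (hS : Std m K N) (hf : LocalSobolev m f) (hg : LocalSobolev m g) {A : Set
    X} (h0 : ∀ᵐ x ∂m, x ∉ A → g x = 0) :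
    ∀ᵐ x ∂m, x ∉ A → gamma m f g x = 0 := by
  filter_upwards [gcb_gamma_abs_le hS hf hg, gcb_wg_eq_zero_off hS hg h0] with x h1 h2 hx
  rw [h2 hx, mul_zero] at h1
  exact abs_nonpos_iff.1 h1

theorem gcb_gamma_sub_abs_le_left (hS : Std m K N) (hf : LocalSobolev m f) (hf' : LocalSobolev m f') (hg :
    LocalSobolev m g) :
    ∀ᵐ x ∂m, |gamma m f g x - gamma m f' g x| ≤ weakGradient m (fun y => f y - f' y) x * weakGradient m g x := by
  filter_upwards [gcb_gamma_sub_left hS hf hf' hg, gcb_gamma_abs_le hS (gcb_locSob_sub hS hf hf') hg]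
    with x h1 h2
  rw [← h1]
  exact h2

theorem gcb_gamma_abs_le_lip_right (hS : Std m K N) (hf : LocalSobolev m f) {L : ℝ≥0} (hg : LipschitzWith L g)
    :
    ∀ᵐ x ∂m, |gamma m f g x| ≤ L * weakGradient m f x := by
  filter_upwards [gcb_gamma_abs_le hS hf (gcb_locSob_of_lip hS ⟨L, hg⟩), gcb_wg_le_lip hS hg,
    gcb_wg_nonneg m f] with x h1 h2 h3
  calc |gamma m f g x| ≤ weakGradient m f x * weakGradient m g x := h1
    _ ≤ weakGradient m f x * L := mul_le_mul_of_nonneg_left h2 h3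
    _ = L * weakGradient m f x := mul_comm _ _

theorem gcb_gamma_abs_le_lip (hS : Std m K N) {L L' : ℝ≥0} (hf : LipschitzWith L f) (hg : LipschitzWith L' g)
    :
    ∀ᵐ x ∂m, |gamma m f g x| ≤ L * L' := by
  filter_upwards [gcb_gamma_abs_le_lip_right hS (gcb_locSob_of_lip hS ⟨L, hf⟩) hg, gcb_wg_le_lip hS hf]
    with x h1 h2
  calc |gamma m f g x| ≤ L' * weakGradient m f x := h1
    _ ≤ L' * L := mul_le_mul_of_nonneg_left h2 L'.coe_nonneg
    _ = L * L' := mul_comm _ _

theorem gcb_gamma_sq_le (hS : Std m K N) (hf : LocalSobolev m f) (hg : LocalSobolev m g) :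
    ∀ᵐ x ∂m, gamma m f g x ^ 2 ≤ gamma m f f x * gamma m g g x := by
  filter_upwards [gcb_gamma_abs_le hS hf hg, gcb_gamma_self hS hf, gcb_gamma_self hS hg] with x h1 h2 h3
  rw [h2, h3, ← mul_pow, ← sq_abs (gamma m f g x)]
  exact pow_le_pow_left₀ (abs_nonneg _) h1 2

theorem gcb_gamma_two_mul_le (hS : Std m K N) (hf : LocalSobolev m f) (hg : LocalSobolev m g) :
    ∀ᵐ x ∂m, 2 * |gamma m f g x| ≤ weakGradient m f x ^ 2 + weakGradient m g x ^ 2 := by
  filter_upwards [gcb_gamma_abs_le hS hf hg] with x h1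
  nlinarith [sq_nonneg (weakGradient m f x - weakGradient m g x)]

end Claimed.Agent.R210.GCB.Gam
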