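/-
Row 210 (S0432), layer GCB (calculus for the frozen `weakGradient` / `gamma`).  Architect: helper469.
Leaf file `Chain`: chain rule and Leibniz rule for `gamma`.
Notation in the comments: |Df| = `weakGradient m f`, Γ(f,g) = `gamma m f g`, E = `form m`.
Consumers never import this file: they import `GCB/Ifc.lean` (or `GCB/IfcA.lean`).
Rules: keep every statement and name as it is (the interface restates them); helper lemmas are welcome
(prefix `gcb_`, fresh names).  Earlier lemmas of this file and of the imported files may be used.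
-/
import Claimed.Agent.R210.GCB.Gam

set_option autoImplicit false

open Claims.C0366 Claims.C0366.WeakHessian
open Set Filter MeasureTheory
open scoped ENNReal NNReal Topology

namespace Claimed.Agent.R210.GCB.Chain

open Claimed.Agent.R210.Defs Claimed.Agent.R210.GCB.Defs Claimed.Agent.R210.GCB.NeedTP
  Claimed.Agent.R210.GCB.NeedGC Claimed.Agent.R210.GCB.Basic Claimed.Agent.R210.GCB.LocBdd
  Claimed.Agent.R210.GCB.Grad Claimed.Agent.R210.GCB.Lip Claimed.Agent.R210.GCB.Comp Claimed.Agent.R210.GCB.Sob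
  Claimed.Agent.R210.GCB.Gam

variable {X : Type*} [MetricSpace X] [MeasurableSpace X] [BorelSpace X]
  [CompleteSpace X] [TopologicalSpace.SeparableSpace X] [ProperSpace X]
  {m : Measure X} {K N : ℝ} {f g h f' g' f₁ f₂ g₁ g₂ u v D : X → ℝ}

/-- density step of the chain rule: an a.e. estimate for every rational `t₀ ∈ I` gives the a.e. identity. -/
theorem gcb_gamma_chain_core {φ : ℝ → ℝ} {I : Set ℝ} (hI : IsOpen I) (hc : ContinuousOn (deriv φ) I)
    {A B W : X → ℝ} (hfI : ∀ᵐ x ∂m, f x ∈ I)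
    (h : ∀ t₀ : ℚ, (t₀ : ℝ) ∈ I → ∀ᵐ x ∂m,
      |A x - deriv φ (t₀ : ℝ) * B x| ≤ |deriv φ (f x) - deriv φ (t₀ : ℝ)| * W x) :
    ∀ᵐ x ∂m, A x = deriv φ (f x) * B x := by
  have h' : ∀ᵐ x ∂m, ∀ t₀ : ℚ, (t₀ : ℝ) ∈ I →
      |A x - deriv φ (t₀ : ℝ) * B x| ≤ |deriv φ (f x) - deriv φ (t₀ : ℝ)| * W x := by
    rw [ae_all_iff]
    intro t₀
    by_cases ht : (t₀ : ℝ) ∈ I
    · filter_upwards [h t₀ ht] with x hx _ using hx
    · exact Filter.Eventually.of_forall fun x hx => absurd hx ht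
  filter_upwards [h', hfI] with x hx hxI
  have hne : (Filter.comap ((↑) : ℚ → ℝ) (𝓝 (f x))).NeBot :=
    Rat.isDenseEmbedding_coe_real.isDenseInducing.comap_nhds_neBot (f x)
  have ht : Tendsto ((↑) : ℚ → ℝ) (Filter.comap ((↑) : ℚ → ℝ) (𝓝 (f x))) (𝓝 (f x)) := tendsto_comap
  have hd : Tendsto (fun q : ℚ => deriv φ (q : ℝ)) (Filter.comap ((↑) : ℚ → ℝ) (𝓝 (f x)))
      (𝓝 (deriv φ (f x))) := ((hc.continuousAt (hI.mem_nhds hxI)).tendsto).comp ht
  have hL : Tendsto (fun q : ℚ => |A x - deriv φ (q : ℝ) * B x|) (Filter.comap ((↑) : ℚ → ℝ) (𝓝 (f x)))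
      (𝓝 |A x - deriv φ (f x) * B x|) := (tendsto_const_nhds.sub (hd.mul_const _)).abs
  have hR : Tendsto (fun q : ℚ => |deriv φ (f x) - deriv φ (q : ℝ)| * W x)
      (Filter.comap ((↑) : ℚ → ℝ) (𝓝 (f x))) (𝓝 (|deriv φ (f x) - deriv φ (f x)| * W x)) :=
    ((tendsto_const_nhds.sub hd).abs).mul_const _
  have hev : ∀ᶠ q : ℚ in Filter.comap ((↑) : ℚ → ℝ) (𝓝 (f x)), (q : ℝ) ∈ I :=
    ht.eventually (hI.mem_nhds hxI)
  have hle : |A x - deriv φ (f x) * B x| ≤ |deriv φ (f x) - deriv φ (f x)| * W x :=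
    le_of_tendsto_of_tendsto hL hR (hev.mono fun q hq => hx q hq)
  rw [sub_self, abs_zero, zero_mul] at hle
  exact sub_eq_zero.mp (abs_eq_zero.mp (le_antisymm hle (abs_nonneg _)))

/-- one step of the chain rule: comparison with the linear function of slope `c`. -/
theorem gcb_gamma_chain_step (hS : Std m K N) {φ : ℝ → ℝ} (c : ℝ) (hf : LocalSobolev m f)
    (hg : LocalSobolev m g) (hφf : LocalSobolev m (fun y => φ (f y)))
    (hwg : weakGradient m (fun y => φ (f y) - c * f y) =ᵐ[m]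
      fun x => |deriv (fun t => φ t - c * t) (f x)| * weakGradient m f x)
    (hd : ∀ᵐ x ∂m, deriv (fun t => φ t - c * t) (f x) = deriv φ (f x) - c) :
    ∀ᵐ x ∂m, |gamma m (fun y => φ (f y)) g x - c * gamma m f g x|
      ≤ |deriv φ (f x) - c| * (weakGradient m f x * weakGradient m g x) := by
  have hcf : LocalSobolev m (fun y => c * f y) := gcb_locSob_const_mul hS c hf
  have hψf : LocalSobolev m (fun y => φ (f y) - c * f y) := gcb_locSob_sub hS hφf hcf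
  filter_upwards [gcb_gamma_sub_left hS hφf hcf hg, gcb_gamma_const_mul_left hS c hf hg,
    gcb_gamma_abs_le hS hψf hg, hwg, hd] with x h1 h2 h3 h4 h5
  rw [h1, h2, h4, h5] at h3
  calc |gamma m (fun y => φ (f y)) g x - c * gamma m f g x|
      ≤ |deriv φ (f x) - c| * weakGradient m f x * weakGradient m g x := h3
    _ = |deriv φ (f x) - c| * (weakGradient m f x * weakGradient m g x) := by ring

/-- derivative of `φ t - c t`. -/
theorem gcb_deriv_sub_lin {φ : ℝ → ℝ} (c : ℝ) {t : ℝ} (h : DifferentiableAt ℝ φ t) :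
    deriv (fun t => φ t - c * t) t = deriv φ t - c := by
  have h1 : HasDerivAt (fun t => φ t - c * t) (deriv φ t - c * 1) t :=
    h.hasDerivAt.sub ((hasDerivAt_id t).const_mul c)
  rw [h1.deriv, mul_one]
/-- CHAIN RULE.  For every rational `t₀`, `ψ t = φ t - deriv φ t₀ * t` is `C¹` and Lipschitz, and a.e. `|Γ(φ∘f,g)
- φ'(t₀) Γ(f,g)| = |Γ(ψ∘f,g)| ≤ |D(ψ∘f)| |Dg| = |φ'(f) - φ'(t₀)| |Df| |Dg|` (`gcb_gamma_sub_left`,
`gcb_gamma_const_mul_left`, `gcb_gamma_abs_le`, `gcb_wg_comp_lip`).  `ae_all_iff` over `ℚ`, then `t₀ → f x`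
and continuity of `deriv φ`. -/
theorem gcb_gamma_comp_lip_left (hS : Std m K N) {φ : ℝ → ℝ} {L : ℝ≥0} (hφ : ContDiff ℝ 1 φ) (hL :
    LipschitzWith L φ) (hf : LocalSobolev m f) (hg : LocalSobolev m g) :
    ∀ᵐ x ∂m, gamma m (fun y => φ (f y)) g x = deriv φ (f x) * gamma m f g x := by
  have hdiff : Differentiable ℝ φ := hφ.differentiable (by norm_num)
  refine gcb_gamma_chain_core (m := m) (f := f) (φ := φ) (I := Set.univ)
    (A := gamma m (fun y => φ (f y)) g) (B := gamma m f g)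
    (W := fun x => weakGradient m f x * weakGradient m g x) isOpen_univ
    (hφ.continuous_deriv (le_refl _)).continuousOn (Filter.Eventually.of_forall fun x => Set.mem_univ _) ?_
  intro t₀ _
  have hψL : LipschitzWith (L + ‖deriv φ (t₀ : ℝ)‖₊) (fun t => φ t - deriv φ (t₀ : ℝ) * t) :=
    hL.sub (LipschitzWith.of_dist_le_mul fun a b => by
      rw [Real.dist_eq, Real.dist_eq, ← mul_sub, abs_mul]; simp)
  have h1 := gcb_locSob_comp_lip hS hL hf
  have h2 := gcb_wg_comp_lip hS hψL hf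
  have h3 : ∀ᵐ x ∂m, deriv (fun t => φ t - deriv φ (t₀ : ℝ) * t) (f x) = deriv φ (f x) - deriv φ (t₀ : ℝ) :=
    Filter.Eventually.of_forall fun x => gcb_deriv_sub_lin _ (hdiff _)
  have key := gcb_gamma_chain_step hS (deriv φ (t₀ : ℝ)) hf hg h1 h2 h3
  exact key

/-- same proof as `gcb_gamma_comp_lip_left` with `gcb_wg_comp_C1`. -/
theorem gcb_gamma_comp_left (hS : Std m K N) {φ : ℝ → ℝ} (hφ : ContDiff ℝ 1 φ) (hf : LocalSobolev m f) (hb :
    gcb_LocBdd m f) (hg : LocalSobolev m g) :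
    ∀ᵐ x ∂m, gamma m (fun y => φ (f y)) g x = deriv φ (f x) * gamma m f g x := by
  have hdiff : Differentiable ℝ φ := hφ.differentiable (by norm_num)
  refine gcb_gamma_chain_core (m := m) (f := f) (φ := φ) (I := Set.univ)
    (A := gamma m (fun y => φ (f y)) g) (B := gamma m f g)
    (W := fun x => weakGradient m f x * weakGradient m g x) isOpen_univ
    (hφ.continuous_deriv (le_refl _)).continuousOn (Filter.Eventually.of_forall fun x => Set.mem_univ _) ?_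
  intro t₀ _
  have hψ : ContDiff ℝ 1 (fun t => φ t - deriv φ (t₀ : ℝ) * t) :=
    hφ.sub (contDiff_const.mul contDiff_id)
  have h1 := gcb_locSob_comp_C1 hS hφ hf hb
  have h2 := gcb_wg_comp_C1 hS hψ hf hb
  have h3 : ∀ᵐ x ∂m, deriv (fun t => φ t - deriv φ (t₀ : ℝ) * t) (f x) = deriv φ (f x) - deriv φ (t₀ : ℝ) :=
    Filter.Eventually.of_forall fun x => gcb_deriv_sub_lin _ (hdiff _)
  have key := gcb_gamma_chain_step hS (deriv φ (t₀ : ℝ)) hf hg h1 h2 h3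
  exact key

/-- same proof with `gcb_wg_comp_on` (`t₀` rational in `I`; `ψ` is `C¹` on `I`). -/
theorem gcb_gamma_comp_on_left (hS : Std m K N) {φ : ℝ → ℝ} {I : Set ℝ} (hI : IsOpen I) (hφ : ContDiffOn ℝ 1 φ
    I) (hf : LocalSobolev m f) (hr : ∀ (o : X) (R : ℝ), ∃ C : Set ℝ, IsCompact C ∧ C ⊆ I ∧ ∀ᵐ x ∂m, x ∈
    Metric.ball o R → f x ∈ C) (hg : LocalSobolev m g) :
    ∀ᵐ x ∂m, gamma m (fun y => φ (f y)) g x = deriv φ (f x) * gamma m f g x := by
  have hfI : ∀ᵐ x ∂m, f x ∈ I := by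
    rcases isEmpty_or_nonempty X with hX | ⟨⟨o⟩⟩
    · exact Filter.Eventually.of_forall fun x => isEmptyElim x
    · have hall : ∀ᵐ x ∂m, ∀ n : ℕ, x ∈ Metric.ball o (n : ℝ) → f x ∈ I := by
        rw [ae_all_iff]
        intro n
        obtain ⟨C, _, hCI, hC⟩ := hr o (n : ℝ)
        filter_upwards [hC] with x hx hxb using hCI (hx hxb)
      filter_upwards [hall] with x hx
      obtain ⟨n, hn⟩ := exists_nat_gt (dist x o)
      exact hx n (Metric.mem_ball.mpr hn)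
  have hdiff : ∀ t ∈ I, DifferentiableAt ℝ φ t := fun t ht =>
    (hφ.differentiableOn (by norm_num)).differentiableAt (hI.mem_nhds ht)
  refine gcb_gamma_chain_core (m := m) (f := f) (φ := φ) (I := I)
    (A := gamma m (fun y => φ (f y)) g) (B := gamma m f g)
    (W := fun x => weakGradient m f x * weakGradient m g x) hI
    (hφ.continuousOn_deriv_of_isOpen hI (le_refl _)) hfI ?_
  intro t₀ _
  have hψ : ContDiffOn ℝ 1 (fun t => φ t - deriv φ (t₀ : ℝ) * t) I :=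
    hφ.sub (contDiffOn_const.mul contDiffOn_id)
  have h1 := gcb_locSob_comp_on hS hI hφ hf hr
  have h2 := gcb_wg_comp_on hS hI hψ hf hr
  have h3 : ∀ᵐ x ∂m, deriv (fun t => φ t - deriv φ (t₀ : ℝ) * t) (f x) = deriv φ (f x) - deriv φ (t₀ : ℝ) := by
    filter_upwards [hfI] with x hx using gcb_deriv_sub_lin _ (hdiff _ hx)
  have key := gcb_gamma_chain_step hS (deriv φ (t₀ : ℝ)) hf hg h1 h2 h3
  exact key

theorem gcb_gamma_comp_lip_right (hS : Std m K N) {φ : ℝ → ℝ} {L : ℝ≥0} (hφ : ContDiff ℝ 1 φ) (hL :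
    LipschitzWith L φ) (hf : LocalSobolev m f) (hg : LocalSobolev m g) :
    ∀ᵐ x ∂m, gamma m f (fun y => φ (g y)) x = deriv φ (g x) * gamma m f g x := by
  rw [gcb_gamma_comm m f (fun y => φ (g y)), gcb_gamma_comm m f g]
  exact gcb_gamma_comp_lip_left hS hφ hL hg hf

theorem gcb_gamma_comp_right (hS : Std m K N) {φ : ℝ → ℝ} (hφ : ContDiff ℝ 1 φ) (hf : LocalSobolev m f) (hg :
    LocalSobolev m g) (hb : gcb_LocBdd m g) :
    ∀ᵐ x ∂m, gamma m f (fun y => φ (g y)) x = deriv φ (g x) * gamma m f g x := by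
  rw [gcb_gamma_comm m f (fun y => φ (g y)), gcb_gamma_comm m f g]
  exact gcb_gamma_comp_left hS hφ hg hb hf

theorem gcb_gamma_comp_on_right (hS : Std m K N) {φ : ℝ → ℝ} {I : Set ℝ} (hI : IsOpen I) (hφ : ContDiffOn ℝ 1
    φ I) (hf : LocalSobolev m f) (hg : LocalSobolev m g) (hr : ∀ (o : X) (R : ℝ), ∃ C : Set ℝ, IsCompact C ∧ C ⊆ I
    ∧ ∀ᵐ x ∂m, x ∈ Metric.ball o R → g x ∈ C) :
    ∀ᵐ x ∂m, gamma m f (fun y => φ (g y)) x = deriv φ (g x) * gamma m f g x := by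
  rw [gcb_gamma_comm m f (fun y => φ (g y)), gcb_gamma_comm m f g]
  exact gcb_gamma_comp_on_left hS hI hφ hg hr hf

theorem gcb_gamma_comp_comp (hS : Std m K N) {φ ψ : ℝ → ℝ} (hφ : ContDiff ℝ 1 φ) (hψ : ContDiff ℝ 1 ψ) (hf :
    LocalSobolev m f) (hbf : gcb_LocBdd m f) (hg : LocalSobolev m g) (hbg : gcb_LocBdd m g) :
    ∀ᵐ x ∂m, gamma m (fun y => φ (f y)) (fun y => ψ (g y)) x = deriv φ (f x) * deriv ψ (g x) * gamma m f g x := by
  have h1 := gcb_gamma_comp_left hS hφ hf hbf (gcb_locSob_comp_C1 hS hψ hg hbg)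
  have h2 := gcb_gamma_comp_right hS hψ hf hg hbg
  filter_upwards [h1, h2] with x hx1 hx2
  rw [hx1, hx2]
  ring

theorem gcb_gamma_sq_left (hS : Std m K N) (hf : LocalSobolev m f) (hb : gcb_LocBdd m f) (hg : LocalSobolev m
    g) :
    ∀ᵐ x ∂m, gamma m (fun y => f y ^ 2) g x = 2 * f x * gamma m f g x := by
  have h1 := gcb_gamma_comp_left (φ := fun t : ℝ => t ^ 2) hS (contDiff_id.pow 2) hf hb hg
  filter_upwards [h1] with x hx
  rw [hx]
  simp

theorem gcb_gamma_exp_left (hS : Std m K N) (hf : LocalSobolev m f) (hb : gcb_LocBdd m f) (hg : LocalSobolev m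
    g) :
    ∀ᵐ x ∂m, gamma m (fun y => Real.exp (f y)) g x = Real.exp (f x) * gamma m f g x := by
  have h1 := gcb_gamma_comp_left (φ := Real.exp) hS Real.contDiff_exp hf hb hg
  filter_upwards [h1] with x hx
  rw [hx, Real.deriv_exp]

/-- LEIBNIZ: `f₁ f₂ = ((f₁+f₂)² - (f₁-f₂)²)/4`, `gcb_gamma_sq_left`, bilinearity. -/
theorem gcb_gamma_mul_left (hS : Std m K N) (hf₁ : LocalSobolev m f₁) (hf₂ : LocalSobolev m f₂) (hb₁ :
    gcb_LocBdd m f₁) (hb₂ : gcb_LocBdd m f₂) (hg : LocalSobolev m g) :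
    ∀ᵐ x ∂m, gamma m (fun y => f₁ y * f₂ y) g x = f₁ x * gamma m f₂ g x + f₂ x * gamma m f₁ g x := by
  have hsq : ContDiff ℝ 1 (fun t : ℝ => t ^ 2) := contDiff_id.pow 2
  have hA : LocalSobolev m (fun y => f₁ y + f₂ y) := gcb_locSob_add hS hf₁ hf₂
  have hB : LocalSobolev m (fun y => f₁ y - f₂ y) := gcb_locSob_sub hS hf₁ hf₂
  have hbA : gcb_LocBdd m (fun y => f₁ y + f₂ y) := gcb_locBdd_add hb₁ hb₂
  have hbB : gcb_LocBdd m (fun y => f₁ y - f₂ y) := gcb_locBdd_sub hb₁ hb₂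
  have hA2 : LocalSobolev m (fun y => (f₁ y + f₂ y) ^ 2) := gcb_locSob_comp_C1 hS hsq hA hbA
  have hB2 : LocalSobolev m (fun y => (f₁ y - f₂ y) ^ 2) := gcb_locSob_comp_C1 hS hsq hB hbB
  have hD : LocalSobolev m (fun y => (f₁ y + f₂ y) ^ 2 - (f₁ y - f₂ y) ^ 2) := gcb_locSob_sub hS hA2 hB2
  have heq : (fun y => f₁ y * f₂ y)
      = fun y => (1 / 4 : ℝ) * ((f₁ y + f₂ y) ^ 2 - (f₁ y - f₂ y) ^ 2) := by
    funext y
    ring
  rw [heq]
  filter_upwards [gcb_gamma_const_mul_left hS (1 / 4 : ℝ) hD hg, gcb_gamma_sub_left hS hA2 hB2 hg,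
    gcb_gamma_sq_left hS hA hbA hg, gcb_gamma_sq_left hS hB hbB hg,
    gcb_gamma_add_left hS hf₁ hf₂ hg, gcb_gamma_sub_left hS hf₁ hf₂ hg] with x h1 h2 h3 h4 h5 h6
  rw [h1, h2, h3, h4, h5, h6]
  ring

theorem gcb_gamma_mul_right (hS : Std m K N) (hf : LocalSobolev m f) (hg₁ : LocalSobolev m g₁) (hg₂ :
    LocalSobolev m g₂) (hb₁ : gcb_LocBdd m g₁) (hb₂ : gcb_LocBdd m g₂) :
    ∀ᵐ x ∂m, gamma m f (fun y => g₁ y * g₂ y) x = g₁ x * gamma m f g₂ x + g₂ x * gamma m f g₁ x := by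
  rw [gcb_gamma_comm m f (fun y => g₁ y * g₂ y), gcb_gamma_comm m f g₁, gcb_gamma_comm m f g₂]
  exact gcb_gamma_mul_left hS hg₁ hg₂ hb₁ hb₂ hf

/-- locality only. -/
theorem gcb_gamma_posPart_left (hS : Std m K N) (hf : LocalSobolev m f) (hg : LocalSobolev m g) :
    ∀ᵐ x ∂m, (0 < f x → gamma m (fun y => max (f y) 0) g x = gamma m f g x) ∧ (f x ≤ 0 → gamma m (fun y => max (f
    y) 0) g x = 0) := by
  have hp := gcb_locSob_posPart hS hf
  filter_upwards [gcb_gamma_eq_on_left hS hp hf hg, gcb_gamma_eq_zero_on_const_left hS hp hg 0]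
    with x h1 h2
  exact ⟨fun h => h1 (max_eq_left h.le), fun h => h2 (max_eq_right h)⟩

theorem gcb_gamma_abs_left (hS : Std m K N) (hf : LocalSobolev m f) (hg : LocalSobolev m g) :
    ∀ᵐ x ∂m, (0 ≤ f x → gamma m (fun y => |f y|) g x = gamma m f g x) ∧ (f x ≤ 0 → gamma m (fun y => |f y|) g x =
    -gamma m f g x) := by
  have hp := gcb_locSob_abs hS hf
  filter_upwards [gcb_gamma_eq_on_left hS hp hf hg,
    gcb_gamma_eq_on_left hS hp (gcb_locSob_neg hf) hg] with x h1 h2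
  refine ⟨fun h => h1 (abs_of_nonneg h), fun h => ?_⟩
  rw [h2 (abs_of_nonpos h), gcb_gamma_neg_left]

theorem gcb_gamma_max_left (hS : Std m K N) (hf₁ : LocalSobolev m f₁) (hf₂ : LocalSobolev m f₂) (hg :
    LocalSobolev m g) :
    ∀ᵐ x ∂m, (f₂ x ≤ f₁ x → gamma m (fun y => max (f₁ y) (f₂ y)) g x = gamma m f₁ g x) ∧ (f₁ x ≤ f₂ x → gamma m
    (fun y => max (f₁ y) (f₂ y)) g x = gamma m f₂ g x) := by
  have hp := gcb_locSob_max hS hf₁ hf₂
  filter_upwards [gcb_gamma_eq_on_left hS hp hf₁ hg, gcb_gamma_eq_on_left hS hp hf₂ hg]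
    with x h1 h2
  exact ⟨fun h => h1 (max_eq_left h), fun h => h2 (max_eq_right h)⟩

theorem gcb_gamma_min_left (hS : Std m K N) (hf₁ : LocalSobolev m f₁) (hf₂ : LocalSobolev m f₂) (hg :
    LocalSobolev m g) :
    ∀ᵐ x ∂m, (f₁ x ≤ f₂ x → gamma m (fun y => min (f₁ y) (f₂ y)) g x = gamma m f₁ g x) ∧ (f₂ x ≤ f₁ x → gamma m
    (fun y => min (f₁ y) (f₂ y)) g x = gamma m f₂ g x) := by
  have hp := gcb_locSob_min hS hf₁ hf₂
  filter_upwards [gcb_gamma_eq_on_left hS hp hf₁ hg, gcb_gamma_eq_on_left hS hp hf₂ hg]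
    with x h1 h2
  exact ⟨fun h => h1 (min_eq_left h), fun h => h2 (min_eq_right h)⟩

theorem gcb_gamma_clamp_left (hS : Std m K N) (hf : LocalSobolev m f) (hg : LocalSobolev m g) {c : ℝ} (hc : 0
    ≤ c) :
    ∀ᵐ x ∂m, (|f x| < c → gamma m (fun y => max (min (f y) c) (-c)) g x = gamma m f g x) ∧ (c ≤ |f x| → gamma m
    (fun y => max (min (f y) c) (-c)) g x = 0) := by
  have hp := gcb_locSob_clamp hS hf c
  filter_upwards [gcb_gamma_eq_on_left hS hp hf hg, gcb_gamma_eq_zero_on_const_left hS hp hg c,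
    gcb_gamma_eq_zero_on_const_left hS hp hg (-c)] with x h1 h2 h3
  refine ⟨fun h => h1 ?_, fun h => ?_⟩
  · rw [abs_lt] at h
    rw [min_eq_left h.2.le, max_eq_left h.1.le]
  · rcases le_abs'.1 h with h | h
    · refine h3 ?_
      rw [min_eq_left (by linarith), max_eq_right h]
    · refine h2 ?_
      rw [min_eq_right h, max_eq_left (by linarith)]

/-- LEIBNIZ without local bounds: on `{|f₁| < n, |f₂| < n}` the product equals the product of the clamps;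
`gcb_gamma_eq_on_left`, `gcb_gamma_mul_left`, `gcb_gamma_clamp_left`; countable union over `n`. -/
theorem gcb_gamma_mul_left_gen (hS : Std m K N) (hf₁ : LocalSobolev m f₁) (hf₂ : LocalSobolev m f₂) (h12 :
    LocalSobolev m (fun y => f₁ y * f₂ y)) (hg : LocalSobolev m g) :
    ∀ᵐ x ∂m, gamma m (fun y => f₁ y * f₂ y) g x = f₁ x * gamma m f₂ g x + f₂ x * gamma m f₁ g x := by
  have hbd : ∀ (u : X → ℝ) (n : ℕ), gcb_LocBdd m (fun y => max (min (u y) (n : ℝ)) (-(n : ℝ))) := by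
    intro u n
    refine gcb_locBdd_of_bdd m ⟨(n : ℝ), fun x => ?_⟩
    have hn : (0 : ℝ) ≤ n := Nat.cast_nonneg n
    rw [abs_le]
    exact ⟨le_max_right _ _, max_le (min_le_right _ _) (by linarith)⟩
  have key : ∀ n : ℕ, ∀ᵐ x ∂m, |f₁ x| < n → |f₂ x| < n →
      gamma m (fun y => f₁ y * f₂ y) g x = f₁ x * gamma m f₂ g x + f₂ x * gamma m f₁ g x := by
    intro n
    have hn : (0 : ℝ) ≤ n := Nat.cast_nonneg n
    have c₁ := gcb_locSob_clamp hS hf₁ (n : ℝ)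
    have c₂ := gcb_locSob_clamp hS hf₂ (n : ℝ)
    filter_upwards [gcb_gamma_mul_left hS c₁ c₂ (hbd f₁ n) (hbd f₂ n) hg,
      gcb_gamma_eq_on_left hS h12 (gcb_locSob_mul hS c₁ c₂ (hbd f₁ n) (hbd f₂ n)) hg,
      gcb_gamma_clamp_left hS hf₁ hg hn, gcb_gamma_clamp_left hS hf₂ hg hn]
      with x h1 h2 h3 h4 a₁ a₂
    have e₁ : max (min (f₁ x) (n : ℝ)) (-(n : ℝ)) = f₁ x := by
      rw [abs_lt] at a₁
      rw [min_eq_left a₁.2.le, max_eq_left a₁.1.le]
    have e₂ : max (min (f₂ x) (n : ℝ)) (-(n : ℝ)) = f₂ x := by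
      rw [abs_lt] at a₂
      rw [min_eq_left a₂.2.le, max_eq_left a₂.1.le]
    rw [h2 (by rw [e₁, e₂]), h1, h3.1 a₁, h4.1 a₂, e₁, e₂]
  filter_upwards [ae_all_iff.2 key] with x hx
  obtain ⟨n, hn⟩ := exists_nat_gt (max |f₁ x| |f₂ x|)
  exact hx n ((le_max_left _ _).trans_lt hn) ((le_max_right _ _).trans_lt hn)

end Claimed.Agent.R210.GCB.Chain
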