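/-
Row 210 (S0432), layer GCB (calculus for the frozen `weakGradient` / `gamma`).  Architect: helper469.
Leaf file `Int`: integrability of `gamma`; the Dirichlet form `form` and `energy`; identification with the Cheeger energy.
Notation in the comments: |Df| = `weakGradient m f`, Γ(f,g) = `gamma m f g`, E = `form m`.
Consumers never import this file: they import `GCB/Ifc.lean` (or `GCB/IfcA.lean`).
Rules: keep every statement and name as it is (the interface restates them); helper lemmas are welcome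
(prefix `gcb_`, fresh names).  Earlier lemmas of this file and of the imported files may be used.
-/
import Claimed.Agent.R210.GCB.Chain

set_option autoImplicit false

open Claims.C0366 Claims.C0366.WeakHessian
open Set Filter MeasureTheory
open scoped ENNReal NNReal Topology

namespace Claimed.Agent.R210.GCB.Int

open Claimed.Agent.R210.Defs Claimed.Agent.R210.GCB.Defs Claimed.Agent.R210.GCB.NeedTP
  Claimed.Agent.R210.GCB.NeedGC Claimed.Agent.R210.GCB.Basic Claimed.Agent.R210.GCB.LocBdd
  Claimed.Agent.R210.GCB.Grad Claimed.Agent.R210.GCB.Lip Claimed.Agent.R210.GCB.Comp Claimed.Agent.R210.GCB.Sob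
  Claimed.Agent.R210.GCB.Gam Claimed.Agent.R210.GCB.Chain

variable {X : Type*} [MetricSpace X] [MeasurableSpace X] [BorelSpace X]
  [CompleteSpace X] [TopologicalSpace.SeparableSpace X] [ProperSpace X]
  {m : Measure X} {K N : ℝ} {f g h f' g' f₁ f₂ g₁ g₂ u v D : X → ℝ}

/-- `MemLp.integrable_sq`. -/
theorem gcb_wg_sq_integrable (hf : Sobolev m f) :
    Integrable (fun x => weakGradient m f x ^ 2) m := by
  exact hf.2.2.integrable_sq

theorem gcb_wg_mul_integrable (hf : Sobolev m f) (hg : Sobolev m g) :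
    Integrable (fun x => weakGradient m f x * weakGradient m g x) m := by
  exact hf.2.2.integrable_mul hg.2.2

/-- `Integrable.mono'` with `gcb_gamma_abs_le`, `gcb_gamma_aesm`. -/
theorem gcb_gamma_integrable (hS : Std m K N) (hf : Sobolev m f) (hg : Sobolev m g) :
    Integrable (gamma m f g) m := by
  refine (gcb_wg_mul_integrable hf hg).mono' (gcb_gamma_aesm m f g) ?_
  filter_upwards [gcb_gamma_abs_le hS hf.2.1 hg.2.1] with x hx
  rwa [Real.norm_eq_abs]

/-- `gcb_integrableOn_mul` for the two gradients. -/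
theorem gcb_gamma_integrableOn (hS : Std m K N) (hf : LocalSobolev m f) (hg : LocalSobolev m g) (o : X) (R :
    ℝ) :
    IntegrableOn (gamma m f g) (Metric.ball o R) m := by
  refine (gcb_integrableOn_mul (gcb_wg_locL2 m f) (gcb_wg_locL2 m g) o R).mono'
    (gcb_gamma_aesm m f g).restrict ?_
  filter_upwards [ae_restrict_of_ae (gcb_gamma_abs_le hS hf hg)] with x hx
  rwa [Real.norm_eq_abs]

theorem gcb_gamma_mul_integrable (hS : Std m K N) (hf : Sobolev m f) (hg : Sobolev m g) (hh :
    AEStronglyMeasurable h m) {B : ℝ} (hb : AEBdd m h B) :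
    Integrable (fun x => h x * gamma m f g x) m := by
  refine (gcb_gamma_integrable hS hf hg).bdd_mul (c := B) hh ?_
  filter_upwards [hb] with x hx
  rwa [Real.norm_eq_abs]

theorem gcb_gamma_mul_integrable_loc (hS : Std m K N) (hf : LocalSobolev m f) (hg : LocalSobolev m g) (hh :
    AEStronglyMeasurable h m) (hb : gcb_LocBdd m h) (hs : gcb_BddSupp m h) :
    Integrable (fun x => h x * gamma m f g x) m := by
  obtain ⟨A, hA, hA0⟩ := hs
  rcases isEmpty_or_nonempty X with hX | ⟨⟨o⟩⟩
  · have : m = 0 := Measure.eq_zero_of_isEmpty m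
    rw [this]
    exact integrable_zero_measure
  obtain ⟨R, hR⟩ := hA.subset_ball o
  obtain ⟨B, hB⟩ := hb o R
  have h1 : IntegrableOn (fun x => h x * gamma m f g x) (Metric.ball o R) m := by
    refine (gcb_gamma_integrableOn hS hf hg o R).bdd_mul (c := B) hh.restrict ?_
    filter_upwards [(ae_restrict_iff' Metric.isOpen_ball.measurableSet).2 hB] with x hx
    rwa [Real.norm_eq_abs]
  refine h1.integrable_of_ae_notMem_eq_zero ?_
  filter_upwards [hA0] with x hx hxb
  rw [hx (fun hxA => hxb (hR hxA)), zero_mul]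

/-- `|h Γ(f,g)| ≤ |Df| |h |Dg||`, product of two `L²` functions. -/
theorem gcb_gamma_mul_integrable_of_memLp (hS : Std m K N) (hf : Sobolev m f) (hg : LocalSobolev m g) (hh :
    AEStronglyMeasurable h m) (hhg : MemLp (fun x => h x * weakGradient m g x) 2 m) :
    Integrable (fun x => h x * gamma m f g x) m := by
  refine (hf.2.2.integrable_mul hhg.abs).mono' (hh.mul (gcb_gamma_aesm m f g)) ?_
  filter_upwards [gcb_gamma_abs_le hS hf.2.1 hg, gcb_wg_nonneg m g] with x hx h0
  rw [Real.norm_eq_abs, abs_mul]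
  calc |h x| * |gamma m f g x| ≤ |h x| * (weakGradient m f x * weakGradient m g x) :=
        mul_le_mul_of_nonneg_left hx (abs_nonneg _)
    _ = weakGradient m f x * |h x * weakGradient m g x| := by
        rw [abs_mul, abs_of_nonneg h0]; ring

/-- `gcb_integrable_bddDens`, `gcb_gamma_integrableOn`. -/
theorem gcb_gamma_integrable_bddDens (hS : Std m K N) (hf : LocalSobolev m f) (hg : LocalSobolev m g) {μ :
    Measure X} {M : ℝ≥0} {o : X} {R : ℝ} (hμ : BddDens m μ M o R) :
    Integrable (gamma m f g) μ := by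
  exact gcb_integrable_bddDens hμ (gcb_gamma_integrableOn hS hf hg o (R + 1))

theorem gcb_wg_sq_integrable_bddDens (hf : LocalSobolev m f) {μ : Measure X} {M : ℝ≥0} {o : X} {R : ℝ} (hμ :
    BddDens m μ M o R) :
    Integrable (fun x => weakGradient m f x ^ 2) μ := by
  refine gcb_integrable_bddDens hμ ?_
  simpa only [pow_two] using
    gcb_integrableOn_mul (gcb_wg_locL2 m f) (gcb_wg_locL2 m f) o (R + 1)

/-- `L²` on a ball of finite measure is `L¹`. -/
theorem gcb_locL2_integrable_bddDens (hf : LocallyL2 m f) {μ : Measure X} {M : ℝ≥0} {o : X} {R : ℝ} (hS : Std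
    m K N) (hμ : BddDens m μ M o R) :
    Integrable f μ := by
  refine gcb_integrable_bddDens hμ ?_
  simpa only [mul_one] using gcb_integrableOn_mul hf
    (gcb_locL2_of_locBdd hS aestronglyMeasurable_const (gcb_locBdd_const m 1)) o (R + 1)

theorem gcb_gamma_memLp_of_lip (hS : Std m K N) (hf : Sobolev m f) (hg : GloballyLipschitz g) :
    MemLp (gamma m f g) 2 m := by
  obtain ⟨L, hL⟩ := hg
  refine hf.2.2.of_le_mul (c := L) (gcb_gamma_aesm m f g) ?_
  filter_upwards [gcb_gamma_abs_le_lip_right hS hf.2.1 hL, gcb_wg_nonneg m f] with x hx h0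
  rwa [Real.norm_eq_abs, Real.norm_eq_abs, abs_of_nonneg h0]

theorem gcb_energy_nonneg (m : Measure X) (f : X → ℝ) :
    0 ≤ energy m f := by
  exact integral_nonneg fun _ => sq_nonneg _

theorem gcb_energy_congr (h : f =ᵐ[m] g) :
    energy m f = energy m g := by
  unfold energy
  rw [gcb_wg_congr h]

theorem gcb_form_congr (hf : f =ᵐ[m] f') (hg : g =ᵐ[m] g') :
    form m f g = form m f' g' := by
  unfold form
  rw [gcb_gamma_congr hf hg]

theorem gcb_form_self (hS : Std m K N) (hf : LocalSobolev m f) :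
    form m f f = energy m f := by
  exact integral_congr_ae (gcb_gamma_self hS hf)

theorem gcb_form_comm (m : Measure X) (f g : X → ℝ) :
    form m f g = form m g f := by
  unfold form
  rw [gcb_gamma_comm]

theorem gcb_form_add_left (hS : Std m K N) (hf₁ : Sobolev m f₁) (hf₂ : Sobolev m f₂) (hg : Sobolev m g) :
    form m (fun x => f₁ x + f₂ x) g = form m f₁ g + form m f₂ g := by
  unfold form
  rw [integral_congr_ae (gcb_gamma_add_left hS hf₁.2.1 hf₂.2.1 hg.2.1)]
  exact integral_add (gcb_gamma_integrable hS hf₁ hg) (gcb_gamma_integrable hS hf₂ hg)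

theorem gcb_form_add_right (hS : Std m K N) (hf : Sobolev m f) (hg₁ : Sobolev m g₁) (hg₂ : Sobolev m g₂) :
    form m f (fun x => g₁ x + g₂ x) = form m f g₁ + form m f g₂ := by
  unfold form
  rw [integral_congr_ae (gcb_gamma_add_right hS hf.2.1 hg₁.2.1 hg₂.2.1)]
  exact integral_add (gcb_gamma_integrable hS hf hg₁) (gcb_gamma_integrable hS hf hg₂)

theorem gcb_form_neg_left (m : Measure X) (f g : X → ℝ) :
    form m (fun x => -f x) g = -form m f g := by
  unfold form
  rw [gcb_gamma_neg_left]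
  exact integral_neg _

theorem gcb_form_neg_right (m : Measure X) (f g : X → ℝ) :
    form m f (fun x => -g x) = -form m f g := by
  unfold form
  rw [gcb_gamma_neg_right]
  exact integral_neg _

theorem gcb_form_sub_left (hS : Std m K N) (hf₁ : Sobolev m f₁) (hf₂ : Sobolev m f₂) (hg : Sobolev m g) :
    form m (fun x => f₁ x - f₂ x) g = form m f₁ g - form m f₂ g := by
  unfold form
  rw [integral_congr_ae (gcb_gamma_sub_left hS hf₁.2.1 hf₂.2.1 hg.2.1)]
  exact integral_sub (gcb_gamma_integrable hS hf₁ hg) (gcb_gamma_integrable hS hf₂ hg)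

theorem gcb_form_sub_right (hS : Std m K N) (hf : Sobolev m f) (hg₁ : Sobolev m g₁) (hg₂ : Sobolev m g₂) :
    form m f (fun x => g₁ x - g₂ x) = form m f g₁ - form m f g₂ := by
  unfold form
  rw [integral_congr_ae (gcb_gamma_sub_right hS hf.2.1 hg₁.2.1 hg₂.2.1)]
  exact integral_sub (gcb_gamma_integrable hS hf hg₁) (gcb_gamma_integrable hS hf hg₂)

/-- a.e. identity + `integral_const_mul` (no integrability needed). -/
theorem gcb_form_const_mul_left (hS : Std m K N) (c : ℝ) (hf : LocalSobolev m f) (hg : LocalSobolev m g) :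
    form m (fun x => c * f x) g = c * form m f g := by
  unfold form
  rw [integral_congr_ae (gcb_gamma_const_mul_left hS c hf hg)]
  exact integral_const_mul c _

theorem gcb_form_const_mul_right (hS : Std m K N) (c : ℝ) (hf : LocalSobolev m f) (hg : LocalSobolev m g) :
    form m f (fun x => c * g x) = c * form m f g := by
  unfold form
  rw [integral_congr_ae (gcb_gamma_const_mul_right hS c hf hg)]
  exact integral_const_mul c _

theorem gcb_energy_add (hS : Std m K N) (hf : Sobolev m f) (hg : Sobolev m g) :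
    energy m (fun x => f x + g x) = energy m f + 2 * form m f g + energy m g := by
  unfold energy form
  have i1 := gcb_wg_sq_integrable hf
  have i2 : Integrable (fun x => 2 * gamma m f g x) m := (gcb_gamma_integrable hS hf hg).const_mul 2
  have i3 := gcb_wg_sq_integrable hg
  have i12 : Integrable (fun x => weakGradient m f x ^ 2 + 2 * gamma m f g x) m := i1.add i2
  rw [integral_congr_ae (gcb_wg_sq_add hS hf.2.1 hg.2.1), integral_add i12 i3, integral_add i1 i2,
    integral_const_mul]

theorem gcb_energy_sub (hS : Std m K N) (hf : Sobolev m f) (hg : Sobolev m g) :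
    energy m (fun x => f x - g x) = energy m f - 2 * form m f g + energy m g := by
  unfold energy form
  have i1 := gcb_wg_sq_integrable hf
  have i2 : Integrable (fun x => 2 * gamma m f g x) m := (gcb_gamma_integrable hS hf hg).const_mul 2
  have i3 := gcb_wg_sq_integrable hg
  have i12 : Integrable (fun x => weakGradient m f x ^ 2 - 2 * gamma m f g x) m := i1.sub i2
  rw [integral_congr_ae (gcb_wg_sq_sub hS hf.2.1 hg.2.1), integral_add i12 i3, integral_sub i1 i2,
    integral_const_mul]

theorem gcb_energy_neg (m : Measure X) (f : X → ℝ) :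
    energy m (fun x => -f x) = energy m f := by
  unfold energy
  rw [gcb_wg_neg]

theorem gcb_energy_const_mul (hS : Std m K N) (c : ℝ) (hf : LocalSobolev m f) :
    energy m (fun x => c * f x) = c ^ 2 * energy m f := by
  unfold energy
  rw [← integral_const_mul]
  refine integral_congr_ae ?_
  filter_upwards [gcb_wg_const_mul hS c hf] with x hx
  rw [hx, mul_pow, sq_abs]

theorem gcb_energy_par (hS : Std m K N) (hf : Sobolev m f) (hg : Sobolev m g) :
    energy m (fun x => f x + g x) + energy m (fun x => f x - g x) = 2 * energy m f + 2 * energy m g := by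
  rw [gcb_energy_add hS hf hg, gcb_energy_sub hS hf hg]
  ring

/-- discriminant of `t ↦ energy (f + t g) ≥ 0`, or Hölder (`integral_mul_le_Lp_mul_Lq_of_nonneg`) with
`gcb_gamma_abs_le`. -/
theorem gcb_form_abs_le (hS : Std m K N) (hf : Sobolev m f) (hg : Sobolev m g) :
    |form m f g| ≤ Real.sqrt (energy m f) * Real.sqrt (energy m g) := by
  have h1 : ∀ t : ℝ, 0 ≤ energy m g * (t * t) + 2 * form m f g * t + energy m f := by
    intro t
    have h2 := gcb_energy_add hS hf (gcb_sob_const_mul hS t hg)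
    rw [gcb_form_const_mul_right hS t hf.2.1 hg.2.1, gcb_energy_const_mul hS t hg.2.1] at h2
    have h3 := gcb_energy_nonneg m (fun x => f x + t * g x)
    rw [h2] at h3
    nlinarith [h3]
  have h4 := discrim_le_zero h1
  unfold discrim at h4
  rw [← Real.sqrt_mul (gcb_energy_nonneg m f)]
  refine Real.abs_le_sqrt ?_
  nlinarith [h4]

theorem gcb_energy_add_le (hS : Std m K N) (hf : Sobolev m f) (hg : Sobolev m g) :
    energy m (fun x => f x + g x) ≤ 2 * energy m f + 2 * energy m g := by
  have h1 := gcb_energy_par hS hf hg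
  have h2 := gcb_energy_nonneg m (fun x => f x - g x)
  linarith

theorem gcb_sqrt_energy_add_le (hS : Std m K N) (hf : Sobolev m f) (hg : Sobolev m g) :
    Real.sqrt (energy m (fun x => f x + g x)) ≤ Real.sqrt (energy m f) + Real.sqrt (energy m g) := by
  have h1 := gcb_form_abs_le hS hf hg
  have h2 := le_abs_self (form m f g)
  have a := Real.sq_sqrt (gcb_energy_nonneg m f)
  have b := Real.sq_sqrt (gcb_energy_nonneg m g)
  refine Real.sqrt_le_iff.2 ⟨add_nonneg (Real.sqrt_nonneg _) (Real.sqrt_nonneg _), ?_⟩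
  rw [gcb_energy_add hS hf hg]
  nlinarith [h1, h2, a, b]

/-- Cauchy-Schwarz for two real `L²` functions (discriminant of `t ↦ ∫ (t a + b)²`). -/
theorem gcb_cs_aux {μ : Measure X} {a b : X → ℝ} (ha : MemLp a 2 μ) (hb : MemLp b 2 μ) :
    |∫ x, a x * b x ∂μ| ≤ Real.sqrt (∫ x, a x ^ 2 ∂μ) * Real.sqrt (∫ x, b x ^ 2 ∂μ) := by
  have hA : Integrable (fun x => a x ^ 2) μ := ha.integrable_sq
  have hB : Integrable (fun x => b x ^ 2) μ := hb.integrable_sq
  have hC : Integrable (fun x => a x * b x) μ := ha.integrable_mul hb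
  have hA0 : 0 ≤ ∫ x, a x ^ 2 ∂μ := integral_nonneg fun x => sq_nonneg _
  have key : ∀ t : ℝ, 0 ≤ (∫ x, a x ^ 2 ∂μ) * (t * t) + (2 * ∫ x, a x * b x ∂μ) * t
      + ∫ x, b x ^ 2 ∂μ := by
    intro t
    have h1 : ∫ x, (t * a x + b x) ^ 2 ∂μ = (∫ x, a x ^ 2 ∂μ) * (t * t)
        + (2 * ∫ x, a x * b x ∂μ) * t + ∫ x, b x ^ 2 ∂μ := by
      have : (fun x => (t * a x + b x) ^ 2)
          = fun x => (t * t) * a x ^ 2 + (2 * t) * (a x * b x) + b x ^ 2 := by
        funext x; ring
      have i1 : Integrable (fun x => (t * t) * a x ^ 2) μ := hA.const_mul _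
      have i2 : Integrable (fun x => (2 * t) * (a x * b x)) μ := hC.const_mul _
      have i3 : Integrable (fun x => (t * t) * a x ^ 2 + (2 * t) * (a x * b x)) μ := i1.add i2
      rw [this, integral_add i3 hB, integral_add i1 i2, integral_const_mul, integral_const_mul]
      ring
    rw [← h1]
    exact integral_nonneg fun x => sq_nonneg _
  have hd := discrim_le_zero key
  rw [discrim] at hd
  rw [← Real.sqrt_mul hA0]
  apply Real.abs_le_sqrt
  nlinarith

/-- domination form of Cauchy-Schwarz: `|F| ≤ a b` a.e. with `a, b ∈ L²`. -/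
theorem gcb_cs_dom_aux {μ : Measure X} {a b F : X → ℝ} (ha : MemLp a 2 μ) (hb : MemLp b 2 μ)
    (hF : ∀ᵐ x ∂μ, |F x| ≤ a x * b x) :
    |∫ x, F x ∂μ| ≤ Real.sqrt (∫ x, a x ^ 2 ∂μ) * Real.sqrt (∫ x, b x ^ 2 ∂μ) := by
  have hC : Integrable (fun x => a x * b x) μ := ha.integrable_mul hb
  calc |∫ x, F x ∂μ| ≤ ∫ x, |F x| ∂μ := abs_integral_le_integral_abs
    _ ≤ ∫ x, a x * b x ∂μ :=
        integral_mono_of_nonneg (Eventually.of_forall fun x => abs_nonneg _) hC hF
    _ ≤ |∫ x, a x * b x ∂μ| := le_abs_self _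
    _ ≤ _ := gcb_cs_aux ha hb

/-- weighted Cauchy-Schwarz: for `t > 0`, `2 h |Γ| ≤ t h |Df|² + t⁻¹ h |Dg|²`; optimise in `t` (treat vanishing
integrals separately), or discriminant. -/
theorem gcb_int_gamma_abs_le (hS : Std m K N) (hf : LocalSobolev m f) (hg : LocalSobolev m g) (h0 : ∀ᵐ x ∂m, 0
    ≤ h x) (h1 : Integrable (fun x => h x * weakGradient m f x ^ 2) m) (h2 : Integrable (fun x => h x *
    weakGradient m g x ^ 2) m) :
    |∫ x, h x * gamma m f g x ∂m| ≤ Real.sqrt (∫ x, h x * weakGradient m f x ^ 2 ∂m) * Real.sqrt (∫ x, h x *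
    weakGradient m g x ^ 2 ∂m) := by
  have hsq : ∀ {w : X → ℝ}, Integrable (fun x => h x * w x ^ 2) m →
      MemLp (fun x => Real.sqrt (h x * w x ^ 2)) 2 m ∧
        ∫ x, Real.sqrt (h x * w x ^ 2) ^ 2 ∂m = ∫ x, h x * w x ^ 2 ∂m := by
    intro w hw
    have hm : AEStronglyMeasurable (fun x => Real.sqrt (h x * w x ^ 2)) m :=
      Real.continuous_sqrt.comp_aestronglyMeasurable hw.1
    have he : (fun x => Real.sqrt (h x * w x ^ 2) ^ 2) =ᵐ[m] fun x => h x * w x ^ 2 := by
      filter_upwards [h0] with x hx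
      exact Real.sq_sqrt (mul_nonneg hx (sq_nonneg _))
    refine ⟨(memLp_two_iff_integrable_sq hm).2 (hw.congr he.symm), integral_congr_ae he⟩
  obtain ⟨ha, ha'⟩ := hsq h1
  obtain ⟨hb, hb'⟩ := hsq h2
  rw [← ha', ← hb']
  apply gcb_cs_dom_aux ha hb
  filter_upwards [h0, gcb_gamma_abs_le hS hf hg, gcb_wg_nonneg m f, gcb_wg_nonneg m g]
    with x hx hG hf0 hg0
  rw [← Real.sqrt_mul (mul_nonneg hx (sq_nonneg _))]
  have : h x * weakGradient m f x ^ 2 * (h x * weakGradient m g x ^ 2)
      = (h x * (weakGradient m f x * weakGradient m g x)) ^ 2 := by ring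
  rw [this, Real.sqrt_sq (mul_nonneg hx (mul_nonneg hf0 hg0)), abs_mul, abs_of_nonneg hx]
  exact mul_le_mul_of_nonneg_left hG hx

theorem gcb_int_gamma_abs_le_memLp (hS : Std m K N) (hf : Sobolev m f) (hg : LocalSobolev m g) (hh :
    AEStronglyMeasurable h m) (hhg : MemLp (fun x => h x * weakGradient m g x) 2 m) :
    |∫ x, h x * gamma m f g x ∂m| ≤ Real.sqrt (energy m f) * Real.sqrt (∫ x, (h x * weakGradient m g x) ^ 2 ∂m) := by
  have hb : MemLp (fun x => |h x * weakGradient m g x|) 2 m := hhg.abs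
  have hb' : ∫ x, |h x * weakGradient m g x| ^ 2 ∂m = ∫ x, (h x * weakGradient m g x) ^ 2 ∂m := by
    simp only [sq_abs]
  rw [← hb']
  unfold energy
  apply gcb_cs_dom_aux (gcb_sob_wg_memLp hf) hb
  filter_upwards [gcb_gamma_abs_le hS (gcb_sob_locSob hf) hg, gcb_wg_nonneg m g] with x hG hg0
  rw [abs_mul, abs_mul, abs_of_nonneg hg0]
  calc |h x| * |gamma m f g x| ≤ |h x| * (weakGradient m f x * weakGradient m g x) :=
        mul_le_mul_of_nonneg_left hG (abs_nonneg _)
    _ = weakGradient m f x * (|h x| * weakGradient m g x) := by ring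

theorem gcb_energy_mul_lipB_le (hS : Std m K N) {L : ℝ≥0} {B : ℝ} (hL : LipschitzWith L g) (hB : ∀ x, |g x| ≤
    B) (hf : Sobolev m f) :
    energy m (fun x => g x * f x) ≤ 2 * B ^ 2 * energy m f + 2 * (L : ℝ) ^ 2 * ∫ x, f x ^ 2 ∂m := by
  have i1 : Integrable (fun x => 2 * B ^ 2 * weakGradient m f x ^ 2) m :=
    (gcb_sob_wg_memLp hf).integrable_sq.const_mul _
  have i2 : Integrable (fun x => 2 * (L : ℝ) ^ 2 * f x ^ 2) m :=
    (gcb_sob_memLp hf).integrable_sq.const_mul _
  unfold energy
  rw [← integral_const_mul, ← integral_const_mul, ← integral_add i1 i2]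
  apply integral_mono_of_nonneg (Eventually.of_forall fun x => sq_nonneg _) (i1.add i2)
  filter_upwards [gcb_wg_mul_locLip_le hS hL.locallyLipschitz (gcb_sob_locSob hf),
    gcb_wg_le_lip hS hL, gcb_wg_nonneg m (fun y => g y * f y), gcb_wg_nonneg m f,
    gcb_wg_nonneg m g] with x hx hLx h0 hf0 hg0
  have hBx : |g x| ≤ B := hB x
  have hB0 : 0 ≤ B := (abs_nonneg _).trans hBx
  have h3 : weakGradient m (fun y => g y * f y) x ≤ B * weakGradient m f x + (L : ℝ) * |f x| := by
    calc weakGradient m (fun y => g y * f y) x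
        ≤ |g x| * weakGradient m f x + |f x| * weakGradient m g x := hx
      _ ≤ B * weakGradient m f x + |f x| * (L : ℝ) :=
          add_le_add (mul_le_mul_of_nonneg_right hBx hf0)
            (mul_le_mul_of_nonneg_left hLx (abs_nonneg _))
      _ = _ := by ring
  have h4 : weakGradient m (fun y => g y * f y) x ^ 2
      ≤ (B * weakGradient m f x + (L : ℝ) * |f x|) ^ 2 := pow_le_pow_left₀ h0 h3 2
  have h5 : |f x| ^ 2 = f x ^ 2 := sq_abs _
  show weakGradient m (fun y => g y * f y) x ^ 2
    ≤ 2 * B ^ 2 * weakGradient m f x ^ 2 + 2 * (L : ℝ) ^ 2 * f x ^ 2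
  nlinarith [sq_nonneg (B * weakGradient m f x - (L : ℝ) * |f x|)]

/-- `gcb_need_id_iff`. -/
theorem gcb_sob_iff_cheeger (hS : Std m K N) :
    Sobolev m f ↔ MemLp f 2 m ∧ cheegerEnergy m f < ∞ :=
  gcb_need_id_iff hS

/-- `gcb_need_id_energy`. -/
theorem gcb_cheeger_eq_energy (hS : Std m K N) (hf : Sobolev m f) :
    cheegerEnergy m f = ENNReal.ofReal (energy m f / 2) :=
  gcb_need_id_energy hS hf

theorem gcb_energy_eq_cheeger (hS : Std m K N) (hf : Sobolev m f) :
    energy m f = 2 * (cheegerEnergy m f).toReal := by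
  have h0 : 0 ≤ energy m f := integral_nonneg fun x => sq_nonneg _
  rw [gcb_need_id_energy hS hf, ENNReal.toReal_ofReal (by positivity)]
  ring

/-- `gcb_wg_le_slope`; `ofReal_integral_eq_lintegral_ofReal`. -/
theorem gcb_energy_le_slope (hS : Std m K N) (hf : GloballyLipschitz f) (h2 : MemLp f 2 m) {A : ℝ} (hA0 : 0 ≤
    A) (hA : ∫⁻ x, localSlope f x ^ 2 ∂m ≤ ENNReal.ofReal A) :
    Sobolev m f ∧ energy m f ≤ A := by
  have hloc : LocalSobolev m f := gcb_locSob_of_lip hS hf
  have hm : AEStronglyMeasurable (weakGradient m f) m := gcb_wg_aesm m f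
  have hle : ∫⁻ x, ENNReal.ofReal (weakGradient m f x ^ 2) ∂m ≤ ENNReal.ofReal A := by
    refine le_trans (lintegral_mono_ae ?_) hA
    filter_upwards [gcb_wg_le_slope hS (gcb_locLip_of_lip hf), gcb_wg_nonneg m f] with x hx h0
    rw [ENNReal.ofReal_pow h0]
    exact pow_le_pow_left₀ zero_le hx 2
  have hint : Integrable (fun x => weakGradient m f x ^ 2) m := by
    refine ⟨hm.pow 2, ?_⟩
    rw [hasFiniteIntegral_iff_ofReal (Eventually.of_forall fun x => sq_nonneg _)]
    exact lt_of_le_of_lt hle ENNReal.ofReal_lt_top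
  refine ⟨⟨h2, hloc, (memLp_two_iff_integrable_sq hm).2 hint⟩, ?_⟩
  unfold energy
  rw [← ENNReal.ofReal_le_ofReal_iff hA0,
    ofReal_integral_eq_lintegral_ofReal hint (Eventually.of_forall fun x => sq_nonneg _)]
  exact hle

end Claimed.Agent.R210.GCB.Int
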