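/-
Row 210 (S0432), layer GCB (calculus for the frozen `weakGradient` / `gamma`).  Architect: helper469.
Leaf file `Conv`: closure, lower semicontinuity, weak continuity, strong convergence, density of `LipC`.
Notation in the comments: |Df| = `weakGradient m f`, Γ(f,g) = `gamma m f g`, E = `form m`.
Consumers never import this file: they import `GCB/Ifc.lean` (or `GCB/IfcA.lean`).
Rules: keep every statement and name as it is (the interface restates them); helper lemmas are welcome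
(prefix `gcb_`, fresh names).  Earlier lemmas of this file and of the imported files may be used.
-/
import Claimed.Agent.R210.GCB.Int

set_option autoImplicit false

open Claims.C0366 Claims.C0366.WeakHessian
open Set Filter MeasureTheory
open scoped ENNReal NNReal Topology

namespace Claimed.Agent.R210.GCB.Conv

open Claimed.Agent.R210.Defs Claimed.Agent.R210.GCB.Defs Claimed.Agent.R210.GCB.NeedTP
  Claimed.Agent.R210.GCB.NeedGC Claimed.Agent.R210.GCB.Basic Claimed.Agent.R210.GCB.LocBdd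
  Claimed.Agent.R210.GCB.Grad Claimed.Agent.R210.GCB.Lip Claimed.Agent.R210.GCB.Comp Claimed.Agent.R210.GCB.Sob
  Claimed.Agent.R210.GCB.Gam Claimed.Agent.R210.GCB.Chain Claimed.Agent.R210.GCB.Int

variable {X : Type*} [MetricSpace X] [MeasurableSpace X] [BorelSpace X]
  [CompleteSpace X] [TopologicalSpace.SeparableSpace X] [ProperSpace X]
  {m : Measure X} {K N : ℝ} {f g h f' g' f₁ f₂ g₁ g₂ u v D : X → ℝ}

/-- `f = fs n - (fs n - f)` for `n` large. -/
theorem gcb_L2Lim_memLp {fs : ℕ → X → ℝ} (hfs : ∀ n, MemLp (fs n) 2 m) (hf : AEStronglyMeasurable f m) (hlim :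
    gcb_L2Lim m fs f) :
    MemLp f 2 m := by
  have hev : ∀ᶠ n in atTop, eLpNorm (fun x => fs n x - f x) 2 m < 1 :=
    hlim.eventually (gt_mem_nhds zero_lt_one)
  obtain ⟨n, hn⟩ := hev.exists
  have h1 : MemLp (fun x => fs n x - f x) 2 m :=
    ⟨(hfs n).1.sub hf, hn.trans ENNReal.one_lt_top⟩
  have h2 : f = fun x => fs n x - (fs n x - f x) := by funext x; ring
  rw [h2]
  exact (hfs n).sub h1

/-- the `L²` seminorm of an `L²` function is the square root of the integral of the square. -/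
theorem gcb_eLpNorm_two_eq {μ : Measure X} {F : X → ℝ} (hF : MemLp F 2 μ) :
    eLpNorm F 2 μ = ENNReal.ofReal (Real.sqrt (∫ x, F x ^ 2 ∂μ)) := by
  rw [hF.eLpNorm_eq_integral_rpow_norm (by norm_num) (by norm_num)]
  congr 1
  rw [Real.sqrt_eq_rpow]
  congr 1
  · apply integral_congr_ae
    filter_upwards with x
    simp
  · norm_num

theorem gcb_L2Lim_iff_aux {fs : ℕ → X → ℝ} (hfs : ∀ n, MemLp (fs n) 2 m) (hf : MemLp f 2 m) :
    gcb_L2Lim m fs f ↔ Tendsto (fun n => ∫ x, (fs n x - f x) ^ 2 ∂m) atTop (𝓝 0) := by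
  have hM : ∀ n, MemLp (fun x => fs n x - f x) 2 m := fun n => (hfs n).sub hf
  have hI0 : ∀ n, 0 ≤ ∫ x, (fs n x - f x) ^ 2 ∂m := fun n => integral_nonneg fun x => sq_nonneg _
  unfold gcb_L2Lim
  simp_rw [fun n => gcb_eLpNorm_two_eq (hM n)]
  constructor
  · intro h
    have h1 := (ENNReal.tendsto_toReal ENNReal.zero_ne_top).comp h
    have h2 : Tendsto (fun n => Real.sqrt (∫ x, (fs n x - f x) ^ 2 ∂m)) atTop (𝓝 0) := by
      refine h1.congr fun n => ?_
      simp [ENNReal.toReal_ofReal (Real.sqrt_nonneg _)]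
    have h3 := h2.pow 2
    simp only [ne_eq, OfNat.ofNat_ne_zero, not_false_eq_true, zero_pow] at h3
    exact h3.congr fun n => Real.sq_sqrt (hI0 n)
  · intro h
    have h1 := (Real.continuous_sqrt.tendsto 0).comp h
    rw [Real.sqrt_zero] at h1
    have h2 := (ENNReal.continuous_ofReal.tendsto 0).comp h1
    rw [ENNReal.ofReal_zero] at h2
    exact h2

/-- Cauchy-Schwarz. -/
theorem gcb_L2Lim_inner {fs : ℕ → X → ℝ} (hfs : ∀ n, MemLp (fs n) 2 m) (hf : MemLp f 2 m) (hlim : gcb_L2Lim m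
    fs f) (hg : MemLp g 2 m) :
    Tendsto (fun n => ∫ x, fs n x * g x ∂m) atTop (𝓝 (∫ x, f x * g x ∂m)) := by
  have hM : ∀ n, MemLp (fun x => fs n x - f x) 2 m := fun n => (hfs n).sub hf
  have h0 := (gcb_L2Lim_iff_aux hfs hf).1 hlim
  have h1 : Tendsto (fun n => Real.sqrt (∫ x, (fs n x - f x) ^ 2 ∂m) * Real.sqrt (∫ x, g x ^ 2 ∂m))
      atTop (𝓝 0) := by
    have := ((Real.continuous_sqrt.tendsto 0).comp h0).mul_const (Real.sqrt (∫ x, g x ^ 2 ∂m))
    rwa [Real.sqrt_zero, zero_mul] at this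
  rw [tendsto_iff_dist_tendsto_zero]
  refine squeeze_zero (fun n => dist_nonneg) (fun n => ?_) h1
  have j1 : Integrable (fun x => fs n x * g x) m := (hfs n).integrable_mul hg
  have j2 : Integrable (fun x => f x * g x) m := hf.integrable_mul hg
  rw [Real.dist_eq, ← integral_sub j1 j2]
  have : (fun x => fs n x * g x - f x * g x) = fun x => (fs n x - f x) * g x := by
    funext x; ring
  rw [this]
  exact gcb_cs_aux (hM n) hg

theorem gcb_L2Lim_sq {fs : ℕ → X → ℝ} (hfs : ∀ n, MemLp (fs n) 2 m) (hf : MemLp f 2 m) (hlim : gcb_L2Lim m fs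
    f) :
    Tendsto (fun n => ∫ x, fs n x ^ 2 ∂m) atTop (𝓝 (∫ x, f x ^ 2 ∂m)) := by
  have hM : ∀ n, MemLp (fun x => fs n x - f x) 2 m := fun n => (hfs n).sub hf
  have h0 := (gcb_L2Lim_iff_aux hfs hf).1 hlim
  have h1 := gcb_L2Lim_inner hfs hf hlim hf
  have hff : ∫ x, f x * f x ∂m = ∫ x, f x ^ 2 ∂m := by simp only [sq]
  rw [hff] at h1
  have h2 := (h0.add (h1.const_mul 2)).sub_const (∫ x, f x ^ 2 ∂m)
  have h3 : (0 + 2 * ∫ x, f x ^ 2 ∂m) - ∫ x, f x ^ 2 ∂m = ∫ x, f x ^ 2 ∂m := by ring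
  rw [h3] at h2
  refine h2.congr fun n => ?_
  have i1 : Integrable (fun x => (fs n x - f x) ^ 2) m := (hM n).integrable_sq
  have i2 : Integrable (fun x => 2 * (fs n x * f x)) m := ((hfs n).integrable_mul hf).const_mul 2
  have i3 : Integrable (fun x => f x ^ 2) m := hf.integrable_sq
  have i4 : Integrable (fun x => (fs n x - f x) ^ 2 + 2 * (fs n x * f x)) m := i1.add i2
  rw [← integral_const_mul, ← integral_add i1 i2, ← integral_sub i4 i3]
  apply integral_congr_ae
  filter_upwards with x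
  ring

theorem gcb_L2Lim_iff {fs : ℕ → X → ℝ} (hfs : ∀ n, MemLp (fs n) 2 m) (hf : MemLp f 2 m) :
    gcb_L2Lim m fs f ↔ Tendsto (fun n => ∫ x, (fs n x - f x) ^ 2 ∂m) atTop (𝓝 0) :=
  gcb_L2Lim_iff_aux hfs hf

/-- `gcb_need_rs_lsc` + `gcb_sob_iff_cheeger` + `gcb_cheeger_eq_energy`. -/
theorem gcb_sob_closure (hS : Std m K N) {fs : ℕ → X → ℝ} (hfs : ∀ n, Sobolev m (fs n)) (hf :
    AEStronglyMeasurable f m) (hlim : gcb_L2Lim m fs f) {B : ℝ} (hB : ∀ n, energy m (fs n) ≤ B) :
    Sobolev m f ∧ energy m f ≤ B := by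
  have hf2 : MemLp f 2 m := gcb_L2Lim_memLp (fun n => (hfs n).1) hf hlim
  have hB0 : 0 ≤ B := (gcb_energy_nonneg m (fs 0)).trans (hB 0)
  have h1 := gcb_need_rs_lsc hS (fun n => (hfs n).1) hf2 hlim
  have h2 : Filter.liminf (fun n => cheegerEnergy m (fs n)) atTop ≤ ENNReal.ofReal (B / 2) := by
    refine Filter.liminf_le_of_frequently_le' (Eventually.frequently (Eventually.of_forall fun n => ?_))
    rw [gcb_cheeger_eq_energy hS (hfs n)]
    exact ENNReal.ofReal_le_ofReal (by linarith [hB n])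
  have h3 : cheegerEnergy m f ≤ ENNReal.ofReal (B / 2) := h1.trans h2
  have hs : Sobolev m f := (gcb_sob_iff_cheeger hS).2 ⟨hf2, h3.trans_lt ENNReal.ofReal_lt_top⟩
  refine ⟨hs, ?_⟩
  rw [gcb_cheeger_eq_energy hS hs, ENNReal.ofReal_le_ofReal_iff (by linarith)] at h3
  linarith

/-- apply `gcb_sob_closure` along a subsequence realising the `liminf` (or `gcb_need_rs_lsc` directly and
`ENNReal` bookkeeping). -/
theorem gcb_energy_le_liminf (hS : Std m K N) {fs : ℕ → X → ℝ} (hfs : ∀ n, Sobolev m (fs n)) (hf :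
    AEStronglyMeasurable f m) (hlim : gcb_L2Lim m fs f) {B : ℝ} (hB : ∀ n, energy m (fs n) ≤ B) :
    energy m f ≤ Filter.liminf (fun n => energy m (fs n)) atTop := by
  have hcob : IsCoboundedUnder (· ≥ ·) atTop (fun n => energy m (fs n)) :=
    (isBoundedUnder_of ⟨B, hB⟩).isCoboundedUnder_ge
  refine le_of_forall_sub_le fun ε hε => ?_
  refine Filter.le_liminf_of_le hcob ?_
  by_contra hcon
  rw [Filter.not_eventually] at hcon
  obtain ⟨φ, hφ, hφ2⟩ := Filter.extraction_of_frequently_atTop hcon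
  have h1 := gcb_sob_closure hS (fs := fun n => fs (φ n)) (fun n => hfs (φ n)) hf
    (hlim.comp hφ.tendsto_atTop) (B := energy m f - ε) (fun n => (not_le.1 (hφ2 n)).le)
  linarith [h1.2]

/-- one-sided version of `gcb_form_tendsto_zero` -/
theorem gcb_form_eventually_gt (hS : Std m K N) {gs : ℕ → X → ℝ} (hgs : ∀ n, Sobolev m (gs n)) (hlim :
    gcb_L2Lim m gs (fun _ => 0)) {B : ℝ} (hB : ∀ n, energy m (gs n) ≤ B) {w : X → ℝ} (hw : Sobolev m w)
    {ε : ℝ} (hε : 0 < ε) : ∀ᶠ n in atTop, -ε < form m w (gs n) := by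
  by_contra hcon
  have hfreq : ∃ᶠ n in atTop, form m w (gs n) ≤ -ε := by
    rw [Filter.not_eventually] at hcon
    exact hcon.mono fun n hn => not_lt.mp hn
  obtain ⟨φ, hφ, hφle⟩ := Filter.extraction_of_frequently_atTop hfreq
  set B' : ℝ := max B 0 + 1 with hB'
  have hB'pos : 0 < B' := by positivity
  have hBB' : B ≤ B' := by
    have := le_max_left B 0
    linarith
  set s : ℝ := ε / B' with hs
  have hspos : 0 < s := div_pos hε hB'pos
  have hsob : ∀ n, Sobolev m (fun x => s * gs (φ n) x) := fun n => gcb_sob_const_mul hS s (hgs _)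
  have hfs : ∀ n, Sobolev m (fun x => w x + s * gs (φ n) x) := fun n => gcb_sob_add hS hw (hsob n)
  have hl : gcb_L2Lim m (fun n x => w x + s * gs (φ n) x) w := by
    unfold gcb_L2Lim at hlim ⊢
    have h1 : ∀ n, eLpNorm (fun x => w x + s * gs (φ n) x - w x) 2 m
        = ‖s‖ₑ * eLpNorm (fun x => gs (φ n) x - 0) 2 m := by
      intro n
      have : (fun x => w x + s * gs (φ n) x - w x) = s • (fun x => gs (φ n) x - 0) := by
        funext x
        simp
      rw [this, eLpNorm_const_smul]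
    simp only [h1]
    have h2 := hlim.comp hφ.tendsto_atTop
    have h3 := ENNReal.Tendsto.const_mul (a := ‖s‖ₑ) h2 (Or.inr enorm_ne_top)
    simpa using h3
  have hen : ∀ n, energy m (fun x => w x + s * gs (φ n) x) ≤ energy m w - ε ^ 2 / B' := by
    intro n
    rw [gcb_energy_add hS hw (hsob n), gcb_form_const_mul_right hS s hw.2.1 (hgs _).2.1,
      gcb_energy_const_mul hS s (hgs _).2.1]
    have e1 : form m w (gs (φ n)) ≤ -ε := hφle n
    have e2 : energy m (gs (φ n)) ≤ B' := (hB _).trans hBB'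
    have e3 : s * form m w (gs (φ n)) ≤ s * (-ε) := mul_le_mul_of_nonneg_left e1 hspos.le
    have e4 : s ^ 2 * energy m (gs (φ n)) ≤ s ^ 2 * B' := mul_le_mul_of_nonneg_left e2 (sq_nonneg s)
    have e5 : s * ε = ε ^ 2 / B' := by rw [hs]; ring
    have e6 : s ^ 2 * B' = ε ^ 2 / B' := by rw [hs]; field_simp
    nlinarith
  have hfin := (gcb_sob_closure hS hfs hw.1.aestronglyMeasurable hl hen).2
  have : 0 < ε ^ 2 / B' := by positivity
  linarith

/-- LSC TRICK: for real `s`, `w + s gₙ → w` in `L²`, so `energy w ≤ liminf (energy w + 2 s E(w,gₙ) + s² B)`; `s ↓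
0` and `s ↑ 0`.  In `ε`-form: if `E(w,gₙ) ≤ -ε` frequently, pass to that subsequence and contradict
`gcb_sob_closure` with `s = ε / (B+1)`. -/
theorem gcb_form_tendsto_zero (hS : Std m K N) {gs : ℕ → X → ℝ} (hgs : ∀ n, Sobolev m (gs n)) (hlim :
    gcb_L2Lim m gs (fun _ => 0)) {B : ℝ} (hB : ∀ n, energy m (gs n) ≤ B) {w : X → ℝ} (hw : Sobolev m w) :
    Tendsto (fun n => form m w (gs n)) atTop (𝓝 0) := by
  have hneg : ∀ n, Sobolev m (fun x => -gs n x) := fun n => gcb_sob_neg (hgs n)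
  have hlimneg : gcb_L2Lim m (fun n x => -gs n x) (fun _ => 0) := by
    unfold gcb_L2Lim at hlim ⊢
    have h1 : ∀ n, eLpNorm (fun x => -gs n x - 0) 2 m = eLpNorm (fun x => gs n x - 0) 2 m := by
      intro n
      have : (fun x => -gs n x - 0) = -(fun x => gs n x - 0) := by
        funext x
        simp
      rw [this, eLpNorm_neg]
    simpa only [h1] using hlim
  have hBneg : ∀ n, energy m (fun x => -gs n x) ≤ B := fun n => by
    rw [gcb_energy_neg]; exact hB n
  rw [Metric.tendsto_atTop']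
  intro ε hε
  have h1 := gcb_form_eventually_gt hS hgs hlim hB hw hε
  have h2 := gcb_form_eventually_gt hS hneg hlimneg hBneg hw hε
  obtain ⟨n0, hn0⟩ := Filter.eventually_atTop.mp (h1.and h2)
  refine ⟨n0, fun n hn => ?_⟩
  obtain ⟨a1, a2⟩ := hn0 n hn.le
  rw [gcb_form_neg_right] at a2
  rw [Real.dist_eq, sub_zero, abs_lt]
  constructor <;> linarith

/-- expansion of `∫ (w + s u)²`. -/
theorem gcb_riesz_int_sq_add {w : X → ℝ} (hw : MemLp w 2 m) (hu : MemLp u 2 m) (s : ℝ) :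
    ∫ x, (w x + s * u x) ^ 2 ∂m
      = (∫ x, w x ^ 2 ∂m) + 2 * s * (∫ x, w x * u x ∂m) + s ^ 2 * ∫ x, u x ^ 2 ∂m := by
  have h1 : Integrable (fun x => w x ^ 2) m := hw.integrable_sq
  have h2 : Integrable (fun x => u x ^ 2) m := hu.integrable_sq
  have h3 : Integrable (fun x => w x * u x) m := hw.integrable_mul hu
  have e : (fun x => (w x + s * u x) ^ 2)
      = fun x => (w x ^ 2 + 2 * s * (w x * u x)) + s ^ 2 * u x ^ 2 := by
    funext x; ring
  have h4 : Integrable (fun x => 2 * s * (w x * u x)) m := h3.const_mul _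
  have h5 : Integrable (fun x => w x ^ 2 + 2 * s * (w x * u x)) m := h1.add h4
  have h6 : Integrable (fun x => s ^ 2 * u x ^ 2) m := h2.const_mul _
  rw [e, integral_add h5 h6, integral_add h1 h4, integral_const_mul, integral_const_mul]

/-- expansion of the `W^{1,2}` norm squared. -/
theorem gcb_riesz_Q_add (hS : Std m K N) {w : X → ℝ} (hw : Sobolev m w) (hu : Sobolev m u) (s : ℝ) :
    energy m (fun x => w x + s * u x) + ∫ x, (w x + s * u x) ^ 2 ∂m
      = (energy m w + ∫ x, w x ^ 2 ∂m) + 2 * s * (form m w u + ∫ x, w x * u x ∂m)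
        + s ^ 2 * (energy m u + ∫ x, u x ^ 2 ∂m) := by
  rw [gcb_riesz_int_sq_add hw.1 hu.1 s,
    gcb_energy_add hS hw (gcb_sob_const_mul hS s hu),
    gcb_form_const_mul_right hS s hw.2.1 hu.2.1, gcb_energy_const_mul hS s hu.2.1]
  ring

/-- APPROXIMATE RIESZ, no completeness: `J w = (energy w + ∫ w²)/2 - ℓ w ≥ -C²/2` is bounded below on Sobolev
functions; take `w` with `J w ≤ inf J + ε²/2`; `J (w + s u) ≥ J w - ε²/2` for all real `s` is a quadratic
inequality in `s`; discriminant (`discrim_le_zero`). -/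
theorem gcb_approx_riesz (hS : Std m K N) {ℓ : (X → ℝ) → ℝ} {C : ℝ} (hadd : ∀ u v, Sobolev m u → Sobolev m v →
    ℓ (fun x => u x + v x) = ℓ u + ℓ v) (hsmul : ∀ (c : ℝ) u, Sobolev m u → ℓ (fun x => c * u x) = c * ℓ u) (hbd :
    ∀ u, Sobolev m u → |ℓ u| ≤ C * Real.sqrt (energy m u + ∫ x, u x ^ 2 ∂m)) {ε : ℝ} (hε : 0 < ε) :
    ∃ w, Sobolev m w ∧ ∀ u, Sobolev m u → |form m w u + (∫ x, w x * u x ∂m) - ℓ u| ≤ ε * Real.sqrt (energy m u + ∫
    x, u x ^ 2 ∂m) := by
  classical
  set Q : (X → ℝ) → ℝ := fun u => energy m u + ∫ x, u x ^ 2 ∂m with hQ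
  have hQ0 : ∀ u, 0 ≤ Q u := fun u =>
    add_nonneg (gcb_energy_nonneg m u) (integral_nonneg fun x => sq_nonneg _)
  set J : (X → ℝ) → ℝ := fun w => Q w / 2 - ℓ w with hJ
  set S : Set ℝ := {a | ∃ w, Sobolev m w ∧ a = J w} with hSdef
  have hne : S.Nonempty := ⟨J (fun _ => 0), _, gcb_sob_zero hS, rfl⟩
  have hlb : ∀ a ∈ S, -(C ^ 2 / 2) ≤ a := by
    rintro a ⟨w, hw, rfl⟩
    have h1 : ℓ w ≤ C * Real.sqrt (Q w) := (le_abs_self _).trans (hbd w hw)
    have h2 : Real.sqrt (Q w) ^ 2 = Q w := Real.sq_sqrt (hQ0 w)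
    have h3 : 0 ≤ (Real.sqrt (Q w) - C) ^ 2 := sq_nonneg _
    simp only [hJ]
    nlinarith
  have hbdd : BddBelow S := ⟨_, hlb⟩
  obtain ⟨a, ⟨w, hw, rfl⟩, haw⟩ : ∃ a ∈ S, a < sInf S + ε ^ 2 / 2 :=
    Real.lt_sInf_add_pos hne (by positivity)
  refine ⟨w, hw, fun u hu => ?_⟩
  set b : ℝ := form m w u + (∫ x, w x * u x ∂m) - ℓ u with hb
  have key : ∀ s : ℝ, 0 ≤ Q u / 2 * (s * s) + b * s + ε ^ 2 / 2 := by
    intro s
    have hsu := gcb_sob_const_mul hS s hu
    have hws : Sobolev m (fun x => w x + s * u x) := gcb_sob_add hS hw hsu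
    have h1 : sInf S ≤ J (fun x => w x + s * u x) := csInf_le hbdd ⟨_, hws, rfl⟩
    have h2 : Q (fun x => w x + s * u x)
        = Q w + 2 * s * (form m w u + ∫ x, w x * u x ∂m) + s ^ 2 * Q u :=
      gcb_riesz_Q_add hS hw hu s
    have h3 : ℓ (fun x => w x + s * u x) = ℓ w + s * ℓ u := by
      rw [hadd w (fun x => s * u x) hw hsu, hsmul s u hu]
    have h4 : J (fun x => w x + s * u x) = J w + (Q u / 2 * (s * s) + b * s) := by
      simp only [hJ, h2, h3, hb]; ring
    linarith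
  have hd := discrim_le_zero key
  have hsq : b ^ 2 ≤ ε ^ 2 * Q u := by
    unfold discrim at hd; nlinarith
  calc |b| ≤ Real.sqrt (ε ^ 2 * Q u) := Real.abs_le_sqrt hsq
    _ = ε * Real.sqrt (Q u) := by
      rw [Real.sqrt_mul (by positivity), Real.sqrt_sq hε.le]

/-- `gcb_approx_riesz`, `gcb_form_tendsto_zero`, `gcb_L2Lim_inner`. -/
theorem gcb_weak_cont_lin (hS : Std m K N) {ℓ : (X → ℝ) → ℝ} {C : ℝ} (hadd : ∀ u v, Sobolev m u → Sobolev m v
    → ℓ (fun x => u x + v x) = ℓ u + ℓ v) (hsmul : ∀ (c : ℝ) u, Sobolev m u → ℓ (fun x => c * u x) = c * ℓ u) (hbd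
    : ∀ u, Sobolev m u → |ℓ u| ≤ C * Real.sqrt (energy m u + ∫ x, u x ^ 2 ∂m)) {gs : ℕ → X → ℝ} (hgs : ∀ n,
    Sobolev m (gs n)) (hlim : gcb_L2Lim m gs (fun _ => 0)) {B : ℝ} (hB : ∀ n, energy m (gs n) ≤ B) :
    Tendsto (fun n => ℓ (gs n)) atTop (𝓝 0) := by
  have hB0 : 0 ≤ B := (gcb_energy_nonneg m (gs 0)).trans (hB 0)
  have h0 : MemLp (fun _ : X => (0 : ℝ)) 2 m := MemLp.zero
  have hsq : Tendsto (fun n => ∫ x, gs n x ^ 2 ∂m) atTop (𝓝 0) := by
    have := gcb_L2Lim_sq (fun n => (hgs n).1) h0 hlim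
    simpa using this
  rw [Metric.tendsto_nhds]
  intro ε hε
  set S : ℝ := Real.sqrt (B + 1) with hSdef
  have hS0 : 0 ≤ S := Real.sqrt_nonneg _
  set ε' : ℝ := ε / (3 * (S + 1)) with hε'def
  have hε' : 0 < ε' := by positivity
  obtain ⟨w, hw, hwb⟩ := gcb_approx_riesz hS hadd hsmul hbd hε'
  have t1 : Tendsto (fun n => form m w (gs n)) atTop (𝓝 0) := gcb_form_tendsto_zero hS hgs hlim hB hw
  have t2 : Tendsto (fun n => ∫ x, gs n x * w x ∂m) atTop (𝓝 0) := by
    have := gcb_L2Lim_inner (fun n => (hgs n).1) h0 hlim hw.1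
    simpa using this
  have e1 := (Metric.tendsto_nhds.1 t1) (ε / 3) (by positivity)
  have e2 := (Metric.tendsto_nhds.1 t2) (ε / 3) (by positivity)
  have e3 := (Metric.tendsto_nhds.1 hsq) 1 one_pos
  filter_upwards [e1, e2, e3] with n h1 h2 h3
  rw [Real.dist_eq, sub_zero] at h1 h2 h3 ⊢
  have h4 := hwb (gs n) (hgs n)
  have h5 : Real.sqrt (energy m (gs n) + ∫ x, gs n x ^ 2 ∂m) ≤ S := by
    apply Real.sqrt_le_sqrt
    have := hB n
    have := (abs_lt.1 h3).2
    linarith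
  have h6 : ε' * Real.sqrt (energy m (gs n) + ∫ x, gs n x ^ 2 ∂m) < ε / 3 := by
    calc ε' * Real.sqrt (energy m (gs n) + ∫ x, gs n x ^ 2 ∂m) ≤ ε' * S :=
          mul_le_mul_of_nonneg_left h5 hε'.le
      _ < ε' * (S + 1) := by nlinarith
      _ = ε / 3 := by rw [hε'def]; field_simp
  have h7 : (∫ x, w x * gs n x ∂m) = ∫ x, gs n x * w x ∂m := by
    congr 1; funext x; ring
  rw [h7] at h4
  have a1 := abs_lt.1 h1
  have a2 := abs_lt.1 h2
  have a4 := abs_le.1 h4
  rw [abs_lt]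
  constructor <;> linarith [a1.1, a1.2, a2.1, a2.2, a4.1, a4.2]

/-- WEAK CONTINUITY: `gcb_weak_cont_lin` with `ℓ u = ∫ h Γ(u,v)` and `gₙ = fₙ - f` (`gcb_int_gamma_abs_le_memLp`,
`gcb_gamma_mul_integrable_of_memLp`). -/
theorem gcb_weak_cont (hS : Std m K N) {fs : ℕ → X → ℝ} (hfs : ∀ n, Sobolev m (fs n)) (hf :
    AEStronglyMeasurable f m) (hlim : gcb_L2Lim m fs f) {B : ℝ} (hB : ∀ n, energy m (fs n) ≤ B) (hv : LocalSobolev
    m v) (hh : AEStronglyMeasurable h m) (hhv : MemLp (fun x => h x * weakGradient m v x) 2 m) :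
    Tendsto (fun n => ∫ x, h x * gamma m (fs n) v x ∂m) atTop (𝓝 (∫ x, h x * gamma m f v x ∂m)) := by
  have hfS : Sobolev m f := (gcb_sob_closure hS hfs hf hlim hB).1
  have hfB : energy m f ≤ B := (gcb_sob_closure hS hfs hf hlim hB).2
  have hint : ∀ u, Sobolev m u → Integrable (fun x => h x * gamma m u v x) m := fun u hu =>
    gcb_gamma_mul_integrable_of_memLp hS hu hv hh hhv
  have hadd : ∀ u u', Sobolev m u → Sobolev m u' →
      (∫ x, h x * gamma m (fun x => u x + u' x) v x ∂m)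
        = (∫ x, h x * gamma m u v x ∂m) + ∫ x, h x * gamma m u' v x ∂m := by
    intro u u' hu hu'
    rw [← integral_add (hint u hu) (hint u' hu')]
    apply integral_congr_ae
    filter_upwards [gcb_gamma_add_left hS hu.2.1 hu'.2.1 hv] with x hx
    rw [hx]; ring
  have hsmul : ∀ (c : ℝ) u, Sobolev m u →
      (∫ x, h x * gamma m (fun x => c * u x) v x ∂m) = c * ∫ x, h x * gamma m u v x ∂m := by
    intro c u hu
    rw [← integral_const_mul]
    apply integral_congr_ae
    filter_upwards [gcb_gamma_const_mul_left hS c hu.2.1 hv] with x hx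
    rw [hx]; ring
  have hbd : ∀ u, Sobolev m u → |∫ x, h x * gamma m u v x ∂m|
      ≤ Real.sqrt (∫ x, (h x * weakGradient m v x) ^ 2 ∂m) * Real.sqrt (energy m u + ∫ x, u x ^ 2 ∂m) := by
    intro u hu
    have h1 := gcb_int_gamma_abs_le_memLp hS hu hv hh hhv
    have h2 : Real.sqrt (energy m u) ≤ Real.sqrt (energy m u + ∫ x, u x ^ 2 ∂m) := by
      apply Real.sqrt_le_sqrt
      have : 0 ≤ ∫ x, u x ^ 2 ∂m := integral_nonneg fun x => sq_nonneg _
      linarith
    calc |∫ x, h x * gamma m u v x ∂m|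
        ≤ Real.sqrt (energy m u) * Real.sqrt (∫ x, (h x * weakGradient m v x) ^ 2 ∂m) := h1
      _ ≤ Real.sqrt (energy m u + ∫ x, u x ^ 2 ∂m) * Real.sqrt (∫ x, (h x * weakGradient m v x) ^ 2 ∂m) :=
          mul_le_mul_of_nonneg_right h2 (Real.sqrt_nonneg _)
      _ = _ := mul_comm _ _
  have hgs : ∀ n, Sobolev m (fun x => fs n x - f x) := fun n => gcb_sob_sub hS (hfs n) hfS
  have hlim0 : gcb_L2Lim m (fun n x => fs n x - f x) (fun _ => 0) := by
    unfold gcb_L2Lim at hlim ⊢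
    simpa using hlim
  have hB' : ∀ n, energy m (fun x => fs n x - f x) ≤ 4 * B := by
    intro n
    have h1 := gcb_energy_par hS (hfs n) hfS
    have h2 := gcb_energy_nonneg m (fun x => fs n x + f x)
    have h3 := hB n
    linarith
  have key := gcb_weak_cont_lin hS (ℓ := fun u => ∫ x, h x * gamma m u v x ∂m) hadd hsmul hbd hgs hlim0 hB'
  have hsub : ∀ n, (∫ x, h x * gamma m (fs n) v x ∂m)
      = (∫ x, h x * gamma m (fun x => fs n x - f x) v x ∂m) + ∫ x, h x * gamma m f v x ∂m := by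
    intro n
    rw [← hadd _ _ (hgs n) hfS]
    congr 1; funext x; congr 2; funext y; ring
  have := key.add_const (∫ x, h x * gamma m f v x ∂m)
  rw [zero_add] at this
  refine this.congr fun n => ?_
  exact (hsub n).symm

theorem gcb_weak_cont_form (hS : Std m K N) {fs : ℕ → X → ℝ} (hfs : ∀ n, Sobolev m (fs n)) (hf :
    AEStronglyMeasurable f m) (hlim : gcb_L2Lim m fs f) {B : ℝ} (hB : ∀ n, energy m (fs n) ≤ B) (hv : Sobolev m v)
    :
    Tendsto (fun n => form m (fs n) v) atTop (𝓝 (form m f v)) := by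
  have hhv : MemLp (fun x => (fun _ : X => (1 : ℝ)) x * weakGradient m v x) 2 m := by
    simpa using hv.2.2
  have := gcb_weak_cont hS hfs hf hlim hB hv.2.1 (h := fun _ => (1 : ℝ)) aestronglyMeasurable_const hhv
  simpa [form] using this

theorem gcb_weak_cont_bdd (hS : Std m K N) {fs : ℕ → X → ℝ} (hfs : ∀ n, Sobolev m (fs n)) (hf :
    AEStronglyMeasurable f m) (hlim : gcb_L2Lim m fs f) {B : ℝ} (hB : ∀ n, energy m (fs n) ≤ B) (hv : Sobolev m v)
    (hh : AEStronglyMeasurable h m) {B' : ℝ} (hb : AEBdd m h B') :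
    Tendsto (fun n => ∫ x, h x * gamma m (fs n) v x ∂m) atTop (𝓝 (∫ x, h x * gamma m f v x ∂m)) := by
  have hhv : MemLp (fun x => h x * weakGradient m v x) 2 m := by
    refine hv.2.2.of_le_mul (c := B') (hh.mul (gcb_wg_aesm m v)) ?_
    filter_upwards [hb] with x hx
    rw [norm_mul, Real.norm_eq_abs (h x)]
    exact mul_le_mul_of_nonneg_right hx (norm_nonneg _)
  exact gcb_weak_cont hS hfs hf hlim hB hv.2.1 hh hhv

theorem gcb_weak_cont_loc (hS : Std m K N) {fs : ℕ → X → ℝ} (hfs : ∀ n, Sobolev m (fs n)) (hf :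
    AEStronglyMeasurable f m) (hlim : gcb_L2Lim m fs f) {B : ℝ} (hB : ∀ n, energy m (fs n) ≤ B) (hv : LocalSobolev
    m v) (hh : AEStronglyMeasurable h m) (hb : gcb_LocBdd m h) (hs : gcb_BddSupp m h) :
    Tendsto (fun n => ∫ x, h x * gamma m (fs n) v x ∂m) atTop (𝓝 (∫ x, h x * gamma m f v x ∂m)) := by
  have hhv : MemLp (fun x => h x * weakGradient m v x) 2 m :=
    gcb_memLp_of_locL2_bddSupp (gcb_locL2_mul_locBdd (gcb_wg_locL2 m v) hh hb)
      (gcb_bddSupp_mul_left hs _)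
  exact gcb_weak_cont hS hfs hf hlim hB hv hh hhv

/-- `h |Df|²` is integrable for bounded `h`. -/
theorem gcb_wt_sq_integrable (hS : Std m K N) (hf : Sobolev m f) (hh : AEStronglyMeasurable h m) {B' : ℝ}
    (hb : AEBdd m h B') : Integrable (fun x => h x * weakGradient m f x ^ 2) m := by
  refine (gcb_gamma_mul_integrable hS hf hf hh hb).congr ?_
  filter_upwards [gcb_gamma_self hS hf.2.1] with x hx
  rw [hx]

/-- `h |Dfₙ|² ≥ 2 h Γ(fₙ,f) - h |Df|²` and `gcb_weak_cont_bdd`. -/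
theorem gcb_lsc_weighted (hS : Std m K N) {fs : ℕ → X → ℝ} (hfs : ∀ n, Sobolev m (fs n)) (hf :
    AEStronglyMeasurable f m) (hlim : gcb_L2Lim m fs f) {B : ℝ} (hB : ∀ n, energy m (fs n) ≤ B) (hh :
    AEStronglyMeasurable h m) {B' : ℝ} (hb : AEBdd m h B') (h0 : ∀ᵐ x ∂m, 0 ≤ h x) :
    ∫ x, h x * weakGradient m f x ^ 2 ∂m ≤ Filter.liminf (fun n => ∫ x, h x * weakGradient m (fs n) x ^ 2 ∂m)
    atTop := by
  have hfS : Sobolev m f := (gcb_sob_closure hS hfs hf hlim hB).1
  have hI : Integrable (fun x => h x * weakGradient m f x ^ 2) m := gcb_wt_sq_integrable hS hfS hh hb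
  have hIn : ∀ n, Integrable (fun x => h x * weakGradient m (fs n) x ^ 2) m := fun n =>
    gcb_wt_sq_integrable hS (hfs n) hh hb
  have hG : ∀ n, Integrable (fun x => h x * gamma m (fs n) f x) m := fun n =>
    gcb_gamma_mul_integrable hS (hfs n) hfS hh hb
  have hw := gcb_weak_cont_bdd hS hfs hf hlim hB hfS hh hb
  have hself : ∫ x, h x * gamma m f f x ∂m = ∫ x, h x * weakGradient m f x ^ 2 ∂m := by
    refine integral_congr_ae ?_
    filter_upwards [gcb_gamma_self hS hfS.2.1] with x hx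
    rw [hx]
  rw [hself] at hw
  have hv : Tendsto (fun n => 2 * (∫ x, h x * gamma m (fs n) f x ∂m) - ∫ x, h x * weakGradient m f x ^ 2 ∂m)
      atTop (𝓝 (∫ x, h x * weakGradient m f x ^ 2 ∂m)) := by
    have h1 := (hw.const_mul 2).sub_const (∫ x, h x * weakGradient m f x ^ 2 ∂m)
    have e : 2 * (∫ x, h x * weakGradient m f x ^ 2 ∂m) - ∫ x, h x * weakGradient m f x ^ 2 ∂m
        = ∫ x, h x * weakGradient m f x ^ 2 ∂m := by ring
    rwa [e] at h1
  have hle : ∀ n, 2 * (∫ x, h x * gamma m (fs n) f x ∂m) - ∫ x, h x * weakGradient m f x ^ 2 ∂m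
      ≤ ∫ x, h x * weakGradient m (fs n) x ^ 2 ∂m := by
    intro n
    rw [← integral_const_mul, ← integral_sub ((hG n).const_mul 2) hI]
    refine integral_mono_ae (((hG n).const_mul 2).sub hI) (hIn n) ?_
    filter_upwards [gcb_wg_sq_sub hS (hfs n).2.1 hfS.2.1, h0] with x hx hx0
    have h2 : 0 ≤ h x * weakGradient m (fun y => fs n y - f y) x ^ 2 := mul_nonneg hx0 (sq_nonneg _)
    rw [hx] at h2
    show 2 * (h x * gamma m (fs n) f x) - h x * weakGradient m f x ^ 2 ≤ h x * weakGradient m (fs n) x ^ 2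
    nlinarith
  have hub : ∀ n, ∫ x, h x * weakGradient m (fs n) x ^ 2 ∂m ≤ |B'| * B := by
    intro n
    have h1 : ∫ x, h x * weakGradient m (fs n) x ^ 2 ∂m ≤ ∫ x, |B'| * weakGradient m (fs n) x ^ 2 ∂m := by
      refine integral_mono_ae (hIn n) ((gcb_wg_sq_integrable (hfs n)).const_mul _) ?_
      filter_upwards [hb] with x hx
      exact mul_le_mul_of_nonneg_right (((le_abs_self _).trans hx).trans (le_abs_self _)) (sq_nonneg _)
    rw [integral_const_mul] at h1
    exact h1.trans (mul_le_mul_of_nonneg_left (hB n) (abs_nonneg _))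
  rw [← hv.liminf_eq]
  refine Filter.liminf_le_liminf (Eventually.of_forall hle) hv.isBoundedUnder_ge ?_
  exact (Filter.isBoundedUnder_of ⟨|B'| * B, hub⟩).isCoboundedUnder_ge

/-- RADON-RIESZ: `energy (fₙ - f) = energy fₙ - 2 E(fₙ,f) + energy f`, `gcb_weak_cont_form` (the energies are
bounded: finitely many exceptions). -/
theorem gcb_strong_of_weak (hS : Std m K N) {fs : ℕ → X → ℝ} (hfs : ∀ n, Sobolev m (fs n)) (hf : Sobolev m f)
    (hlim : gcb_L2Lim m fs f) (hle : ∀ ε > 0, ∀ᶠ n in atTop, energy m (fs n) ≤ energy m f + ε) :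
    gcb_W12Lim m fs f := by
  refine ⟨hlim, ?_⟩
  obtain ⟨N₀, hN₀⟩ := eventually_atTop.1 (hle 1 one_pos)
  have hlim' : gcb_L2Lim m (fun n => fs (n + N₀)) f := by
    unfold gcb_L2Lim at hlim ⊢
    exact hlim.comp (tendsto_add_atTop_nat N₀)
  have hw' := gcb_weak_cont_form hS (fs := fun n => fs (n + N₀)) (fun n => hfs (n + N₀)) hf.1.aestronglyMeasurable
    hlim' (B := energy m f + 1) (fun n => hN₀ (n + N₀) (Nat.le_add_left _ _)) hf
  have hw : Tendsto (fun n => form m (fs n) f) atTop (𝓝 (energy m f)) := by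
    rw [gcb_form_self hS hf.2.1] at hw'
    exact (tendsto_add_atTop_iff_nat N₀).1 hw'
  rw [Metric.tendsto_atTop]
  intro ε hε
  have h1 : ∀ᶠ n in atTop, dist (form m (fs n) f) (energy m f) < ε / 4 :=
    (Metric.tendsto_nhds.1 hw) (ε / 4) (by positivity)
  obtain ⟨N₁, hN₁⟩ := eventually_atTop.1 (h1.and (hle (ε / 4) (by positivity)))
  refine ⟨N₁, fun n hn => ?_⟩
  obtain ⟨h2, h3⟩ := hN₁ n hn
  rw [Real.dist_eq, abs_lt] at h2
  rw [Real.dist_eq, sub_zero, abs_of_nonneg (gcb_energy_nonneg m _), gcb_energy_sub hS (hfs n) hf]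
  linarith [h2.1]

theorem gcb_W12Lim_add (hS : Std m K N) {fs gs : ℕ → X → ℝ} (hfs : ∀ n, Sobolev m (fs n)) (hf : Sobolev m f)
    (hgs : ∀ n, Sobolev m (gs n)) (hg : Sobolev m g) (h1 : gcb_W12Lim m fs f) (h2 : gcb_W12Lim m gs g) :
    gcb_W12Lim m (fun n x => fs n x + gs n x) (fun x => f x + g x) := by
  have hsf : ∀ n, Sobolev m (fun x => fs n x - f x) := fun n => gcb_sob_sub hS (hfs n) hf
  have hsg : ∀ n, Sobolev m (fun x => gs n x - g x) := fun n => gcb_sob_sub hS (hgs n) hg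
  have e : ∀ n, (fun x => fs n x + gs n x - (f x + g x)) = fun x => (fs n x - f x) + (gs n x - g x) := by
    intro n; funext x; ring
  refine ⟨?_, ?_⟩
  · unfold gcb_L2Lim
    have h3 : Tendsto (fun n => eLpNorm (fun x => fs n x - f x) 2 m + eLpNorm (fun x => gs n x - g x) 2 m)
        atTop (𝓝 0) := by
      simpa using h1.1.add h2.1
    refine tendsto_of_tendsto_of_tendsto_of_le_of_le tendsto_const_nhds h3 (fun _ => bot_le) ?_
    intro n
    show eLpNorm (fun x => fs n x + gs n x - (f x + g x)) 2 m ≤ _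
    rw [e n]
    exact eLpNorm_add_le (hsf n).1.aestronglyMeasurable (hsg n).1.aestronglyMeasurable (by norm_num)
  · have h3 : Tendsto (fun n => 2 * energy m (fun x => fs n x - f x) + 2 * energy m (fun x => gs n x - g x))
        atTop (𝓝 0) := by
      simpa using (h1.2.const_mul 2).add (h2.2.const_mul 2)
    refine tendsto_of_tendsto_of_tendsto_of_le_of_le tendsto_const_nhds h3
      (fun _ => gcb_energy_nonneg m _) ?_
    intro n
    show energy m (fun x => fs n x + gs n x - (f x + g x)) ≤ _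
    rw [e n]
    exact gcb_energy_add_le hS (hsf n) (hsg n)

theorem gcb_W12Lim_const_mul (hS : Std m K N) (c : ℝ) {fs : ℕ → X → ℝ} (hfs : ∀ n, Sobolev m (fs n)) (hf :
    Sobolev m f) (h1 : gcb_W12Lim m fs f) :
    gcb_W12Lim m (fun n x => c * fs n x) (fun x => c * f x) := by
  have hsf : ∀ n, Sobolev m (fun x => fs n x - f x) := fun n => gcb_sob_sub hS (hfs n) hf
  have e : ∀ n, (fun x => c * fs n x - c * f x) = fun x => c * (fs n x - f x) := by
    intro n; funext x; ring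
  refine ⟨?_, ?_⟩
  · unfold gcb_L2Lim
    have h3 : Tendsto (fun n => ‖c‖ₑ * eLpNorm (fun x => fs n x - f x) 2 m) atTop (𝓝 0) := by
      have := ENNReal.Tendsto.const_mul (a := ‖c‖ₑ) h1.1 (Or.inr enorm_ne_top)
      simpa using this
    refine h3.congr fun n => ?_
    rw [e n]
    exact (eLpNorm_const_smul c (fun x => fs n x - f x) 2 m).symm
  · have h3 : Tendsto (fun n => c ^ 2 * energy m (fun x => fs n x - f x)) atTop (𝓝 0) := by
      simpa using h1.2.const_mul (c ^ 2)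
    refine h3.congr fun n => ?_
    rw [e n]
    exact (gcb_energy_const_mul hS c (hsf n).2.1).symm

/-- `gcb_energy_mul_lipB_le` applied to `fₙ - f`. -/
theorem gcb_W12Lim_mul_lipB (hS : Std m K N) (hg : LipB g) {fs : ℕ → X → ℝ} (hfs : ∀ n, Sobolev m (fs n)) (hf
    : Sobolev m f) (h1 : gcb_W12Lim m fs f) :
    gcb_W12Lim m (fun n x => g x * fs n x) (fun x => g x * f x) := by
  obtain ⟨⟨L, hL⟩, ⟨B, hB⟩⟩ := hg
  have hsf : ∀ n, Sobolev m (fun x => fs n x - f x) := fun n => gcb_sob_sub hS (hfs n) hf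
  have e : ∀ n, (fun x => g x * fs n x - g x * f x) = fun x => g x * (fs n x - f x) := by
    intro n; funext x; ring
  refine ⟨?_, ?_⟩
  · unfold gcb_L2Lim
    have h3 : Tendsto (fun n => ENNReal.ofReal B * eLpNorm (fun x => fs n x - f x) 2 m) atTop (𝓝 0) := by
      have := ENNReal.Tendsto.const_mul (a := ENNReal.ofReal B) h1.1 (Or.inr ENNReal.ofReal_ne_top)
      simpa using this
    refine tendsto_of_tendsto_of_tendsto_of_le_of_le tendsto_const_nhds h3 (fun _ => bot_le) ?_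
    intro n
    show eLpNorm (fun x => g x * fs n x - g x * f x) 2 m ≤ _
    rw [e n]
    refine eLpNorm_le_mul_eLpNorm_of_ae_le_mul (Eventually.of_forall fun x => ?_) 2
    rw [norm_mul, Real.norm_eq_abs]
    exact mul_le_mul_of_nonneg_right (hB x) (norm_nonneg _)
  · have h2 : Tendsto (fun n => ∫ x, (fs n x - f x) ^ 2 ∂m) atTop (𝓝 0) :=
      (gcb_L2Lim_iff (fun n => (hfs n).1) hf.1).1 h1.1
    have h3 : Tendsto (fun n => 2 * B ^ 2 * energy m (fun x => fs n x - f x)
        + 2 * (L : ℝ) ^ 2 * ∫ x, (fs n x - f x) ^ 2 ∂m) atTop (𝓝 0) := by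
      simpa using (h1.2.const_mul (2 * B ^ 2)).add (h2.const_mul (2 * (L : ℝ) ^ 2))
    refine tendsto_of_tendsto_of_tendsto_of_le_of_le tendsto_const_nhds h3
      (fun _ => gcb_energy_nonneg m _) ?_
    intro n
    show energy m (fun x => g x * fs n x - g x * f x) ≤ _
    rw [e n]
    exact gcb_energy_mul_lipB_le hS hL hB (hsf n)

/-- `|√energy fₙ - √energy f| ≤ √energy (fₙ - f)`. -/
theorem gcb_energy_tendsto (hS : Std m K N) {fs : ℕ → X → ℝ} (hfs : ∀ n, Sobolev m (fs n)) (hf : Sobolev m f)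
    (h1 : gcb_W12Lim m fs f) :
    Tendsto (fun n => energy m (fs n)) atTop (𝓝 (energy m f)) := by
  have hsf : ∀ n, Sobolev m (fun x => fs n x - f x) := fun n => gcb_sob_sub hS (hfs n) hf
  have e : ∀ n, energy m (fs n) = energy m (fun x => fs n x - f x)
      + 2 * form m (fun x => fs n x - f x) f + energy m f := by
    intro n
    have h2 := gcb_energy_add hS (hsf n) hf
    have e2 : (fun x => fs n x - f x + f x) = fs n := by funext x; ring
    rw [e2] at h2
    exact h2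
  have hsq : Tendsto (fun n => Real.sqrt (energy m (fun x => fs n x - f x)) * Real.sqrt (energy m f))
      atTop (𝓝 0) := by
    have h3 : Tendsto (fun n => Real.sqrt (energy m (fun x => fs n x - f x))) atTop (𝓝 0) := by
      have h5 := (Real.continuous_sqrt.tendsto 0).comp h1.2
      rw [Real.sqrt_zero] at h5
      exact h5
    simpa using h3.mul_const (Real.sqrt (energy m f))
  have hform : Tendsto (fun n => form m (fun x => fs n x - f x) f) atTop (𝓝 0) :=
    squeeze_zero_norm (fun n => by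
      rw [Real.norm_eq_abs]
      exact gcb_form_abs_le hS (hsf n) hf) hsq
  have h4 : Tendsto (fun n => energy m (fun x => fs n x - f x)
      + 2 * form m (fun x => fs n x - f x) f + energy m f) atTop (𝓝 (0 + 2 * 0 + energy m f)) :=
    (h1.2.add (hform.const_mul 2)).add tendsto_const_nhds
  simp only [mul_zero, add_zero, zero_add] at h4
  exact h4.congr fun n => (e n).symm

/-- Cauchy-Schwarz for the product of two gradients. -/
theorem gcb_int_wg_mul_le_sqrt (hf : Sobolev m f) (hg : Sobolev m g) :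
    ∫ x, weakGradient m f x * weakGradient m g x ∂m ≤
      Real.sqrt (energy m f) * Real.sqrt (energy m g) := by
  have h := integral_mul_le_Lp_mul_Lq_of_nonneg (μ := m) Real.HolderConjugate.two_two
    (gcb_wg_nonneg m f) (gcb_wg_nonneg m g)
    (by simpa using gcb_sob_wg_memLp hf) (by simpa using gcb_sob_wg_memLp hg)
  simp only [Real.rpow_two, ← Real.sqrt_eq_rpow] at h
  exact h

/-- `Γ(fₙ,gₙ) - Γ(f,g) = Γ(fₙ - f, gₙ) + Γ(f, gₙ - g)`; Cauchy-Schwarz; energies bounded. -/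
theorem gcb_gamma_tendsto_L1 (hS : Std m K N) {fs gs : ℕ → X → ℝ} (hfs : ∀ n, Sobolev m (fs n)) (hf : Sobolev
    m f) (hgs : ∀ n, Sobolev m (gs n)) (hg : Sobolev m g) (h1 : gcb_W12Lim m fs f) (h2 : gcb_W12Lim m gs g) :
    Tendsto (fun n => ∫ x, |gamma m (fs n) (gs n) x - gamma m f g x| ∂m) atTop (𝓝 0) := by
  have hE : Tendsto (fun n => energy m (gs n)) atTop (𝓝 (energy m g)) :=
    gcb_energy_tendsto hS hgs hg h2
  have hB : Tendsto (fun n => Real.sqrt (energy m (fun x => fs n x - f x)) * Real.sqrt (energy m (gs n))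
      + Real.sqrt (energy m f) * Real.sqrt (energy m (fun x => gs n x - g x))) atTop (𝓝 0) := by
    have a1 := (Real.continuous_sqrt.tendsto _).comp h1.2
    have a2 := (Real.continuous_sqrt.tendsto _).comp hE
    have a3 := (Real.continuous_sqrt.tendsto _).comp h2.2
    have a4 := (a1.mul a2).add (a3.const_mul (Real.sqrt (energy m f)))
    simpa using a4
  refine squeeze_zero (fun n => integral_nonneg (fun x => abs_nonneg _)) (fun n => ?_) hB
  have hfn := gcb_sob_sub hS (hfs n) hf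
  have hgn := gcb_sob_sub hS (hgs n) hg
  have e1 := gcb_gamma_sub_abs_le_left hS (gcb_sob_locSob (hfs n)) (gcb_sob_locSob hf)
    (gcb_sob_locSob (hgs n))
  have e2 := gcb_gamma_sub_abs_le_left hS (gcb_sob_locSob (hgs n)) (gcb_sob_locSob hg)
    (gcb_sob_locSob hf)
  have hle : ∀ᵐ x ∂m, |gamma m (fs n) (gs n) x - gamma m f g x| ≤
      weakGradient m (fun y => fs n y - f y) x * weakGradient m (gs n) x
        + weakGradient m f x * weakGradient m (fun y => gs n y - g y) x := by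
    filter_upwards [e1, e2] with x k1 k2
    rw [gcb_gamma_comm m (gs n) f, gcb_gamma_comm m g f] at k2
    calc |gamma m (fs n) (gs n) x - gamma m f g x|
        = |(gamma m (fs n) (gs n) x - gamma m f (gs n) x)
            + (gamma m f (gs n) x - gamma m f g x)| := by ring_nf
      _ ≤ |gamma m (fs n) (gs n) x - gamma m f (gs n) x|
            + |gamma m f (gs n) x - gamma m f g x| := abs_add_le _ _
      _ ≤ _ := by linarith
  have i1 := gcb_wg_mul_integrable hfn (hgs n)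
  have i2 := gcb_wg_mul_integrable hf hgn
  calc ∫ x, |gamma m (fs n) (gs n) x - gamma m f g x| ∂m
      ≤ ∫ x, (weakGradient m (fun y => fs n y - f y) x * weakGradient m (gs n) x
        + weakGradient m f x * weakGradient m (fun y => gs n y - g y) x) ∂m :=
        integral_mono_of_nonneg (ae_of_all _ fun x => abs_nonneg _) (i1.add i2) hle
    _ = (∫ x, weakGradient m (fun y => fs n y - f y) x * weakGradient m (gs n) x ∂m)
        + ∫ x, weakGradient m f x * weakGradient m (fun y => gs n y - g y) x ∂m :=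
        integral_add i1 i2
    _ ≤ _ := add_le_add (gcb_int_wg_mul_le_sqrt hfn (hgs n)) (gcb_int_wg_mul_le_sqrt hf hgn)

theorem gcb_int_gamma_tendsto (hS : Std m K N) {fs gs : ℕ → X → ℝ} (hfs : ∀ n, Sobolev m (fs n)) (hf : Sobolev
    m f) (hgs : ∀ n, Sobolev m (gs n)) (hg : Sobolev m g) (h1 : gcb_W12Lim m fs f) (h2 : gcb_W12Lim m gs g) (hh :
    AEStronglyMeasurable h m) {B : ℝ} (hb : AEBdd m h B) :
    Tendsto (fun n => ∫ x, h x * gamma m (fs n) (gs n) x ∂m) atTop (𝓝 (∫ x, h x * gamma m f g x ∂m)) := by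
  rw [tendsto_iff_dist_tendsto_zero]
  have hL := (gcb_gamma_tendsto_L1 hS hfs hf hgs hg h1 h2).const_mul |B|
  rw [mul_zero] at hL
  refine squeeze_zero (fun n => dist_nonneg) (fun n => ?_) hL
  rw [Real.dist_eq, ← integral_sub (gcb_gamma_mul_integrable hS (hfs n) (hgs n) hh hb)
    (gcb_gamma_mul_integrable hS hf hg hh hb), ← integral_const_mul]
  refine abs_integral_le_integral_abs.trans ?_
  refine integral_mono_of_nonneg (ae_of_all _ fun x => abs_nonneg _)
    (((gcb_gamma_integrable hS (hfs n) (hgs n)).sub (gcb_gamma_integrable hS hf hg)).abs.const_mul _) ?_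
  filter_upwards [hb] with x hx
  rw [← mul_sub, abs_mul]
  exact mul_le_mul_of_nonneg_right (hx.trans (le_abs_self B)) (abs_nonneg _)

theorem gcb_form_tendsto (hS : Std m K N) {fs gs : ℕ → X → ℝ} (hfs : ∀ n, Sobolev m (fs n)) (hf : Sobolev m f)
    (hgs : ∀ n, Sobolev m (gs n)) (hg : Sobolev m g) (h1 : gcb_W12Lim m fs f) (h2 : gcb_W12Lim m gs g) :
    Tendsto (fun n => form m (fs n) (gs n)) atTop (𝓝 (form m f g)) := by
  have hb : AEBdd m (fun _ : X => (1 : ℝ)) 1 := ae_of_all _ fun _ => by simp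
  have h3 := gcb_int_gamma_tendsto hS hfs hf hgs hg h1 h2
    (h := fun _ : X => (1 : ℝ)) aestronglyMeasurable_const hb
  simpa only [one_mul, form] using h3

/-- dominated convergence: `|f - fₙ| ≤ |f| 1_{|f| > n}`, `|D(f - fₙ)| = |Df| 1_{|f| ≥ n}` a.e. (locality). -/
theorem gcb_trunc_W12Lim (hS : Std m K N) (hf : Sobolev m f) :
    gcb_W12Lim m (fun (n : ℕ) x => max (min (f x) n) (-n)) f := by
  have hfs : ∀ n : ℕ, Sobolev m (fun x => max (min (f x) (n : ℝ)) (-(n : ℝ))) :=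
    fun n => gcb_sob_clamp hS hf (Nat.cast_nonneg n)
  refine gcb_strong_of_weak hS hfs hf ?_ ?_
  · refine gcb_eLpNorm_tendsto_of_dominated (G := f)
      (fun n => ((gcb_sob_memLp (hfs n)).sub (gcb_sob_memLp hf)).1) (gcb_sob_memLp hf) ?_ ?_
    · intro n
      refine Eventually.of_forall fun x => ?_
      have hn : (0 : ℝ) ≤ (n : ℝ) := Nat.cast_nonneg n
      show |max (min (f x) (n : ℝ)) (-(n : ℝ)) - f x| ≤ |f x|
      rcases le_total (f x) (n : ℝ) with h1 | h1
      · rw [min_eq_left h1]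
        rcases le_total (-(n : ℝ)) (f x) with h2 | h2
        · rw [max_eq_left h2, sub_self, abs_zero]
          exact abs_nonneg _
        · rw [max_eq_right h2, abs_of_nonneg (by linarith), abs_of_nonpos (by linarith)]
          linarith
      · rw [min_eq_right h1, max_eq_left (by linarith), abs_of_nonpos (by linarith),
          abs_of_nonneg (by linarith)]
        linarith
    · refine Eventually.of_forall fun x => ?_
      refine tendsto_const_nhds.congr' ?_
      obtain ⟨n₀, hn₀⟩ := exists_nat_ge |f x|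
      filter_upwards [eventually_ge_atTop n₀] with n hn
      have hn' : |f x| ≤ (n : ℝ) := hn₀.trans (by exact_mod_cast hn)
      have h1 := abs_le.1 hn'
      rw [min_eq_left h1.2, max_eq_left h1.1, sub_self]
  · intro ε hε
    refine Eventually.of_forall fun n => ?_
    have hle : energy m (fun x => max (min (f x) (n : ℝ)) (-(n : ℝ))) ≤ energy m f := by
      unfold energy
      refine integral_mono_ae (gcb_wg_sq_integrable (hfs n)) (gcb_wg_sq_integrable hf) ?_
      filter_upwards [gcb_wg_clamp_le hS (gcb_sob_locSob hf) (n : ℝ),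
        gcb_wg_nonneg m (fun x => max (min (f x) (n : ℝ)) (-(n : ℝ)))] with x h1 h2
      exact pow_le_pow_left₀ h2 h1 2
    linarith

/-- `|D((1-χₙ) f)| ≤ (1-χₙ)|Df| + |f|/(n+1)`; dominated convergence. -/
theorem gcb_cutoff_W12Lim (hS : Std m K N) (hf : Sobolev m f) (o : X) {χ : ℕ → X → ℝ} (hL : ∀ n : ℕ,
    LipschitzWith (1 / ((n : ℝ≥0) + 1)) (χ n)) (h01 : ∀ n x, 0 ≤ χ n x ∧ χ n x ≤ 1) (h1 : ∀ n : ℕ, ∀ x ∈
    Metric.closedBall o n, χ n x = 1) :
    gcb_W12Lim m (fun n x => χ n x * f x) f := by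
  have hLB : ∀ n, LipB (χ n) := fun n =>
    ⟨⟨_, hL n⟩, ⟨1, fun x => by rw [abs_of_nonneg (h01 n x).1]; exact (h01 n x).2⟩⟩
  have hfs : ∀ n : ℕ, Sobolev m (fun x => χ n x * f x) := fun n => gcb_sob_mul_lipB hS (hLB n) hf
  have hf2 : Integrable (fun x => f x ^ 2) m := (gcb_sob_memLp hf).integrable_sq
  have hD2 : Integrable (fun x => weakGradient m f x ^ 2) m := gcb_wg_sq_integrable hf
  refine gcb_strong_of_weak hS hfs hf ?_ ?_
  · refine gcb_eLpNorm_tendsto_of_dominated (G := f)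
      (fun n => ((gcb_sob_memLp (hfs n)).sub (gcb_sob_memLp hf)).1) (gcb_sob_memLp hf) ?_ ?_
    · intro n
      refine Eventually.of_forall fun x => ?_
      have e : χ n x * f x - f x = -((1 - χ n x) * f x) := by ring
      rw [e, abs_neg, abs_mul, abs_of_nonneg (by linarith [(h01 n x).2] : (0 : ℝ) ≤ 1 - χ n x)]
      exact mul_le_of_le_one_left (abs_nonneg _) (by linarith [(h01 n x).1])
    · refine Eventually.of_forall fun x => ?_
      refine tendsto_const_nhds.congr' ?_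
      obtain ⟨n₀, hn₀⟩ := exists_nat_ge (dist x o)
      filter_upwards [eventually_ge_atTop n₀] with n hn
      have hn' : dist x o ≤ (n : ℝ) := hn₀.trans (by exact_mod_cast hn)
      rw [h1 n x (Metric.mem_closedBall.2 hn'), one_mul, sub_self]
  · intro ε hε
    set C : ℝ := energy m f + 2 * ∫ x, f x ^ 2 ∂m with hC
    have hC0 : 0 ≤ C := by
      have h1 := gcb_energy_nonneg m f
      have h2 : 0 ≤ ∫ x, f x ^ 2 ∂m := integral_nonneg fun x => sq_nonneg _
      linarith
    have hbound : ∀ n : ℕ, energy m (fun x => χ n x * f x) ≤ energy m f + C / ((n : ℝ) + 1) := by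
      intro n
      have hn : (0 : ℝ) < (n : ℝ) + 1 := by positivity
      have hint : Integrable (fun x => weakGradient m f x ^ 2 +
          (weakGradient m f x ^ 2 + 2 * f x ^ 2) / ((n : ℝ) + 1)) m :=
        hD2.add ((hD2.add (hf2.const_mul 2)).div_const _)
      have h2 : energy m (fun x => χ n x * f x) ≤ ∫ x, (weakGradient m f x ^ 2 +
          (weakGradient m f x ^ 2 + 2 * f x ^ 2) / ((n : ℝ) + 1)) ∂m := by
        unfold energy
        refine integral_mono_ae (gcb_wg_sq_integrable (hfs n)) hint ?_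
        filter_upwards [gcb_wg_mul_locLip_le hS (gcb_locLip_of_lip (hLB n).1) (gcb_sob_locSob hf),
          gcb_wg_le_lip hS (hL n), gcb_wg_nonneg m (fun x => χ n x * f x), gcb_wg_nonneg m f,
          gcb_wg_nonneg m (χ n)] with x a1 a2 a3 a4 a5
        have a2' : weakGradient m (χ n) x ≤ 1 / ((n : ℝ) + 1) := by
          simpa using a2
        set δ : ℝ := 1 / ((n : ℝ) + 1) with hδ
        have hδ0 : 0 < δ := by positivity
        have hδ1 : δ ≤ 1 := by
          rw [hδ, div_le_one hn]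
          have : (0 : ℝ) ≤ (n : ℝ) := Nat.cast_nonneg n
          linarith
        have b1 : weakGradient m (fun y => χ n y * f y) x ≤ weakGradient m f x + |f x| * δ := by
          refine a1.trans (add_le_add ?_ (mul_le_mul_of_nonneg_left a2' (abs_nonneg _)))
          rw [abs_of_nonneg (h01 n x).1]
          exact mul_le_of_le_one_left a4 (h01 n x).2
        have b2 : weakGradient m (fun y => χ n y * f y) x ^ 2 ≤ (weakGradient m f x + |f x| * δ) ^ 2 :=
          pow_le_pow_left₀ a3 b1 2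
        have e : (weakGradient m f x ^ 2 + 2 * f x ^ 2) / ((n : ℝ) + 1) =
            (weakGradient m f x ^ 2 + 2 * |f x| ^ 2) * δ := by
          rw [hδ, sq_abs]; ring
        show weakGradient m (fun y => χ n y * f y) x ^ 2 ≤ weakGradient m f x ^ 2 +
          (weakGradient m f x ^ 2 + 2 * f x ^ 2) / ((n : ℝ) + 1)
        rw [e]
        refine b2.trans ?_
        have c1 : 0 ≤ (weakGradient m f x - |f x|) ^ 2 := sq_nonneg _
        have c2 : 0 ≤ |f x| ^ 2 := sq_nonneg _
        have c3 : δ ^ 2 ≤ δ := by nlinarith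
        nlinarith [mul_nonneg hδ0.le c1, mul_nonneg c2 (sub_nonneg.2 c3)]
      refine h2.trans (le_of_eq ?_)
      have i1 : Integrable (fun x => weakGradient m f x ^ 2 + 2 * f x ^ 2) m := hD2.add (hf2.const_mul 2)
      have e1 : ∫ x, (weakGradient m f x ^ 2 +
          (weakGradient m f x ^ 2 + 2 * f x ^ 2) / ((n : ℝ) + 1)) ∂m =
          (∫ x, weakGradient m f x ^ 2 ∂m) +
            ∫ x, (weakGradient m f x ^ 2 + 2 * f x ^ 2) / ((n : ℝ) + 1) ∂m :=
        integral_add hD2 (i1.div_const _)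
      have e2 : ∫ x, (weakGradient m f x ^ 2 + 2 * f x ^ 2) ∂m =
          (∫ x, weakGradient m f x ^ 2 ∂m) + ∫ x, 2 * f x ^ 2 ∂m :=
        integral_add hD2 (hf2.const_mul 2)
      rw [e1, integral_div, e2, integral_const_mul]
      rfl
    have hlim : Tendsto (fun n : ℕ => C / ((n : ℝ) + 1)) atTop (𝓝 0) :=
      tendsto_const_div_atTop_nhds_zero_nat C |>.comp (tendsto_add_atTop_nat 1) |>.congr
        (fun n => by simp)
    filter_upwards [hlim.eventually (gt_mem_nhds hε)] with n hn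
    linarith [hbound n]

/-- DIRECTLY from the frozen definition (`if_pos hf`, `sInf_lt_iff`): for each `n` a competitor sequence has
`liminf < Ch f + 1/(n+1)`, so FREQUENTLY the value is `< Ch f + 1/(n+1)` (`Filter.frequently_lt_of_liminf_lt`)
while EVENTUALLY the `L²` distance is `< 1/(n+1)`; pick such an index. -/
theorem gcb_cheeger_approx (hf : MemLp f 2 m) (hC : cheegerEnergy m f < ∞) :
    ∃ fs : ℕ → X → ℝ, (∀ n, GloballyLipschitz (fs n) ∧ MemLp (fs n) 2 m) ∧ gcb_L2Lim m fs f ∧ ∀ n : ℕ, (2 :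
    ℝ≥0∞)⁻¹ * ∫⁻ x, localSlope (fs n) x ^ 2 ∂m ≤ cheegerEnergy m f + ENNReal.ofReal (1 / ((n : ℝ) + 1)) := by
  have key : ∀ n : ℕ, ∃ g : X → ℝ, (GloballyLipschitz g ∧ MemLp g 2 m) ∧
      eLpNorm (fun x => g x - f x) 2 m < ENNReal.ofReal (1 / ((n : ℝ) + 1)) ∧
      (2 : ℝ≥0∞)⁻¹ * ∫⁻ x, localSlope g x ^ 2 ∂m
        < cheegerEnergy m f + ENNReal.ofReal (1 / ((n : ℝ) + 1)) := by
    intro n
    have hpos : 0 < ENNReal.ofReal (1 / ((n : ℝ) + 1)) := ENNReal.ofReal_pos.2 (by positivity)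
    have hlt : cheegerEnergy m f < cheegerEnergy m f + ENNReal.ofReal (1 / ((n : ℝ) + 1)) :=
      ENNReal.lt_add_right hC.ne hpos.ne'
    generalize cheegerEnergy m f + ENNReal.ofReal (1 / ((n : ℝ) + 1)) = b at hlt ⊢
    unfold cheegerEnergy at hlt
    rw [if_pos hf] at hlt
    obtain ⟨a, ⟨gs, hgs, hlim, rfl⟩, ha⟩ := sInf_lt_iff.1 hlt
    have hfreq := Filter.frequently_lt_of_liminf_lt (by isBoundedDefault) ha
    have hev : ∀ᶠ k in atTop,
        eLpNorm (fun x => gs k x - f x) 2 m < ENNReal.ofReal (1 / ((n : ℝ) + 1)) :=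
      (tendsto_order.1 hlim).2 _ hpos
    obtain ⟨k, hk1, hk2⟩ := (hfreq.and_eventually hev).exists
    exact ⟨gs k, hgs k, hk2, hk1⟩
  choose fs h1 h2 h3 using key
  refine ⟨fs, h1, ?_, fun n => (h3 n).le⟩
  unfold gcb_L2Lim
  refine tendsto_of_tendsto_of_tendsto_of_le_of_le tendsto_const_nhds ?_ (fun _ => zero_le)
    (fun n => (h2 n).le)
  have h0 := ENNReal.tendsto_ofReal (tendsto_one_div_add_atTop_nhds_zero_nat (𝕜 := ℝ))
  simpa using h0

/-- `gcb_cheeger_approx`, `gcb_energy_le_slope`, `gcb_cheeger_eq_energy`, `gcb_strong_of_weak`. -/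
theorem gcb_dense_lip (hS : Std m K N) (hf : Sobolev m f) :
    ∃ fs : ℕ → X → ℝ, (∀ n, GloballyLipschitz (fs n) ∧ Sobolev m (fs n)) ∧ gcb_W12Lim m fs f := by
  obtain ⟨h2, hC⟩ := (gcb_sob_iff_cheeger hS).1 hf
  obtain ⟨fs, hfs, hlim, hle⟩ := gcb_cheeger_approx h2 hC
  have he0 : 0 ≤ energy m f := gcb_energy_nonneg m f
  have key : ∀ n : ℕ, Sobolev m (fs n) ∧ energy m (fs n) ≤ energy m f + 2 / ((n : ℝ) + 1) := by
    intro n
    have hn : (0 : ℝ) < (n : ℝ) + 1 := by positivity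
    refine gcb_energy_le_slope hS (hfs n).1 (hfs n).2 (by positivity) ?_
    have h1 := hle n
    rw [gcb_cheeger_eq_energy hS hf, ← ENNReal.ofReal_add (by positivity) (by positivity)] at h1
    have h3 : ∫⁻ x, localSlope (fs n) x ^ 2 ∂m
        = 2 * ((2 : ℝ≥0∞)⁻¹ * ∫⁻ x, localSlope (fs n) x ^ 2 ∂m) := by
      rw [← mul_assoc, ENNReal.mul_inv_cancel (by norm_num) (by norm_num), one_mul]
    rw [h3]
    calc 2 * ((2 : ℝ≥0∞)⁻¹ * ∫⁻ x, localSlope (fs n) x ^ 2 ∂m)
        ≤ 2 * ENNReal.ofReal (energy m f / 2 + 1 / ((n : ℝ) + 1)) := mul_le_mul_right h1 2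
      _ = ENNReal.ofReal (energy m f + 2 / ((n : ℝ) + 1)) := by
        rw [show (2 : ℝ≥0∞) = ENNReal.ofReal 2 by simp, ← ENNReal.ofReal_mul (by norm_num)]
        congr 1
        ring
  refine ⟨fs, fun n => ⟨(hfs n).1, (key n).1⟩, gcb_strong_of_weak hS (fun n => (key n).1) hf hlim ?_⟩
  intro ε hε
  have ht : Tendsto (fun n : ℕ => 2 / ((n : ℝ) + 1)) atTop (𝓝 0) := by
    have h := (tendsto_one_div_add_atTop_nhds_zero_nat (𝕜 := ℝ)).const_mul 2
    rw [mul_zero] at h
    refine h.congr fun n => ?_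
    ring
  filter_upwards [ht.eventually (gt_mem_nhds hε)] with n hn
  linarith [(key n).2]

/-- `gcb_dense_lip`, then cut off (`gcb_exists_cutoff_slow`, `gcb_cutoff_W12Lim`) and take a diagonal sequence
(for each `n` choose `k` with both errors `< 1/(n+1)`). -/
theorem gcb_dense_lipC (hS : Std m K N) (hf : Sobolev m f) :
    ∃ fs : ℕ → X → ℝ, (∀ n, LipC (fs n)) ∧ gcb_W12Lim m fs f := by
  obtain ⟨gs, hgs, hlim⟩ := gcb_dense_lip hS hf
  rcases isEmpty_or_nonempty X with hX | ⟨⟨o⟩⟩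
  · refine ⟨gs, fun n => ⟨(hgs n).1, ?_⟩, hlim⟩
    exact HasCompactSupport.of_support_subset_isCompact (K := ∅) isCompact_empty
      (fun y _ => (hX.false y).elim)
  choose χ hχC hχL hχ01 hχ1 using gcb_exists_cutoff_slow o
  have hcut : ∀ n, gcb_W12Lim m (fun k x => χ k x * gs n x) (gs n) :=
    fun n => gcb_cutoff_W12Lim hS (hgs n).2 o hχL hχ01 hχ1
  have hex : ∀ n : ℕ, ∃ k : ℕ,
      eLpNorm (fun x => χ k x * gs n x - gs n x) 2 m < ENNReal.ofReal (1 / ((n : ℝ) + 1)) ∧
      energy m (fun x => χ k x * gs n x - gs n x) < 1 / ((n : ℝ) + 1) := by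
    intro n
    have hn : (0 : ℝ) < 1 / ((n : ℝ) + 1) := by positivity
    have h1 := (hcut n).1.eventually (gt_mem_nhds (ENNReal.ofReal_pos.2 hn))
    have h2 := (hcut n).2.eventually (gt_mem_nhds hn)
    exact (h1.and h2).exists
  choose k hk1 hk2 using hex
  have ht : Tendsto (fun n : ℕ => 1 / ((n : ℝ) + 1)) atTop (𝓝 0) :=
    tendsto_one_div_add_atTop_nhds_zero_nat (𝕜 := ℝ)
  refine ⟨fun n x => χ (k n) x * gs n x, fun n => ?_, ?_⟩
  · have h := gcb_lipC_mul_locLip (gcb_locLip_of_lip (hgs n).1) (hχC (k n))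
    have e : (fun x => χ (k n) x * gs n x) = fun x => gs n x * χ (k n) x := by
      funext x
      ring
    show LipC (fun x => χ (k n) x * gs n x)
    rw [e]
    exact h
  · have hd : gcb_W12Lim m (fun n x => χ (k n) x * gs n x - gs n x) (fun _ => 0) := by
      constructor
      · unfold gcb_L2Lim
        simp only [sub_zero]
        have ht' : Tendsto (fun n : ℕ => ENNReal.ofReal (1 / ((n : ℝ) + 1))) atTop (𝓝 0) := by
          have := ENNReal.tendsto_ofReal ht
          rwa [ENNReal.ofReal_zero] at this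
        exact tendsto_of_tendsto_of_tendsto_of_le_of_le tendsto_const_nhds ht'
          (fun n => bot_le) (fun n => (hk1 n).le)
      · simp only [sub_zero]
        exact tendsto_of_tendsto_of_tendsto_of_le_of_le tendsto_const_nhds ht
          (fun n => gcb_energy_nonneg m _) (fun n => (hk2 n).le)
    have h := gcb_W12Lim_add hS
      (fun n => gcb_sob_sub hS (gcb_sob_cutoff hS (hχC (k n)) (gcb_sob_locSob (hgs n).2)) (hgs n).2)
      (gcb_sob_zero hS) (fun n => (hgs n).2) hf hd hlim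
    simpa using h

/-- clamp the sequence of `gcb_dense_lipC` to `[a,b]`: still `LipC`, converges in `L²` to `clamp f = f`, energies
`≤ energy fₙ → energy f`; `gcb_strong_of_weak`. -/
theorem gcb_dense_lipC_Icc (hS : Std m K N) (hf : Sobolev m f) {a b : ℝ} (ha : a ≤ 0) (hb : 0 ≤ b) (hab : ∀ᵐ x
    ∂m, a ≤ f x ∧ f x ≤ b) :
    ∃ fs : ℕ → X → ℝ, (∀ n, LipC (fs n)) ∧ (∀ n x, a ≤ fs n x ∧ fs n x ≤ b) ∧ gcb_W12Lim m fs f := by
  obtain ⟨fs, hfs, hlim⟩ := gcb_dense_lipC hS hf
  have hsob : ∀ n, Sobolev m (fs n) := fun n => gcb_sob_of_lipC hS (hfs n)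
  have hsob' : ∀ n, Sobolev m (fun x => max (min (fs n x) b) a) := fun n =>
    gcb_sob_clamp_Icc hS (hsob n) ha hb
  refine ⟨fun n x => max (min (fs n x) b) a, fun n => gcb_lipC_clamp_Icc ha hb (hfs n),
    fun n x => ⟨le_max_right _ _, max_le (min_le_right _ _) (ha.trans hb)⟩, ?_⟩
  refine gcb_strong_of_weak hS hsob' hf ?_ ?_
  · refine tendsto_of_tendsto_of_tendsto_of_le_of_le tendsto_const_nhds hlim.1 (fun _ => zero_le)
      (fun n => ?_)
    refine eLpNorm_mono_ae ?_
    filter_upwards [hab] with x hx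
    rw [Real.norm_eq_abs, Real.norm_eq_abs]
    have h1 : f x = max (min (f x) b) a := by
      rw [min_eq_left hx.2, max_eq_left hx.1]
    calc |max (min (fs n x) b) a - f x| = |max (min (fs n x) b) a - max (min (f x) b) a| := by rw [← h1]
      _ ≤ |min (fs n x) b - min (f x) b| := abs_max_sub_max_le_abs _ _ _
      _ ≤ |fs n x - f x| := by simpa using abs_min_sub_min_le_max (fs n x) b (f x) b
  · intro ε hε
    have ht := gcb_energy_tendsto hS hsob hf hlim
    have hev : ∀ᶠ n in atTop, energy m (fs n) < energy m f + ε :=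
      ht.eventually (Iio_mem_nhds (by linarith))
    filter_upwards [hev] with n hn
    refine le_trans ?_ hn.le
    have hφ : LipschitzWith 1 (fun t : ℝ => max (min t b) a) := by
      refine LipschitzWith.of_dist_le_mul fun s t => ?_
      rw [Real.dist_eq, Real.dist_eq, NNReal.coe_one, one_mul]
      exact (abs_max_sub_max_le_abs _ _ _).trans (by simpa using abs_min_sub_min_le_max s b t b)
    refine integral_mono_ae (gcb_wg_sq_integrable (hsob' n)) (gcb_wg_sq_integrable (hsob n)) ?_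
    filter_upwards [gcb_wg_comp_lip_le hS hφ (gcb_sob_locSob (hsob n)),
      gcb_wg_nonneg m (fun x => max (min (fs n x) b) a)] with x h1 h2
    rw [NNReal.coe_one, one_mul] at h1
    exact pow_le_pow_left₀ h2 h1 2

/-- multiply the sequence of `gcb_dense_lipC_Icc` by the cut-off of `gcb_exists_cutoff o R`;
`gcb_W12Lim_mul_lipB`. -/
theorem gcb_dense_lipC_supp (hS : Std m K N) (hf : Sobolev m f) {a b : ℝ} (ha : a ≤ 0) (hb : 0 ≤ b) (hab : ∀ᵐ
    x ∂m, a ≤ f x ∧ f x ≤ b) {o : X} {R : ℝ} (hs : ∀ᵐ x ∂m, x ∉ Metric.ball o R → f x = 0) :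
    ∃ fs : ℕ → X → ℝ, (∀ n, LipC (fs n)) ∧ (∀ n x, a ≤ fs n x ∧ fs n x ≤ b) ∧ (∀ n x, x ∉ Metric.ball o (R + 1) →
    fs n x = 0) ∧ gcb_W12Lim m fs f := by
  obtain ⟨fs, hfs, hr, hlim⟩ := gcb_dense_lipC_Icc hS hf ha hb hab
  obtain ⟨χ, hχC, -, hχ01, hχ1, hχ0⟩ := gcb_exists_cutoff o R
  have hsob : ∀ n, Sobolev m (fs n) := fun n => gcb_sob_of_lipC hS (hfs n)
  refine ⟨fun n x => χ x * fs n x, fun n => gcb_lipC_mul_lipB (gcb_lipC_lipB hχC) (hfs n), fun n x => ?_,
    fun n x hx => ?_, ?_⟩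
  · obtain ⟨h0, h1⟩ := hχ01 x
    obtain ⟨h2, h3⟩ := hr n x
    constructor
    · nlinarith [mul_nonneg h0 (sub_nonneg.mpr h2), mul_nonneg (sub_nonneg.mpr h1) (neg_nonneg.mpr ha)]
    · nlinarith [mul_nonneg h0 (sub_nonneg.mpr h3), mul_nonneg (sub_nonneg.mpr h1) hb]
  · simp only [hχ0 x hx, zero_mul]
  · have hW := gcb_W12Lim_mul_lipB hS (gcb_lipC_lipB hχC) hsob hf hlim
    have hae : (fun x => χ x * f x) =ᵐ[m] f := by
      filter_upwards [hs] with x hx
      by_cases hxb : x ∈ Metric.ball o R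
      · rw [hχ1 x (Metric.ball_subset_closedBall hxb), one_mul]
      · rw [hx hxb, mul_zero]
    have hae' : ∀ n, (fun x => χ x * fs n x - χ x * f x) =ᵐ[m] fun x => χ x * fs n x - f x := by
      intro n
      filter_upwards [hae] with x hx
      rw [hx]
    refine ⟨?_, ?_⟩
    · have := hW.1
      unfold gcb_L2Lim at this ⊢
      refine this.congr fun n => eLpNorm_congr_ae (hae' n)
    · refine hW.2.congr fun n => gcb_energy_congr (hae' n)

end Claimed.Agent.R210.GCB.Conv
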