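/-
Row 210 (S0432), layer GCB: INTERFACE `IfcA` (generated restatement of the leaf lemmas; do not edit by hand).
Architect: helper469.
Part A: everything that does NOT use Hilbertianity / the identification with the Cheeger energy
(only the test plan layer TP is used).  Layers ID and GCA may import this file.
Usage: `import Claimed.Agent.R210.GCB.IfcA`,
`open Claimed.Agent.R210.Defs Claimed.Agent.R210.GCB.Defs Claimed.Agent.R210.GCB.IfcA`.
-/
import Claimed.Agent.R210.GCB.Sob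

set_option autoImplicit false

open Claims.C0366 Claims.C0366.WeakHessian
open Set Filter MeasureTheory
open scoped ENNReal NNReal Topology

namespace Claimed.Agent.R210.GCB.IfcA

open Claimed.Agent.R210.Defs Claimed.Agent.R210.GCB.Defs

variable {X : Type*} [MetricSpace X] [MeasurableSpace X] [BorelSpace X]
  [CompleteSpace X] [TopologicalSpace.SeparableSpace X] [ProperSpace X]
  {m : Measure X} {K N : ℝ} {f g h f' g' f₁ f₂ g₁ g₂ u v D : X → ℝ}

/-! ### Basic : unfolding of the frozen definitions; exact (function level) identities; measurability -/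

theorem gcb_wg_spec (hf : LocalSobolev m f) :
    IsMinimalLocalWeakUpperGradient m f (weakGradient m f) :=
  Basic.gcb_wg_spec hf

theorem gcb_wg_wug (hf : LocalSobolev m f) :
    IsLocalWeakUpperGradient m f (weakGradient m f) :=
  Basic.gcb_wg_wug hf

theorem gcb_wg_le (hf : LocalSobolev m f) (hD : IsLocalWeakUpperGradient m f D) :
    ∀ᵐ x ∂m, weakGradient m f x ≤ D x :=
  Basic.gcb_wg_le hf hD

theorem gcb_wg_nonneg (m : Measure X) (f : X → ℝ) :
    ∀ᵐ x ∂m, 0 ≤ weakGradient m f x :=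
  Basic.gcb_wg_nonneg m f

theorem gcb_wg_locL2 (m : Measure X) (f : X → ℝ) :
    LocallyL2 m (weakGradient m f) :=
  Basic.gcb_wg_locL2 m f

theorem gcb_aesm_of_locL2 (hf : LocallyL2 m f) :
    AEStronglyMeasurable f m :=
  Basic.gcb_aesm_of_locL2 hf

theorem gcb_wg_aesm (m : Measure X) (f : X → ℝ) :
    AEStronglyMeasurable (weakGradient m f) m :=
  Basic.gcb_wg_aesm m f

theorem gcb_locSob_aesm (hf : LocalSobolev m f) :
    AEStronglyMeasurable f m :=
  Basic.gcb_locSob_aesm hf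

theorem gcb_gamma_aesm (m : Measure X) (f g : X → ℝ) :
    AEStronglyMeasurable (gamma m f g) m :=
  Basic.gcb_gamma_aesm m f g

theorem gcb_locSob_of_wug (hS : Std m K N) (hf : LocallyL2 m f) (hD : IsLocalWeakUpperGradient m f D) :
    LocalSobolev m f :=
  Basic.gcb_locSob_of_wug hS hf hD

theorem gcb_wg_congr (h : f =ᵐ[m] g) :
    weakGradient m f = weakGradient m g :=
  Basic.gcb_wg_congr h

theorem gcb_locSob_congr (h : f =ᵐ[m] g) (hf : LocalSobolev m f) :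
    LocalSobolev m g :=
  Basic.gcb_locSob_congr h hf

theorem gcb_sob_congr (h : f =ᵐ[m] g) (hf : Sobolev m f) :
    Sobolev m g :=
  Basic.gcb_sob_congr h hf

theorem gcb_gamma_congr (hf : f =ᵐ[m] f') (hg : g =ᵐ[m] g') :
    gamma m f g = gamma m f' g' :=
  Basic.gcb_gamma_congr hf hg

theorem gcb_wg_neg (m : Measure X) (f : X → ℝ) :
    weakGradient m (fun x => -f x) = weakGradient m f :=
  Basic.gcb_wg_neg m f

theorem gcb_wg_add_const (m : Measure X) (f : X → ℝ) (c : ℝ) :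
    weakGradient m (fun x => f x + c) = weakGradient m f :=
  Basic.gcb_wg_add_const m f c

theorem gcb_wg_sub_comm (m : Measure X) (f g : X → ℝ) :
    weakGradient m (fun x => f x - g x) = weakGradient m (fun x => g x - f x) :=
  Basic.gcb_wg_sub_comm m f g

theorem gcb_gamma_comm (m : Measure X) (f g : X → ℝ) :
    gamma m f g = gamma m g f :=
  Basic.gcb_gamma_comm m f g

theorem gcb_gamma_neg_left (m : Measure X) (f g : X → ℝ) :
    gamma m (fun x => -f x) g = fun x => -gamma m f g x :=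
  Basic.gcb_gamma_neg_left m f g

theorem gcb_gamma_neg_right (m : Measure X) (f g : X → ℝ) :
    gamma m f (fun x => -g x) = fun x => -gamma m f g x :=
  Basic.gcb_gamma_neg_right m f g

theorem gcb_gamma_add_const_left (m : Measure X) (f g : X → ℝ) (c : ℝ) :
    gamma m (fun x => f x + c) g = gamma m f g :=
  Basic.gcb_gamma_add_const_left m f g c

theorem gcb_gamma_add_const_right (m : Measure X) (f g : X → ℝ) (c : ℝ) :
    gamma m f (fun x => g x + c) = gamma m f g :=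
  Basic.gcb_gamma_add_const_right m f g c

theorem gcb_gamma_const_left (m : Measure X) (c : ℝ) (g : X → ℝ) :
    gamma m (fun _ => c) g = fun _ => 0 :=
  Basic.gcb_gamma_const_left m c g

theorem gcb_gamma_const_right (m : Measure X) (f : X → ℝ) (c : ℝ) :
    gamma m f (fun _ => c) = fun _ => 0 :=
  Basic.gcb_gamma_const_right m f c

theorem gcb_sob_locSob (hf : Sobolev m f) :
    LocalSobolev m f :=
  Basic.gcb_sob_locSob hf

theorem gcb_sob_memLp (hf : Sobolev m f) :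
    MemLp f 2 m :=
  Basic.gcb_sob_memLp hf

theorem gcb_sob_wg_memLp (hf : Sobolev m f) :
    MemLp (weakGradient m f) 2 m :=
  Basic.gcb_sob_wg_memLp hf

theorem gcb_sob_of_le {G : X → ℝ} (hf : LocalSobolev m f) (h2 : MemLp f 2 m) (hG : MemLp G 2 m) (hle : ∀ᵐ x
    ∂m, weakGradient m f x ≤ G x) :
    Sobolev m f :=
  Basic.gcb_sob_of_le hf h2 hG hle

/-! ### LocBdd : locally bounded functions, bounded supports, `LocallyL2`, elementary integrability -/

theorem gcb_locBdd_of_bdd (m : Measure X) (hf : BoundedFunction f) :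
    gcb_LocBdd m f :=
  LocBdd.gcb_locBdd_of_bdd m hf

theorem gcb_locBdd_of_aebdd {B : ℝ} (hf : AEBdd m f B) :
    gcb_LocBdd m f :=
  LocBdd.gcb_locBdd_of_aebdd hf

theorem gcb_locBdd_of_continuous (m : Measure X) (hf : Continuous f) :
    gcb_LocBdd m f :=
  LocBdd.gcb_locBdd_of_continuous m hf

theorem gcb_locBdd_of_lip (m : Measure X) (hf : GloballyLipschitz f) :
    gcb_LocBdd m f :=
  LocBdd.gcb_locBdd_of_lip m hf

theorem gcb_locBdd_const (m : Measure X) (c : ℝ) :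
    gcb_LocBdd m (fun _ : X => c) :=
  LocBdd.gcb_locBdd_const m c

theorem gcb_locBdd_add (hf : gcb_LocBdd m f) (hg : gcb_LocBdd m g) :
    gcb_LocBdd m (fun x => f x + g x) :=
  LocBdd.gcb_locBdd_add hf hg

theorem gcb_locBdd_sub (hf : gcb_LocBdd m f) (hg : gcb_LocBdd m g) :
    gcb_LocBdd m (fun x => f x - g x) :=
  LocBdd.gcb_locBdd_sub hf hg

theorem gcb_locBdd_neg (hf : gcb_LocBdd m f) :
    gcb_LocBdd m (fun x => -f x) :=
  LocBdd.gcb_locBdd_neg hf

theorem gcb_locBdd_mul (hf : gcb_LocBdd m f) (hg : gcb_LocBdd m g) :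
    gcb_LocBdd m (fun x => f x * g x) :=
  LocBdd.gcb_locBdd_mul hf hg

theorem gcb_locBdd_const_mul (c : ℝ) (hf : gcb_LocBdd m f) :
    gcb_LocBdd m (fun x => c * f x) :=
  LocBdd.gcb_locBdd_const_mul c hf

theorem gcb_locBdd_max (hf : gcb_LocBdd m f) (hg : gcb_LocBdd m g) :
    gcb_LocBdd m (fun x => max (f x) (g x)) :=
  LocBdd.gcb_locBdd_max hf hg

theorem gcb_locBdd_min (hf : gcb_LocBdd m f) (hg : gcb_LocBdd m g) :
    gcb_LocBdd m (fun x => min (f x) (g x)) :=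
  LocBdd.gcb_locBdd_min hf hg

theorem gcb_locBdd_comp {φ : ℝ → ℝ} (hφ : Continuous φ) (hf : gcb_LocBdd m f) :
    gcb_LocBdd m (fun x => φ (f x)) :=
  LocBdd.gcb_locBdd_comp hφ hf

theorem gcb_locBdd_congr (h : f =ᵐ[m] g) (hf : gcb_LocBdd m f) :
    gcb_LocBdd m g :=
  LocBdd.gcb_locBdd_congr h hf

theorem gcb_locL2_of_memLp (hf : MemLp f 2 m) :
    LocallyL2 m f :=
  LocBdd.gcb_locL2_of_memLp hf

theorem gcb_locL2_of_locBdd (hS : Std m K N) (hf : AEStronglyMeasurable f m) (hb : gcb_LocBdd m f) :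
    LocallyL2 m f :=
  LocBdd.gcb_locL2_of_locBdd hS hf hb

theorem gcb_locL2_add (hf : LocallyL2 m f) (hg : LocallyL2 m g) :
    LocallyL2 m (fun x => f x + g x) :=
  LocBdd.gcb_locL2_add hf hg

theorem gcb_locL2_sub (hf : LocallyL2 m f) (hg : LocallyL2 m g) :
    LocallyL2 m (fun x => f x - g x) :=
  LocBdd.gcb_locL2_sub hf hg

theorem gcb_locL2_const_mul (c : ℝ) (hf : LocallyL2 m f) :
    LocallyL2 m (fun x => c * f x) :=
  LocBdd.gcb_locL2_const_mul c hf

theorem gcb_locL2_mul_locBdd (hf : LocallyL2 m f) (hg : AEStronglyMeasurable g m) (hb : gcb_LocBdd m g) :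
    LocallyL2 m (fun x => g x * f x) :=
  LocBdd.gcb_locL2_mul_locBdd hf hg hb

theorem gcb_locL2_congr (h : f =ᵐ[m] g) (hf : LocallyL2 m f) :
    LocallyL2 m g :=
  LocBdd.gcb_locL2_congr h hf

theorem gcb_locL2_mono (hg : LocallyL2 m g) (hf : AEStronglyMeasurable f m) (hle : ∀ᵐ x ∂m, |f x| ≤ |g x|) :
    LocallyL2 m f :=
  LocBdd.gcb_locL2_mono hg hf hle

theorem gcb_bddSupp_of_compact (m : Measure X) (hf : HasCompactSupport f) :
    gcb_BddSupp m f :=
  LocBdd.gcb_bddSupp_of_compact m hf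

theorem gcb_bddSupp_mul_left (hf : gcb_BddSupp m f) (g : X → ℝ) :
    gcb_BddSupp m (fun x => f x * g x) :=
  LocBdd.gcb_bddSupp_mul_left hf g

theorem gcb_bddSupp_mul_right (f : X → ℝ) (hg : gcb_BddSupp m g) :
    gcb_BddSupp m (fun x => f x * g x) :=
  LocBdd.gcb_bddSupp_mul_right f hg

theorem gcb_bddSupp_add (hf : gcb_BddSupp m f) (hg : gcb_BddSupp m g) :
    gcb_BddSupp m (fun x => f x + g x) :=
  LocBdd.gcb_bddSupp_add hf hg

theorem gcb_memLp_of_locL2_bddSupp (hf : LocallyL2 m f) (hs : gcb_BddSupp m f) :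
    MemLp f 2 m :=
  LocBdd.gcb_memLp_of_locL2_bddSupp hf hs

theorem gcb_integrableOn_mul (hf : LocallyL2 m f) (hg : LocallyL2 m g) (o : X) (R : ℝ) :
    IntegrableOn (fun x => f x * g x) (Metric.ball o R) m :=
  LocBdd.gcb_integrableOn_mul hf hg o R

theorem gcb_integrable_of_locBdd_bddSupp (hS : Std m K N) (hf : AEStronglyMeasurable f m) (hb : gcb_LocBdd m
    f) (hs : gcb_BddSupp m f) :
    Integrable f m :=
  LocBdd.gcb_integrable_of_locBdd_bddSupp hS hf hb hs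

theorem gcb_ae_of_bddDens {μ : Measure X} {M : ℝ≥0} {o : X} {R : ℝ} (hμ : BddDens m μ M o R) {p : X → Prop}
    (hp : ∀ᵐ x ∂m, p x) :
    ∀ᵐ x ∂μ, p x :=
  LocBdd.gcb_ae_of_bddDens hμ hp

theorem gcb_integrable_bddDens {μ : Measure X} {M : ℝ≥0} {o : X} {R : ℝ} (hμ : BddDens m μ M o R) (hf :
    IntegrableOn f (Metric.ball o (R + 1)) m) :
    Integrable f μ :=
  LocBdd.gcb_integrable_bddDens hμ hf

theorem gcb_eLpNorm_tendsto_of_dominated {μ : Measure X} {Fs : ℕ → X → ℝ} {G : X → ℝ} (hFs : ∀ n,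
    AEStronglyMeasurable (Fs n) μ) (hG : MemLp G 2 μ) (hle : ∀ n, ∀ᵐ x ∂μ, |Fs n x| ≤ |G x|) (hlim : ∀ᵐ x ∂μ,
    Tendsto (fun n => Fs n x) atTop (𝓝 0)) :
    Tendsto (fun n => eLpNorm (Fs n) 2 μ) atTop (𝓝 0) :=
  LocBdd.gcb_eLpNorm_tendsto_of_dominated hFs hG hle hlim

theorem gcb_integral_sq_tendsto_of_dominated {μ : Measure X} {Fs : ℕ → X → ℝ} {G : X → ℝ} (hFs : ∀ n,
    AEStronglyMeasurable (Fs n) μ) (hG : MemLp G 2 μ) (hle : ∀ n, ∀ᵐ x ∂μ, |Fs n x| ≤ |G x|) (hlim : ∀ᵐ x ∂μ,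
    Tendsto (fun n => Fs n x) atTop (𝓝 0)) :
    Tendsto (fun n => ∫ x, Fs n x ^ 2 ∂μ) atTop (𝓝 0) :=
  LocBdd.gcb_integral_sq_tendsto_of_dominated hFs hG hle hlim

/-! ### Grad : `LocalSobolev` is a vector space; sublinearity, locality, localisation and stability of `weakGradient` -/

theorem gcb_locSob_const (hS : Std m K N) (c : ℝ) :
    LocalSobolev m (fun _ : X => c) :=
  Grad.gcb_locSob_const hS c

theorem gcb_wug_const (m : Measure X) (c : ℝ) :
    IsLocalWeakUpperGradient m (fun _ : X => c) (fun _ => 0) :=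
  Grad.gcb_wug_const m c

theorem gcb_wg_const (m : Measure X) (c : ℝ) :
    weakGradient m (fun _ : X => c) =ᵐ[m] fun _ => 0 :=
  Grad.gcb_wg_const m c

theorem gcb_locSob_add (hS : Std m K N) (hf : LocalSobolev m f) (hg : LocalSobolev m g) :
    LocalSobolev m (fun x => f x + g x) :=
  Grad.gcb_locSob_add hS hf hg

theorem gcb_locSob_neg (hf : LocalSobolev m f) :
    LocalSobolev m (fun x => -f x) :=
  Grad.gcb_locSob_neg hf

theorem gcb_locSob_sub (hS : Std m K N) (hf : LocalSobolev m f) (hg : LocalSobolev m g) :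
    LocalSobolev m (fun x => f x - g x) :=
  Grad.gcb_locSob_sub hS hf hg

theorem gcb_locSob_const_mul (hS : Std m K N) (c : ℝ) (hf : LocalSobolev m f) :
    LocalSobolev m (fun x => c * f x) :=
  Grad.gcb_locSob_const_mul hS c hf

theorem gcb_locSob_mul_const (hS : Std m K N) (hf : LocalSobolev m f) (c : ℝ) :
    LocalSobolev m (fun x => f x * c) :=
  Grad.gcb_locSob_mul_const hS hf c

theorem gcb_locSob_add_const (hS : Std m K N) (hf : LocalSobolev m f) (c : ℝ) :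
    LocalSobolev m (fun x => f x + c) :=
  Grad.gcb_locSob_add_const hS hf c

theorem gcb_locSob_sum (hS : Std m K N) {ι : Type*} (s : Finset ι) (G : ι → X → ℝ) (hG : ∀ i ∈ s, LocalSobolev
    m (G i)) :
    LocalSobolev m (fun x => ∑ i ∈ s, G i x) :=
  Grad.gcb_locSob_sum hS s G hG

theorem gcb_wg_add_le (hS : Std m K N) (hf : LocalSobolev m f) (hg : LocalSobolev m g) :
    ∀ᵐ x ∂m, weakGradient m (fun y => f y + g y) x ≤ weakGradient m f x + weakGradient m g x :=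
  Grad.gcb_wg_add_le hS hf hg

theorem gcb_wg_sub_le (hS : Std m K N) (hf : LocalSobolev m f) (hg : LocalSobolev m g) :
    ∀ᵐ x ∂m, weakGradient m (fun y => f y - g y) x ≤ weakGradient m f x + weakGradient m g x :=
  Grad.gcb_wg_sub_le hS hf hg

theorem gcb_wg_const_mul (hS : Std m K N) (c : ℝ) (hf : LocalSobolev m f) :
    weakGradient m (fun y => c * f y) =ᵐ[m] fun x => |c| * weakGradient m f x :=
  Grad.gcb_wg_const_mul hS c hf

theorem gcb_wg_abs_sub_le (hS : Std m K N) (hf : LocalSobolev m f) (hg : LocalSobolev m g) :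
    ∀ᵐ x ∂m, |weakGradient m f x - weakGradient m g x| ≤ weakGradient m (fun y => f y - g y) x :=
  Grad.gcb_wg_abs_sub_le hS hf hg

theorem gcb_wg_eq_on (hS : Std m K N) (hf : LocalSobolev m f) (hg : LocalSobolev m g) :
    ∀ᵐ x ∂m, f x = g x → weakGradient m f x = weakGradient m g x :=
  Grad.gcb_wg_eq_on hS hf hg

theorem gcb_wg_eq_zero_on_const (hS : Std m K N) (hf : LocalSobolev m f) (c : ℝ) :
    ∀ᵐ x ∂m, f x = c → weakGradient m f x = 0 :=
  Grad.gcb_wg_eq_zero_on_const hS hf c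

theorem gcb_wg_eq_zero_on_null (hS : Std m K N) (hf : LocalSobolev m f) {s : Set ℝ} (hs : volume s = 0) :
    ∀ᵐ x ∂m, f x ∈ s → weakGradient m f x = 0 :=
  Grad.gcb_wg_eq_zero_on_null hS hf hs

theorem gcb_wg_eq_zero_off (hS : Std m K N) (hf : LocalSobolev m f) {A : Set X} (h0 : ∀ᵐ x ∂m, x ∉ A → f x =
    0) :
    ∀ᵐ x ∂m, x ∉ A → weakGradient m f x = 0 :=
  Grad.gcb_wg_eq_zero_off hS hf h0

theorem gcb_locSob_of_local (hS : Std m K N) (h : ∀ (o : X) (R : ℝ), ∃ g, LocalSobolev m g ∧ ∀ᵐ x ∂m, x ∈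
    Metric.ball o R → f x = g x) :
    LocalSobolev m f :=
  Grad.gcb_locSob_of_local hS h

theorem gcb_wug_mono {D' : X → ℝ} (hD : IsLocalWeakUpperGradient m f D) (hD' : LocallyL2 m D') (hle : ∀ᵐ x ∂m,
    D x ≤ D' x) :
    IsLocalWeakUpperGradient m f D' :=
  Grad.gcb_wug_mono hD hD' hle

theorem gcb_wug_stab (hS : Std m K N) {fs : ℕ → X → ℝ} (hf : LocallyL2 m f) (hfs : ∀ n, LocallyL2 m (fs n))
    (hw : ∀ n, IsLocalWeakUpperGradient m (fs n) D) (hlim : gcb_L2locLim m fs f) :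
    IsLocalWeakUpperGradient m f D :=
  Grad.gcb_wug_stab hS hf hfs hw hlim

theorem gcb_locSob_of_lim (hS : Std m K N) {fs : ℕ → X → ℝ} (hf : LocallyL2 m f) (hfs : ∀ n, LocalSobolev m
    (fs n)) (hD : LocallyL2 m D) (hle : ∀ n, ∀ᵐ x ∂m, weakGradient m (fs n) x ≤ D x) (hlim : gcb_L2locLim m fs f)
    :
    LocalSobolev m f ∧ ∀ᵐ x ∂m, weakGradient m f x ≤ D x :=
  Grad.gcb_locSob_of_lim hS hf hfs hD hle hlim

/-! ### Lip : (locally) Lipschitz functions, distance functions, cut-off functions -/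

theorem gcb_locSob_of_locLip (hS : Std m K N) (hf : LocallyLipschitz f) :
    LocalSobolev m f :=
  Lip.gcb_locSob_of_locLip hS hf

theorem gcb_locSob_of_lip (hS : Std m K N) (hf : GloballyLipschitz f) :
    LocalSobolev m f :=
  Lip.gcb_locSob_of_lip hS hf

theorem gcb_wg_le_slope (hS : Std m K N) (hf : LocallyLipschitz f) :
    ∀ᵐ x ∂m, ENNReal.ofReal (weakGradient m f x) ≤ localSlope f x :=
  Lip.gcb_wg_le_slope hS hf

theorem gcb_slope_le_lip {L : ℝ≥0} (hf : LipschitzWith L f) (x : X) :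
    localSlope f x ≤ L :=
  Lip.gcb_slope_le_lip hf x

theorem gcb_wg_le_lip (hS : Std m K N) {L : ℝ≥0} (hf : LipschitzWith L f) :
    ∀ᵐ x ∂m, weakGradient m f x ≤ L :=
  Lip.gcb_wg_le_lip hS hf

theorem gcb_wg_le_lipOn (hS : Std m K N) (hf : LocalSobolev m f) {L : ℝ≥0} {U : Set X} (hL : LipschitzOnWith L
    f U) :
    ∀ᵐ x ∂m, x ∈ U → weakGradient m f x ≤ L :=
  Lip.gcb_wg_le_lipOn hS hf hL

theorem gcb_locBdd_wg_of_locLip (hS : Std m K N) (hf : LocallyLipschitz f) :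
    gcb_LocBdd m (weakGradient m f) :=
  Lip.gcb_locBdd_wg_of_locLip hS hf

theorem gcb_locSob_dist (hS : Std m K N) (x₀ : X) :
    LocalSobolev m (fun z => dist z x₀) :=
  Lip.gcb_locSob_dist hS x₀

theorem gcb_wg_dist_le (hS : Std m K N) (x₀ : X) :
    ∀ᵐ z ∂m, weakGradient m (fun z => dist z x₀) z ≤ 1 :=
  Lip.gcb_wg_dist_le hS x₀

theorem gcb_locLip_wfun (x₀ : X) :
    LocallyLipschitz (wfun x₀) :=
  Lip.gcb_locLip_wfun x₀

theorem gcb_locSob_wfun (hS : Std m K N) (x₀ : X) :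
    LocalSobolev m (wfun x₀) :=
  Lip.gcb_locSob_wfun hS x₀

theorem gcb_wg_wfun_le (hS : Std m K N) (x₀ : X) :
    ∀ᵐ z ∂m, weakGradient m (wfun x₀) z ≤ dist z x₀ :=
  Lip.gcb_wg_wfun_le hS x₀

theorem gcb_locBdd_wfun (m : Measure X) (x₀ : X) :
    gcb_LocBdd m (wfun x₀) :=
  Lip.gcb_locBdd_wfun m x₀

theorem gcb_lipC_lipB (hf : LipC f) :
    LipB f :=
  Lip.gcb_lipC_lipB hf

theorem gcb_lipC_memLp (hS : Std m K N) (hf : LipC f) (p : ℝ≥0∞) :
    MemLp f p m :=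
  Lip.gcb_lipC_memLp hS hf p

theorem gcb_sob_of_lipC (hS : Std m K N) (hf : LipC f) :
    Sobolev m f :=
  Lip.gcb_sob_of_lipC hS hf

theorem gcb_exists_cutoff (o : X) (R : ℝ) :
    ∃ χ : X → ℝ, LipC χ ∧ LipschitzWith 1 χ ∧ (∀ x, 0 ≤ χ x ∧ χ x ≤ 1) ∧ (∀ x ∈ Metric.closedBall o R, χ x = 1) ∧
    ∀ x, x ∉ Metric.ball o (R + 1) → χ x = 0 :=
  Lip.gcb_exists_cutoff o R

theorem gcb_exists_cutoff_slow (o : X) (n : ℕ) :
    ∃ χ : X → ℝ, LipC χ ∧ LipschitzWith (1 / ((n : ℝ≥0) + 1)) χ ∧ (∀ x, 0 ≤ χ x ∧ χ x ≤ 1) ∧ (∀ x ∈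
    Metric.closedBall o n, χ x = 1) :=
  Lip.gcb_exists_cutoff_slow o n

theorem gcb_locLip_of_lip (hf : GloballyLipschitz f) :
    LocallyLipschitz f :=
  Lip.gcb_locLip_of_lip hf

theorem gcb_lipB_add (hf : LipB f) (hg : LipB g) :
    LipB (fun x => f x + g x) :=
  Lip.gcb_lipB_add hf hg

theorem gcb_lipB_const (c : ℝ) :
    LipB (fun _ : X => c) :=
  Lip.gcb_lipB_const c

theorem gcb_lipB_const_mul (c : ℝ) (hf : LipB f) :
    LipB (fun x => c * f x) :=
  Lip.gcb_lipB_const_mul c hf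

theorem gcb_lipB_mul (hf : LipB f) (hg : LipB g) :
    LipB (fun x => f x * g x) :=
  Lip.gcb_lipB_mul hf hg

theorem gcb_lipB_comp {φ : ℝ → ℝ} (hφ : LocallyLipschitz φ) (hf : LipB f) :
    LipB (fun x => φ (f x)) :=
  Lip.gcb_lipB_comp hφ hf

theorem gcb_lipC_add (hf : LipC f) (hg : LipC g) :
    LipC (fun x => f x + g x) :=
  Lip.gcb_lipC_add hf hg

theorem gcb_lipC_neg (hf : LipC f) :
    LipC (fun x => -f x) :=
  Lip.gcb_lipC_neg hf

theorem gcb_lipC_const_mul (c : ℝ) (hf : LipC f) :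
    LipC (fun x => c * f x) :=
  Lip.gcb_lipC_const_mul c hf

theorem gcb_lipC_comp {φ : ℝ → ℝ} (hφ : LocallyLipschitz φ) (h0 : φ 0 = 0) (hf : LipC f) :
    LipC (fun x => φ (f x)) :=
  Lip.gcb_lipC_comp hφ h0 hf

theorem gcb_lipC_clamp_Icc {a b : ℝ} (ha : a ≤ 0) (hb : 0 ≤ b) (hf : LipC f) :
    LipC (fun x => max (min (f x) b) a) :=
  Lip.gcb_lipC_clamp_Icc ha hb hf

theorem gcb_lipC_mul_locLip (hg : LocallyLipschitz g) (hf : LipC f) :
    LipC (fun x => g x * f x) :=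
  Lip.gcb_lipC_mul_locLip hg hf

theorem gcb_lipC_mul_lipB (hg : LipB g) (hf : LipC f) :
    LipC (fun x => g x * f x) :=
  Lip.gcb_lipC_mul_lipB hg hf

/-! ### Comp : chain rule and Leibniz rule for `weakGradient`; lattice operations -/

theorem gcb_locSob_comp_lip (hS : Std m K N) {φ : ℝ → ℝ} {L : ℝ≥0} (hφ : LipschitzWith L φ) (hf : LocalSobolev
    m f) :
    LocalSobolev m (fun x => φ (f x)) :=
  Comp.gcb_locSob_comp_lip hS hφ hf

theorem gcb_wg_comp_lip (hS : Std m K N) {φ : ℝ → ℝ} {L : ℝ≥0} (hφ : LipschitzWith L φ) (hf : LocalSobolev m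
    f) :
    weakGradient m (fun x => φ (f x)) =ᵐ[m] fun x => |deriv φ (f x)| * weakGradient m f x :=
  Comp.gcb_wg_comp_lip hS hφ hf

theorem gcb_wg_comp_lip_le (hS : Std m K N) {φ : ℝ → ℝ} {L : ℝ≥0} (hφ : LipschitzWith L φ) (hf : LocalSobolev
    m f) :
    ∀ᵐ x ∂m, weakGradient m (fun x => φ (f x)) x ≤ L * weakGradient m f x :=
  Comp.gcb_wg_comp_lip_le hS hφ hf

theorem gcb_locSob_comp_C1 (hS : Std m K N) {φ : ℝ → ℝ} (hφ : ContDiff ℝ 1 φ) (hf : LocalSobolev m f) (hb :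
    gcb_LocBdd m f) :
    LocalSobolev m (fun x => φ (f x)) :=
  Comp.gcb_locSob_comp_C1 hS hφ hf hb

theorem gcb_wg_comp_C1 (hS : Std m K N) {φ : ℝ → ℝ} (hφ : ContDiff ℝ 1 φ) (hf : LocalSobolev m f) (hb :
    gcb_LocBdd m f) :
    weakGradient m (fun x => φ (f x)) =ᵐ[m] fun x => |deriv φ (f x)| * weakGradient m f x :=
  Comp.gcb_wg_comp_C1 hS hφ hf hb

theorem gcb_locSob_comp_on (hS : Std m K N) {φ : ℝ → ℝ} {I : Set ℝ} (hI : IsOpen I) (hφ : ContDiffOn ℝ 1 φ I)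
    (hf : LocalSobolev m f) (hr : ∀ (o : X) (R : ℝ), ∃ C : Set ℝ, IsCompact C ∧ C ⊆ I ∧ ∀ᵐ x ∂m, x ∈ Metric.ball o
    R → f x ∈ C) :
    LocalSobolev m (fun x => φ (f x)) :=
  Comp.gcb_locSob_comp_on hS hI hφ hf hr

theorem gcb_wg_comp_on (hS : Std m K N) {φ : ℝ → ℝ} {I : Set ℝ} (hI : IsOpen I) (hφ : ContDiffOn ℝ 1 φ I) (hf
    : LocalSobolev m f) (hr : ∀ (o : X) (R : ℝ), ∃ C : Set ℝ, IsCompact C ∧ C ⊆ I ∧ ∀ᵐ x ∂m, x ∈ Metric.ball o R →
    f x ∈ C) :
    weakGradient m (fun x => φ (f x)) =ᵐ[m] fun x => |deriv φ (f x)| * weakGradient m f x :=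
  Comp.gcb_wg_comp_on hS hI hφ hf hr

theorem gcb_locSob_mul (hS : Std m K N) (hf : LocalSobolev m f) (hg : LocalSobolev m g) (hbf : gcb_LocBdd m f)
    (hbg : gcb_LocBdd m g) :
    LocalSobolev m (fun x => f x * g x) :=
  Comp.gcb_locSob_mul hS hf hg hbf hbg

theorem gcb_wg_mul_le (hS : Std m K N) (hf : LocalSobolev m f) (hg : LocalSobolev m g) (hbf : gcb_LocBdd m f)
    (hbg : gcb_LocBdd m g) :
    ∀ᵐ x ∂m, weakGradient m (fun y => f y * g y) x ≤ |f x| * weakGradient m g x + |g x| * weakGradient m f x :=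
  Comp.gcb_wg_mul_le hS hf hg hbf hbg

theorem gcb_locSob_abs (hS : Std m K N) (hf : LocalSobolev m f) :
    LocalSobolev m (fun x => |f x|) :=
  Comp.gcb_locSob_abs hS hf

theorem gcb_locSob_posPart (hS : Std m K N) (hf : LocalSobolev m f) :
    LocalSobolev m (fun x => max (f x) 0) :=
  Comp.gcb_locSob_posPart hS hf

theorem gcb_locSob_max (hS : Std m K N) (hf : LocalSobolev m f) (hg : LocalSobolev m g) :
    LocalSobolev m (fun x => max (f x) (g x)) :=
  Comp.gcb_locSob_max hS hf hg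

theorem gcb_locSob_min (hS : Std m K N) (hf : LocalSobolev m f) (hg : LocalSobolev m g) :
    LocalSobolev m (fun x => min (f x) (g x)) :=
  Comp.gcb_locSob_min hS hf hg

theorem gcb_locSob_clamp (hS : Std m K N) (hf : LocalSobolev m f) (c : ℝ) :
    LocalSobolev m (fun x => max (min (f x) c) (-c)) :=
  Comp.gcb_locSob_clamp hS hf c

theorem gcb_wg_abs (hS : Std m K N) (hf : LocalSobolev m f) :
    weakGradient m (fun x => |f x|) =ᵐ[m] weakGradient m f :=
  Comp.gcb_wg_abs hS hf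

theorem gcb_wg_posPart (hS : Std m K N) (hf : LocalSobolev m f) :
    ∀ᵐ x ∂m, (0 < f x → weakGradient m (fun y => max (f y) 0) x = weakGradient m f x) ∧ (f x ≤ 0 → weakGradient m
    (fun y => max (f y) 0) x = 0) :=
  Comp.gcb_wg_posPart hS hf

theorem gcb_wg_max (hS : Std m K N) (hf : LocalSobolev m f) (hg : LocalSobolev m g) :
    ∀ᵐ x ∂m, (g x ≤ f x → weakGradient m (fun y => max (f y) (g y)) x = weakGradient m f x) ∧ (f x ≤ g x →
    weakGradient m (fun y => max (f y) (g y)) x = weakGradient m g x) :=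
  Comp.gcb_wg_max hS hf hg

theorem gcb_wg_min (hS : Std m K N) (hf : LocalSobolev m f) (hg : LocalSobolev m g) :
    ∀ᵐ x ∂m, (f x ≤ g x → weakGradient m (fun y => min (f y) (g y)) x = weakGradient m f x) ∧ (g x ≤ f x →
    weakGradient m (fun y => min (f y) (g y)) x = weakGradient m g x) :=
  Comp.gcb_wg_min hS hf hg

theorem gcb_wg_clamp (hS : Std m K N) (hf : LocalSobolev m f) {c : ℝ} (hc : 0 ≤ c) :
    ∀ᵐ x ∂m, (|f x| < c → weakGradient m (fun y => max (min (f y) c) (-c)) x = weakGradient m f x) ∧ (c ≤ |f x| →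
    weakGradient m (fun y => max (min (f y) c) (-c)) x = 0) :=
  Comp.gcb_wg_clamp hS hf hc

theorem gcb_wg_clamp_le (hS : Std m K N) (hf : LocalSobolev m f) (c : ℝ) :
    ∀ᵐ x ∂m, weakGradient m (fun y => max (min (f y) c) (-c)) x ≤ weakGradient m f x :=
  Comp.gcb_wg_clamp_le hS hf c

theorem gcb_locSob_mul_gen (hS : Std m K N) (hf : LocalSobolev m f) (hg : LocalSobolev m g) (h2 : LocallyL2 m
    (fun x => f x * g x)) (hG : LocallyL2 m (fun x => |f x| * weakGradient m g x + |g x| * weakGradient m f x)) :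
    LocalSobolev m (fun x => f x * g x) :=
  Comp.gcb_locSob_mul_gen hS hf hg h2 hG

theorem gcb_wg_mul_le_gen (hS : Std m K N) (hf : LocalSobolev m f) (hg : LocalSobolev m g) (h2 : LocallyL2 m
    (fun x => f x * g x)) (hG : LocallyL2 m (fun x => |f x| * weakGradient m g x + |g x| * weakGradient m f x)) :
    ∀ᵐ x ∂m, weakGradient m (fun y => f y * g y) x ≤ |f x| * weakGradient m g x + |g x| * weakGradient m f x :=
  Comp.gcb_wg_mul_le_gen hS hf hg h2 hG

theorem gcb_locSob_mul_locLip (hS : Std m K N) (hg : LocallyLipschitz g) (hf : LocalSobolev m f) :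
    LocalSobolev m (fun x => g x * f x) :=
  Comp.gcb_locSob_mul_locLip hS hg hf

theorem gcb_wg_mul_locLip_le (hS : Std m K N) (hg : LocallyLipschitz g) (hf : LocalSobolev m f) :
    ∀ᵐ x ∂m, weakGradient m (fun y => g y * f y) x ≤ |g x| * weakGradient m f x + |f x| * weakGradient m g x :=
  Comp.gcb_wg_mul_locLip_le hS hg hf

/-! ### Sob : the class `Sobolev`: vector space, lattice, algebra, cut-off -/

theorem gcb_sob_zero (hS : Std m K N) :
    Sobolev m (fun _ : X => (0 : ℝ)) :=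
  Sob.gcb_sob_zero hS

theorem gcb_sob_add (hS : Std m K N) (hf : Sobolev m f) (hg : Sobolev m g) :
    Sobolev m (fun x => f x + g x) :=
  Sob.gcb_sob_add hS hf hg

theorem gcb_sob_neg (hf : Sobolev m f) :
    Sobolev m (fun x => -f x) :=
  Sob.gcb_sob_neg hf

theorem gcb_sob_sub (hS : Std m K N) (hf : Sobolev m f) (hg : Sobolev m g) :
    Sobolev m (fun x => f x - g x) :=
  Sob.gcb_sob_sub hS hf hg

theorem gcb_sob_const_mul (hS : Std m K N) (c : ℝ) (hf : Sobolev m f) :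
    Sobolev m (fun x => c * f x) :=
  Sob.gcb_sob_const_mul hS c hf

theorem gcb_sob_sum (hS : Std m K N) {ι : Type*} (s : Finset ι) (G : ι → X → ℝ) (hG : ∀ i ∈ s, Sobolev m (G
    i)) :
    Sobolev m (fun x => ∑ i ∈ s, G i x) :=
  Sob.gcb_sob_sum hS s G hG

theorem gcb_sob_comp_lip (hS : Std m K N) {φ : ℝ → ℝ} {L : ℝ≥0} (hφ : LipschitzWith L φ) (h0 : φ 0 = 0) (hf :
    Sobolev m f) :
    Sobolev m (fun x => φ (f x)) :=
  Sob.gcb_sob_comp_lip hS hφ h0 hf

theorem gcb_sob_abs (hS : Std m K N) (hf : Sobolev m f) :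
    Sobolev m (fun x => |f x|) :=
  Sob.gcb_sob_abs hS hf

theorem gcb_sob_posPart (hS : Std m K N) (hf : Sobolev m f) :
    Sobolev m (fun x => max (f x) 0) :=
  Sob.gcb_sob_posPart hS hf

theorem gcb_sob_max (hS : Std m K N) (hf : Sobolev m f) (hg : Sobolev m g) :
    Sobolev m (fun x => max (f x) (g x)) :=
  Sob.gcb_sob_max hS hf hg

theorem gcb_sob_min (hS : Std m K N) (hf : Sobolev m f) (hg : Sobolev m g) :
    Sobolev m (fun x => min (f x) (g x)) :=
  Sob.gcb_sob_min hS hf hg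

theorem gcb_sob_clamp (hS : Std m K N) (hf : Sobolev m f) {c : ℝ} (hc : 0 ≤ c) :
    Sobolev m (fun x => max (min (f x) c) (-c)) :=
  Sob.gcb_sob_clamp hS hf hc

theorem gcb_sob_clamp_Icc (hS : Std m K N) (hf : Sobolev m f) {a b : ℝ} (ha : a ≤ 0) (hb : 0 ≤ b) :
    Sobolev m (fun x => max (min (f x) b) a) :=
  Sob.gcb_sob_clamp_Icc hS hf ha hb

theorem gcb_sob_mul (hS : Std m K N) (hf : Sobolev m f) (hg : Sobolev m g) {B B' : ℝ} (hbf : AEBdd m f B) (hbg
    : AEBdd m g B') :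
    Sobolev m (fun x => f x * g x) :=
  Sob.gcb_sob_mul hS hf hg hbf hbg

theorem gcb_sob_mul_lipB (hS : Std m K N) (hg : LipB g) (hf : Sobolev m f) :
    Sobolev m (fun x => g x * f x) :=
  Sob.gcb_sob_mul_lipB hS hg hf

theorem gcb_sob_cutoff (hS : Std m K N) {χ : X → ℝ} (hχ : LipC χ) (hf : LocalSobolev m f) :
    Sobolev m (fun x => χ x * f x) :=
  Sob.gcb_sob_cutoff hS hχ hf

theorem gcb_sob_of_bddSupp (hS : Std m K N) (hf : LocalSobolev m f) (hs : gcb_BddSupp m f) :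
    Sobolev m f :=
  Sob.gcb_sob_of_bddSupp hS hf hs

theorem gcb_sob_comp_C1 (hS : Std m K N) {φ : ℝ → ℝ} (hφ : ContDiff ℝ 1 φ) (h0 : φ 0 = 0) (hf : Sobolev m f)
    {B : ℝ} (hb : AEBdd m f B) :
    Sobolev m (fun x => φ (f x)) :=
  Sob.gcb_sob_comp_C1 hS hφ h0 hf hb

theorem gcb_exists_sob_eq_on_ball (hS : Std m K N) (hf : LocalSobolev m f) (o : X) (R : ℝ) :
    ∃ f' : X → ℝ, Sobolev m f' ∧ (∀ x ∈ Metric.closedBall o R, f' x = f x) ∧ ∀ x, x ∉ Metric.ball o (R + 1) → f' x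
    = 0 :=
  Sob.gcb_exists_sob_eq_on_ball hS hf o R

end Claimed.Agent.R210.GCB.IfcA
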