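/-
Row 210 (S0432), layer GCB: INTERFACE `Ifc` (generated restatement of the leaf lemmas; do not edit by hand).
Architect: helper469.
Part B: `gamma`, `form`, `energy`, convergence.  Imports part A.
Usage: `import Claimed.Agent.R210.GCB.Ifc`,
`open Claimed.Agent.R210.Defs Claimed.Agent.R210.GCB.Defs Claimed.Agent.R210.GCB.IfcA Claimed.Agent.R210.GCB.Ifc`.
-/
import Claimed.Agent.R210.GCB.IfcA
import Claimed.Agent.R210.GCB.Conv

set_option autoImplicit false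

open Claims.C0366 Claims.C0366.WeakHessian
open Set Filter MeasureTheory
open scoped ENNReal NNReal Topology

namespace Claimed.Agent.R210.GCB.Ifc

open Claimed.Agent.R210.Defs Claimed.Agent.R210.GCB.Defs

variable {X : Type*} [MetricSpace X] [MeasurableSpace X] [BorelSpace X]
  [CompleteSpace X] [TopologicalSpace.SeparableSpace X] [ProperSpace X]
  {m : Measure X} {K N : ℝ} {f g h f' g' f₁ f₂ g₁ g₂ u v D : X → ℝ}

/-! ### Gam : `gamma` is a.e. bilinear, symmetric, local, Cauchy-Schwarz -/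

theorem gcb_par (hS : Std m K N) (hf : LocalSobolev m f) (hg : LocalSobolev m g) :
    ∀ᵐ x ∂m, weakGradient m (fun y => f y + g y) x ^ 2 + weakGradient m (fun y => f y - g y) x ^ 2 = 2 *
    weakGradient m f x ^ 2 + 2 * weakGradient m g x ^ 2 :=
  Gam.gcb_par hS hf hg

theorem gcb_gamma_self (hS : Std m K N) (hf : LocalSobolev m f) :
    gamma m f f =ᵐ[m] fun x => weakGradient m f x ^ 2 :=
  Gam.gcb_gamma_self hS hf

theorem gcb_gamma_self_nonneg (m : Measure X) (f : X → ℝ) :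
    ∀ᵐ x ∂m, 0 ≤ gamma m f f x :=
  Gam.gcb_gamma_self_nonneg m f

theorem gcb_wg_sq_add (hS : Std m K N) (hf : LocalSobolev m f) (hg : LocalSobolev m g) :
    ∀ᵐ x ∂m, weakGradient m (fun y => f y + g y) x ^ 2 = weakGradient m f x ^ 2 + 2 * gamma m f g x + weakGradient
    m g x ^ 2 :=
  Gam.gcb_wg_sq_add hS hf hg

theorem gcb_wg_sq_sub (hS : Std m K N) (hf : LocalSobolev m f) (hg : LocalSobolev m g) :
    ∀ᵐ x ∂m, weakGradient m (fun y => f y - g y) x ^ 2 = weakGradient m f x ^ 2 - 2 * gamma m f g x + weakGradient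
    m g x ^ 2 :=
  Gam.gcb_wg_sq_sub hS hf hg

theorem gcb_gamma_abs_le (hS : Std m K N) (hf : LocalSobolev m f) (hg : LocalSobolev m g) :
    ∀ᵐ x ∂m, |gamma m f g x| ≤ weakGradient m f x * weakGradient m g x :=
  Gam.gcb_gamma_abs_le hS hf hg

theorem gcb_gamma_add_left (hS : Std m K N) (hf₁ : LocalSobolev m f₁) (hf₂ : LocalSobolev m f₂) (hg :
    LocalSobolev m g) :
    ∀ᵐ x ∂m, gamma m (fun y => f₁ y + f₂ y) g x = gamma m f₁ g x + gamma m f₂ g x :=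
  Gam.gcb_gamma_add_left hS hf₁ hf₂ hg

theorem gcb_gamma_add_right (hS : Std m K N) (hf : LocalSobolev m f) (hg₁ : LocalSobolev m g₁) (hg₂ :
    LocalSobolev m g₂) :
    ∀ᵐ x ∂m, gamma m f (fun y => g₁ y + g₂ y) x = gamma m f g₁ x + gamma m f g₂ x :=
  Gam.gcb_gamma_add_right hS hf hg₁ hg₂

theorem gcb_gamma_sub_left (hS : Std m K N) (hf₁ : LocalSobolev m f₁) (hf₂ : LocalSobolev m f₂) (hg :
    LocalSobolev m g) :
    ∀ᵐ x ∂m, gamma m (fun y => f₁ y - f₂ y) g x = gamma m f₁ g x - gamma m f₂ g x :=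
  Gam.gcb_gamma_sub_left hS hf₁ hf₂ hg

theorem gcb_gamma_sub_right (hS : Std m K N) (hf : LocalSobolev m f) (hg₁ : LocalSobolev m g₁) (hg₂ :
    LocalSobolev m g₂) :
    ∀ᵐ x ∂m, gamma m f (fun y => g₁ y - g₂ y) x = gamma m f g₁ x - gamma m f g₂ x :=
  Gam.gcb_gamma_sub_right hS hf hg₁ hg₂

theorem gcb_gamma_nat_mul_left (hS : Std m K N) (n : ℕ) (hf : LocalSobolev m f) (hg : LocalSobolev m g) :
    ∀ᵐ x ∂m, gamma m (fun y => (n : ℝ) * f y) g x = n * gamma m f g x :=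
  Gam.gcb_gamma_nat_mul_left hS n hf hg

theorem gcb_gamma_rat_mul_left (hS : Std m K N) (q : ℚ) (hf : LocalSobolev m f) (hg : LocalSobolev m g) :
    ∀ᵐ x ∂m, gamma m (fun y => (q : ℝ) * f y) g x = q * gamma m f g x :=
  Gam.gcb_gamma_rat_mul_left hS q hf hg

theorem gcb_gamma_const_mul_left (hS : Std m K N) (c : ℝ) (hf : LocalSobolev m f) (hg : LocalSobolev m g) :
    ∀ᵐ x ∂m, gamma m (fun y => c * f y) g x = c * gamma m f g x :=
  Gam.gcb_gamma_const_mul_left hS c hf hg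

theorem gcb_gamma_const_mul_right (hS : Std m K N) (c : ℝ) (hf : LocalSobolev m f) (hg : LocalSobolev m g) :
    ∀ᵐ x ∂m, gamma m f (fun y => c * g y) x = c * gamma m f g x :=
  Gam.gcb_gamma_const_mul_right hS c hf hg

theorem gcb_gamma_sum_left (hS : Std m K N) {ι : Type*} (s : Finset ι) (G : ι → X → ℝ) (hG : ∀ i ∈ s,
    LocalSobolev m (G i)) (hg : LocalSobolev m g) :
    ∀ᵐ x ∂m, gamma m (fun y => ∑ i ∈ s, G i y) g x = ∑ i ∈ s, gamma m (G i) g x :=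
  Gam.gcb_gamma_sum_left hS s G hG hg

theorem gcb_wg_sq_add_smul (hS : Std m K N) (hf : LocalSobolev m f) (hg : LocalSobolev m g) (t : ℝ) :
    ∀ᵐ x ∂m, weakGradient m (fun y => f y + t * g y) x ^ 2 = weakGradient m f x ^ 2 + 2 * t * gamma m f g x + t ^
    2 * weakGradient m g x ^ 2 :=
  Gam.gcb_wg_sq_add_smul hS hf hg t

theorem gcb_gamma_eq_on_left (hS : Std m K N) (hf : LocalSobolev m f) (hf' : LocalSobolev m f') (hg :
    LocalSobolev m g) :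
    ∀ᵐ x ∂m, f x = f' x → gamma m f g x = gamma m f' g x :=
  Gam.gcb_gamma_eq_on_left hS hf hf' hg

theorem gcb_gamma_eq_on_right (hS : Std m K N) (hf : LocalSobolev m f) (hg : LocalSobolev m g) (hg' :
    LocalSobolev m g') :
    ∀ᵐ x ∂m, g x = g' x → gamma m f g x = gamma m f g' x :=
  Gam.gcb_gamma_eq_on_right hS hf hg hg'

theorem gcb_gamma_eq_on (hS : Std m K N) (hf : LocalSobolev m f) (hf' : LocalSobolev m f') (hg : LocalSobolev
    m g) (hg' : LocalSobolev m g') :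
    ∀ᵐ x ∂m, f x = f' x → g x = g' x → gamma m f g x = gamma m f' g' x :=
  Gam.gcb_gamma_eq_on hS hf hf' hg hg'

theorem gcb_gamma_eq_zero_on_const_left (hS : Std m K N) (hf : LocalSobolev m f) (hg : LocalSobolev m g) (c :
    ℝ) :
    ∀ᵐ x ∂m, f x = c → gamma m f g x = 0 :=
  Gam.gcb_gamma_eq_zero_on_const_left hS hf hg c

theorem gcb_gamma_eq_zero_on_const_right (hS : Std m K N) (hf : LocalSobolev m f) (hg : LocalSobolev m g) (c :
    ℝ) :
    ∀ᵐ x ∂m, g x = c → gamma m f g x = 0 :=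
  Gam.gcb_gamma_eq_zero_on_const_right hS hf hg c

theorem gcb_gamma_eq_zero_on_null_left (hS : Std m K N) (hf : LocalSobolev m f) (hg : LocalSobolev m g) {s :
    Set ℝ} (hs : volume s = 0) :
    ∀ᵐ x ∂m, f x ∈ s → gamma m f g x = 0 :=
  Gam.gcb_gamma_eq_zero_on_null_left hS hf hg hs

theorem gcb_gamma_eq_zero_off_left (hS : Std m K N) (hf : LocalSobolev m f) (hg : LocalSobolev m g) {A : Set
    X} (h0 : ∀ᵐ x ∂m, x ∉ A → f x = 0) :
    ∀ᵐ x ∂m, x ∉ A → gamma m f g x = 0 :=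
  Gam.gcb_gamma_eq_zero_off_left hS hf hg h0

theorem gcb_gamma_eq_zero_off_right (hS : Std m K N) (hf : LocalSobolev m f) (hg : LocalSobolev m g) {A : Set
    X} (h0 : ∀ᵐ x ∂m, x ∉ A → g x = 0) :
    ∀ᵐ x ∂m, x ∉ A → gamma m f g x = 0 :=
  Gam.gcb_gamma_eq_zero_off_right hS hf hg h0

theorem gcb_gamma_sub_abs_le_left (hS : Std m K N) (hf : LocalSobolev m f) (hf' : LocalSobolev m f') (hg :
    LocalSobolev m g) :
    ∀ᵐ x ∂m, |gamma m f g x - gamma m f' g x| ≤ weakGradient m (fun y => f y - f' y) x * weakGradient m g x :=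
  Gam.gcb_gamma_sub_abs_le_left hS hf hf' hg

theorem gcb_gamma_abs_le_lip_right (hS : Std m K N) (hf : LocalSobolev m f) {L : ℝ≥0} (hg : LipschitzWith L g)
    :
    ∀ᵐ x ∂m, |gamma m f g x| ≤ L * weakGradient m f x :=
  Gam.gcb_gamma_abs_le_lip_right hS hf hg

theorem gcb_gamma_abs_le_lip (hS : Std m K N) {L L' : ℝ≥0} (hf : LipschitzWith L f) (hg : LipschitzWith L' g)
    :
    ∀ᵐ x ∂m, |gamma m f g x| ≤ L * L' :=
  Gam.gcb_gamma_abs_le_lip hS hf hg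

theorem gcb_gamma_sq_le (hS : Std m K N) (hf : LocalSobolev m f) (hg : LocalSobolev m g) :
    ∀ᵐ x ∂m, gamma m f g x ^ 2 ≤ gamma m f f x * gamma m g g x :=
  Gam.gcb_gamma_sq_le hS hf hg

theorem gcb_gamma_two_mul_le (hS : Std m K N) (hf : LocalSobolev m f) (hg : LocalSobolev m g) :
    ∀ᵐ x ∂m, 2 * |gamma m f g x| ≤ weakGradient m f x ^ 2 + weakGradient m g x ^ 2 :=
  Gam.gcb_gamma_two_mul_le hS hf hg

/-! ### Chain : chain rule and Leibniz rule for `gamma` -/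

theorem gcb_gamma_comp_lip_left (hS : Std m K N) {φ : ℝ → ℝ} {L : ℝ≥0} (hφ : ContDiff ℝ 1 φ) (hL :
    LipschitzWith L φ) (hf : LocalSobolev m f) (hg : LocalSobolev m g) :
    ∀ᵐ x ∂m, gamma m (fun y => φ (f y)) g x = deriv φ (f x) * gamma m f g x :=
  Chain.gcb_gamma_comp_lip_left hS hφ hL hf hg

theorem gcb_gamma_comp_left (hS : Std m K N) {φ : ℝ → ℝ} (hφ : ContDiff ℝ 1 φ) (hf : LocalSobolev m f) (hb :
    gcb_LocBdd m f) (hg : LocalSobolev m g) :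
    ∀ᵐ x ∂m, gamma m (fun y => φ (f y)) g x = deriv φ (f x) * gamma m f g x :=
  Chain.gcb_gamma_comp_left hS hφ hf hb hg

theorem gcb_gamma_comp_on_left (hS : Std m K N) {φ : ℝ → ℝ} {I : Set ℝ} (hI : IsOpen I) (hφ : ContDiffOn ℝ 1 φ
    I) (hf : LocalSobolev m f) (hr : ∀ (o : X) (R : ℝ), ∃ C : Set ℝ, IsCompact C ∧ C ⊆ I ∧ ∀ᵐ x ∂m, x ∈
    Metric.ball o R → f x ∈ C) (hg : LocalSobolev m g) :
    ∀ᵐ x ∂m, gamma m (fun y => φ (f y)) g x = deriv φ (f x) * gamma m f g x :=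
  Chain.gcb_gamma_comp_on_left hS hI hφ hf hr hg

theorem gcb_gamma_comp_lip_right (hS : Std m K N) {φ : ℝ → ℝ} {L : ℝ≥0} (hφ : ContDiff ℝ 1 φ) (hL :
    LipschitzWith L φ) (hf : LocalSobolev m f) (hg : LocalSobolev m g) :
    ∀ᵐ x ∂m, gamma m f (fun y => φ (g y)) x = deriv φ (g x) * gamma m f g x :=
  Chain.gcb_gamma_comp_lip_right hS hφ hL hf hg

theorem gcb_gamma_comp_right (hS : Std m K N) {φ : ℝ → ℝ} (hφ : ContDiff ℝ 1 φ) (hf : LocalSobolev m f) (hg :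
    LocalSobolev m g) (hb : gcb_LocBdd m g) :
    ∀ᵐ x ∂m, gamma m f (fun y => φ (g y)) x = deriv φ (g x) * gamma m f g x :=
  Chain.gcb_gamma_comp_right hS hφ hf hg hb

theorem gcb_gamma_comp_on_right (hS : Std m K N) {φ : ℝ → ℝ} {I : Set ℝ} (hI : IsOpen I) (hφ : ContDiffOn ℝ 1
    φ I) (hf : LocalSobolev m f) (hg : LocalSobolev m g) (hr : ∀ (o : X) (R : ℝ), ∃ C : Set ℝ, IsCompact C ∧ C ⊆ I
    ∧ ∀ᵐ x ∂m, x ∈ Metric.ball o R → g x ∈ C) :
    ∀ᵐ x ∂m, gamma m f (fun y => φ (g y)) x = deriv φ (g x) * gamma m f g x :=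
  Chain.gcb_gamma_comp_on_right hS hI hφ hf hg hr

theorem gcb_gamma_comp_comp (hS : Std m K N) {φ ψ : ℝ → ℝ} (hφ : ContDiff ℝ 1 φ) (hψ : ContDiff ℝ 1 ψ) (hf :
    LocalSobolev m f) (hbf : gcb_LocBdd m f) (hg : LocalSobolev m g) (hbg : gcb_LocBdd m g) :
    ∀ᵐ x ∂m, gamma m (fun y => φ (f y)) (fun y => ψ (g y)) x = deriv φ (f x) * deriv ψ (g x) * gamma m f g x :=
  Chain.gcb_gamma_comp_comp hS hφ hψ hf hbf hg hbg

theorem gcb_gamma_sq_left (hS : Std m K N) (hf : LocalSobolev m f) (hb : gcb_LocBdd m f) (hg : LocalSobolev m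
    g) :
    ∀ᵐ x ∂m, gamma m (fun y => f y ^ 2) g x = 2 * f x * gamma m f g x :=
  Chain.gcb_gamma_sq_left hS hf hb hg

theorem gcb_gamma_exp_left (hS : Std m K N) (hf : LocalSobolev m f) (hb : gcb_LocBdd m f) (hg : LocalSobolev m
    g) :
    ∀ᵐ x ∂m, gamma m (fun y => Real.exp (f y)) g x = Real.exp (f x) * gamma m f g x :=
  Chain.gcb_gamma_exp_left hS hf hb hg

theorem gcb_gamma_mul_left (hS : Std m K N) (hf₁ : LocalSobolev m f₁) (hf₂ : LocalSobolev m f₂) (hb₁ :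
    gcb_LocBdd m f₁) (hb₂ : gcb_LocBdd m f₂) (hg : LocalSobolev m g) :
    ∀ᵐ x ∂m, gamma m (fun y => f₁ y * f₂ y) g x = f₁ x * gamma m f₂ g x + f₂ x * gamma m f₁ g x :=
  Chain.gcb_gamma_mul_left hS hf₁ hf₂ hb₁ hb₂ hg

theorem gcb_gamma_mul_right (hS : Std m K N) (hf : LocalSobolev m f) (hg₁ : LocalSobolev m g₁) (hg₂ :
    LocalSobolev m g₂) (hb₁ : gcb_LocBdd m g₁) (hb₂ : gcb_LocBdd m g₂) :
    ∀ᵐ x ∂m, gamma m f (fun y => g₁ y * g₂ y) x = g₁ x * gamma m f g₂ x + g₂ x * gamma m f g₁ x :=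
  Chain.gcb_gamma_mul_right hS hf hg₁ hg₂ hb₁ hb₂

theorem gcb_gamma_posPart_left (hS : Std m K N) (hf : LocalSobolev m f) (hg : LocalSobolev m g) :
    ∀ᵐ x ∂m, (0 < f x → gamma m (fun y => max (f y) 0) g x = gamma m f g x) ∧ (f x ≤ 0 → gamma m (fun y => max (f
    y) 0) g x = 0) :=
  Chain.gcb_gamma_posPart_left hS hf hg

theorem gcb_gamma_abs_left (hS : Std m K N) (hf : LocalSobolev m f) (hg : LocalSobolev m g) :
    ∀ᵐ x ∂m, (0 ≤ f x → gamma m (fun y => |f y|) g x = gamma m f g x) ∧ (f x ≤ 0 → gamma m (fun y => |f y|) g x =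
    -gamma m f g x) :=
  Chain.gcb_gamma_abs_left hS hf hg

theorem gcb_gamma_max_left (hS : Std m K N) (hf₁ : LocalSobolev m f₁) (hf₂ : LocalSobolev m f₂) (hg :
    LocalSobolev m g) :
    ∀ᵐ x ∂m, (f₂ x ≤ f₁ x → gamma m (fun y => max (f₁ y) (f₂ y)) g x = gamma m f₁ g x) ∧ (f₁ x ≤ f₂ x → gamma m
    (fun y => max (f₁ y) (f₂ y)) g x = gamma m f₂ g x) :=
  Chain.gcb_gamma_max_left hS hf₁ hf₂ hg

theorem gcb_gamma_min_left (hS : Std m K N) (hf₁ : LocalSobolev m f₁) (hf₂ : LocalSobolev m f₂) (hg :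
    LocalSobolev m g) :
    ∀ᵐ x ∂m, (f₁ x ≤ f₂ x → gamma m (fun y => min (f₁ y) (f₂ y)) g x = gamma m f₁ g x) ∧ (f₂ x ≤ f₁ x → gamma m
    (fun y => min (f₁ y) (f₂ y)) g x = gamma m f₂ g x) :=
  Chain.gcb_gamma_min_left hS hf₁ hf₂ hg

theorem gcb_gamma_clamp_left (hS : Std m K N) (hf : LocalSobolev m f) (hg : LocalSobolev m g) {c : ℝ} (hc : 0
    ≤ c) :
    ∀ᵐ x ∂m, (|f x| < c → gamma m (fun y => max (min (f y) c) (-c)) g x = gamma m f g x) ∧ (c ≤ |f x| → gamma m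
    (fun y => max (min (f y) c) (-c)) g x = 0) :=
  Chain.gcb_gamma_clamp_left hS hf hg hc

theorem gcb_gamma_mul_left_gen (hS : Std m K N) (hf₁ : LocalSobolev m f₁) (hf₂ : LocalSobolev m f₂) (h12 :
    LocalSobolev m (fun y => f₁ y * f₂ y)) (hg : LocalSobolev m g) :
    ∀ᵐ x ∂m, gamma m (fun y => f₁ y * f₂ y) g x = f₁ x * gamma m f₂ g x + f₂ x * gamma m f₁ g x :=
  Chain.gcb_gamma_mul_left_gen hS hf₁ hf₂ h12 hg

/-! ### Int : integrability of `gamma`; the Dirichlet form `form` and `energy`; identification with the Cheeger energy -/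

theorem gcb_wg_sq_integrable (hf : Sobolev m f) :
    Integrable (fun x => weakGradient m f x ^ 2) m :=
  Int.gcb_wg_sq_integrable hf

theorem gcb_wg_mul_integrable (hf : Sobolev m f) (hg : Sobolev m g) :
    Integrable (fun x => weakGradient m f x * weakGradient m g x) m :=
  Int.gcb_wg_mul_integrable hf hg

theorem gcb_gamma_integrable (hS : Std m K N) (hf : Sobolev m f) (hg : Sobolev m g) :
    Integrable (gamma m f g) m :=
  Int.gcb_gamma_integrable hS hf hg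

theorem gcb_gamma_integrableOn (hS : Std m K N) (hf : LocalSobolev m f) (hg : LocalSobolev m g) (o : X) (R :
    ℝ) :
    IntegrableOn (gamma m f g) (Metric.ball o R) m :=
  Int.gcb_gamma_integrableOn hS hf hg o R

theorem gcb_gamma_mul_integrable (hS : Std m K N) (hf : Sobolev m f) (hg : Sobolev m g) (hh :
    AEStronglyMeasurable h m) {B : ℝ} (hb : AEBdd m h B) :
    Integrable (fun x => h x * gamma m f g x) m :=
  Int.gcb_gamma_mul_integrable hS hf hg hh hb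

theorem gcb_gamma_mul_integrable_loc (hS : Std m K N) (hf : LocalSobolev m f) (hg : LocalSobolev m g) (hh :
    AEStronglyMeasurable h m) (hb : gcb_LocBdd m h) (hs : gcb_BddSupp m h) :
    Integrable (fun x => h x * gamma m f g x) m :=
  Int.gcb_gamma_mul_integrable_loc hS hf hg hh hb hs

theorem gcb_gamma_mul_integrable_of_memLp (hS : Std m K N) (hf : Sobolev m f) (hg : LocalSobolev m g) (hh :
    AEStronglyMeasurable h m) (hhg : MemLp (fun x => h x * weakGradient m g x) 2 m) :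
    Integrable (fun x => h x * gamma m f g x) m :=
  Int.gcb_gamma_mul_integrable_of_memLp hS hf hg hh hhg

theorem gcb_gamma_integrable_bddDens (hS : Std m K N) (hf : LocalSobolev m f) (hg : LocalSobolev m g) {μ :
    Measure X} {M : ℝ≥0} {o : X} {R : ℝ} (hμ : BddDens m μ M o R) :
    Integrable (gamma m f g) μ :=
  Int.gcb_gamma_integrable_bddDens hS hf hg hμ

theorem gcb_wg_sq_integrable_bddDens (hf : LocalSobolev m f) {μ : Measure X} {M : ℝ≥0} {o : X} {R : ℝ} (hμ :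
    BddDens m μ M o R) :
    Integrable (fun x => weakGradient m f x ^ 2) μ :=
  Int.gcb_wg_sq_integrable_bddDens hf hμ

theorem gcb_locL2_integrable_bddDens (hf : LocallyL2 m f) {μ : Measure X} {M : ℝ≥0} {o : X} {R : ℝ} (hS : Std
    m K N) (hμ : BddDens m μ M o R) :
    Integrable f μ :=
  Int.gcb_locL2_integrable_bddDens hf hS hμ

theorem gcb_gamma_memLp_of_lip (hS : Std m K N) (hf : Sobolev m f) (hg : GloballyLipschitz g) :
    MemLp (gamma m f g) 2 m :=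
  Int.gcb_gamma_memLp_of_lip hS hf hg

theorem gcb_energy_nonneg (m : Measure X) (f : X → ℝ) :
    0 ≤ energy m f :=
  Int.gcb_energy_nonneg m f

theorem gcb_energy_congr (h : f =ᵐ[m] g) :
    energy m f = energy m g :=
  Int.gcb_energy_congr h

theorem gcb_form_congr (hf : f =ᵐ[m] f') (hg : g =ᵐ[m] g') :
    form m f g = form m f' g' :=
  Int.gcb_form_congr hf hg

theorem gcb_form_self (hS : Std m K N) (hf : LocalSobolev m f) :
    form m f f = energy m f :=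
  Int.gcb_form_self hS hf

theorem gcb_form_comm (m : Measure X) (f g : X → ℝ) :
    form m f g = form m g f :=
  Int.gcb_form_comm m f g

theorem gcb_form_add_left (hS : Std m K N) (hf₁ : Sobolev m f₁) (hf₂ : Sobolev m f₂) (hg : Sobolev m g) :
    form m (fun x => f₁ x + f₂ x) g = form m f₁ g + form m f₂ g :=
  Int.gcb_form_add_left hS hf₁ hf₂ hg

theorem gcb_form_add_right (hS : Std m K N) (hf : Sobolev m f) (hg₁ : Sobolev m g₁) (hg₂ : Sobolev m g₂) :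
    form m f (fun x => g₁ x + g₂ x) = form m f g₁ + form m f g₂ :=
  Int.gcb_form_add_right hS hf hg₁ hg₂

theorem gcb_form_neg_left (m : Measure X) (f g : X → ℝ) :
    form m (fun x => -f x) g = -form m f g :=
  Int.gcb_form_neg_left m f g

theorem gcb_form_neg_right (m : Measure X) (f g : X → ℝ) :
    form m f (fun x => -g x) = -form m f g :=
  Int.gcb_form_neg_right m f g

theorem gcb_form_sub_left (hS : Std m K N) (hf₁ : Sobolev m f₁) (hf₂ : Sobolev m f₂) (hg : Sobolev m g) :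
    form m (fun x => f₁ x - f₂ x) g = form m f₁ g - form m f₂ g :=
  Int.gcb_form_sub_left hS hf₁ hf₂ hg

theorem gcb_form_sub_right (hS : Std m K N) (hf : Sobolev m f) (hg₁ : Sobolev m g₁) (hg₂ : Sobolev m g₂) :
    form m f (fun x => g₁ x - g₂ x) = form m f g₁ - form m f g₂ :=
  Int.gcb_form_sub_right hS hf hg₁ hg₂

theorem gcb_form_const_mul_left (hS : Std m K N) (c : ℝ) (hf : LocalSobolev m f) (hg : LocalSobolev m g) :
    form m (fun x => c * f x) g = c * form m f g :=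
  Int.gcb_form_const_mul_left hS c hf hg

theorem gcb_form_const_mul_right (hS : Std m K N) (c : ℝ) (hf : LocalSobolev m f) (hg : LocalSobolev m g) :
    form m f (fun x => c * g x) = c * form m f g :=
  Int.gcb_form_const_mul_right hS c hf hg

theorem gcb_energy_add (hS : Std m K N) (hf : Sobolev m f) (hg : Sobolev m g) :
    energy m (fun x => f x + g x) = energy m f + 2 * form m f g + energy m g :=
  Int.gcb_energy_add hS hf hg

theorem gcb_energy_sub (hS : Std m K N) (hf : Sobolev m f) (hg : Sobolev m g) :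
    energy m (fun x => f x - g x) = energy m f - 2 * form m f g + energy m g :=
  Int.gcb_energy_sub hS hf hg

theorem gcb_energy_neg (m : Measure X) (f : X → ℝ) :
    energy m (fun x => -f x) = energy m f :=
  Int.gcb_energy_neg m f

theorem gcb_energy_const_mul (hS : Std m K N) (c : ℝ) (hf : LocalSobolev m f) :
    energy m (fun x => c * f x) = c ^ 2 * energy m f :=
  Int.gcb_energy_const_mul hS c hf

theorem gcb_energy_par (hS : Std m K N) (hf : Sobolev m f) (hg : Sobolev m g) :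
    energy m (fun x => f x + g x) + energy m (fun x => f x - g x) = 2 * energy m f + 2 * energy m g :=
  Int.gcb_energy_par hS hf hg

theorem gcb_form_abs_le (hS : Std m K N) (hf : Sobolev m f) (hg : Sobolev m g) :
    |form m f g| ≤ Real.sqrt (energy m f) * Real.sqrt (energy m g) :=
  Int.gcb_form_abs_le hS hf hg

theorem gcb_energy_add_le (hS : Std m K N) (hf : Sobolev m f) (hg : Sobolev m g) :
    energy m (fun x => f x + g x) ≤ 2 * energy m f + 2 * energy m g :=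
  Int.gcb_energy_add_le hS hf hg

theorem gcb_sqrt_energy_add_le (hS : Std m K N) (hf : Sobolev m f) (hg : Sobolev m g) :
    Real.sqrt (energy m (fun x => f x + g x)) ≤ Real.sqrt (energy m f) + Real.sqrt (energy m g) :=
  Int.gcb_sqrt_energy_add_le hS hf hg

theorem gcb_int_gamma_abs_le (hS : Std m K N) (hf : LocalSobolev m f) (hg : LocalSobolev m g) (h0 : ∀ᵐ x ∂m, 0
    ≤ h x) (h1 : Integrable (fun x => h x * weakGradient m f x ^ 2) m) (h2 : Integrable (fun x => h x *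
    weakGradient m g x ^ 2) m) :
    |∫ x, h x * gamma m f g x ∂m| ≤ Real.sqrt (∫ x, h x * weakGradient m f x ^ 2 ∂m) * Real.sqrt (∫ x, h x *
    weakGradient m g x ^ 2 ∂m) :=
  Int.gcb_int_gamma_abs_le hS hf hg h0 h1 h2

theorem gcb_int_gamma_abs_le_memLp (hS : Std m K N) (hf : Sobolev m f) (hg : LocalSobolev m g) (hh :
    AEStronglyMeasurable h m) (hhg : MemLp (fun x => h x * weakGradient m g x) 2 m) :
    |∫ x, h x * gamma m f g x ∂m| ≤ Real.sqrt (energy m f) * Real.sqrt (∫ x, (h x * weakGradient m g x) ^ 2 ∂m) :=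
  Int.gcb_int_gamma_abs_le_memLp hS hf hg hh hhg

theorem gcb_energy_mul_lipB_le (hS : Std m K N) {L : ℝ≥0} {B : ℝ} (hL : LipschitzWith L g) (hB : ∀ x, |g x| ≤
    B) (hf : Sobolev m f) :
    energy m (fun x => g x * f x) ≤ 2 * B ^ 2 * energy m f + 2 * (L : ℝ) ^ 2 * ∫ x, f x ^ 2 ∂m :=
  Int.gcb_energy_mul_lipB_le hS hL hB hf

theorem gcb_sob_iff_cheeger (hS : Std m K N) :
    Sobolev m f ↔ MemLp f 2 m ∧ cheegerEnergy m f < ∞ :=
  Int.gcb_sob_iff_cheeger hS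

theorem gcb_cheeger_eq_energy (hS : Std m K N) (hf : Sobolev m f) :
    cheegerEnergy m f = ENNReal.ofReal (energy m f / 2) :=
  Int.gcb_cheeger_eq_energy hS hf

theorem gcb_energy_eq_cheeger (hS : Std m K N) (hf : Sobolev m f) :
    energy m f = 2 * (cheegerEnergy m f).toReal :=
  Int.gcb_energy_eq_cheeger hS hf

theorem gcb_energy_le_slope (hS : Std m K N) (hf : GloballyLipschitz f) (h2 : MemLp f 2 m) {A : ℝ} (hA0 : 0 ≤
    A) (hA : ∫⁻ x, localSlope f x ^ 2 ∂m ≤ ENNReal.ofReal A) :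
    Sobolev m f ∧ energy m f ≤ A :=
  Int.gcb_energy_le_slope hS hf h2 hA0 hA

/-! ### Conv : closure, lower semicontinuity, weak continuity, strong convergence, density of `LipC` -/

theorem gcb_L2Lim_memLp {fs : ℕ → X → ℝ} (hfs : ∀ n, MemLp (fs n) 2 m) (hf : AEStronglyMeasurable f m) (hlim :
    gcb_L2Lim m fs f) :
    MemLp f 2 m :=
  Conv.gcb_L2Lim_memLp hfs hf hlim

theorem gcb_L2Lim_inner {fs : ℕ → X → ℝ} (hfs : ∀ n, MemLp (fs n) 2 m) (hf : MemLp f 2 m) (hlim : gcb_L2Lim m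
    fs f) (hg : MemLp g 2 m) :
    Tendsto (fun n => ∫ x, fs n x * g x ∂m) atTop (𝓝 (∫ x, f x * g x ∂m)) :=
  Conv.gcb_L2Lim_inner hfs hf hlim hg

theorem gcb_L2Lim_sq {fs : ℕ → X → ℝ} (hfs : ∀ n, MemLp (fs n) 2 m) (hf : MemLp f 2 m) (hlim : gcb_L2Lim m fs
    f) :
    Tendsto (fun n => ∫ x, fs n x ^ 2 ∂m) atTop (𝓝 (∫ x, f x ^ 2 ∂m)) :=
  Conv.gcb_L2Lim_sq hfs hf hlim

theorem gcb_L2Lim_iff {fs : ℕ → X → ℝ} (hfs : ∀ n, MemLp (fs n) 2 m) (hf : MemLp f 2 m) :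
    gcb_L2Lim m fs f ↔ Tendsto (fun n => ∫ x, (fs n x - f x) ^ 2 ∂m) atTop (𝓝 0) :=
  Conv.gcb_L2Lim_iff hfs hf

theorem gcb_sob_closure (hS : Std m K N) {fs : ℕ → X → ℝ} (hfs : ∀ n, Sobolev m (fs n)) (hf :
    AEStronglyMeasurable f m) (hlim : gcb_L2Lim m fs f) {B : ℝ} (hB : ∀ n, energy m (fs n) ≤ B) :
    Sobolev m f ∧ energy m f ≤ B :=
  Conv.gcb_sob_closure hS hfs hf hlim hB

theorem gcb_energy_le_liminf (hS : Std m K N) {fs : ℕ → X → ℝ} (hfs : ∀ n, Sobolev m (fs n)) (hf :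
    AEStronglyMeasurable f m) (hlim : gcb_L2Lim m fs f) {B : ℝ} (hB : ∀ n, energy m (fs n) ≤ B) :
    energy m f ≤ Filter.liminf (fun n => energy m (fs n)) atTop :=
  Conv.gcb_energy_le_liminf hS hfs hf hlim hB

theorem gcb_form_tendsto_zero (hS : Std m K N) {gs : ℕ → X → ℝ} (hgs : ∀ n, Sobolev m (gs n)) (hlim :
    gcb_L2Lim m gs (fun _ => 0)) {B : ℝ} (hB : ∀ n, energy m (gs n) ≤ B) {w : X → ℝ} (hw : Sobolev m w) :
    Tendsto (fun n => form m w (gs n)) atTop (𝓝 0) :=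
  Conv.gcb_form_tendsto_zero hS hgs hlim hB hw

theorem gcb_approx_riesz (hS : Std m K N) {ℓ : (X → ℝ) → ℝ} {C : ℝ} (hadd : ∀ u v, Sobolev m u → Sobolev m v →
    ℓ (fun x => u x + v x) = ℓ u + ℓ v) (hsmul : ∀ (c : ℝ) u, Sobolev m u → ℓ (fun x => c * u x) = c * ℓ u) (hbd :
    ∀ u, Sobolev m u → |ℓ u| ≤ C * Real.sqrt (energy m u + ∫ x, u x ^ 2 ∂m)) {ε : ℝ} (hε : 0 < ε) :
    ∃ w, Sobolev m w ∧ ∀ u, Sobolev m u → |form m w u + (∫ x, w x * u x ∂m) - ℓ u| ≤ ε * Real.sqrt (energy m u + ∫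
    x, u x ^ 2 ∂m) :=
  Conv.gcb_approx_riesz hS hadd hsmul hbd hε

theorem gcb_weak_cont_lin (hS : Std m K N) {ℓ : (X → ℝ) → ℝ} {C : ℝ} (hadd : ∀ u v, Sobolev m u → Sobolev m v
    → ℓ (fun x => u x + v x) = ℓ u + ℓ v) (hsmul : ∀ (c : ℝ) u, Sobolev m u → ℓ (fun x => c * u x) = c * ℓ u) (hbd
    : ∀ u, Sobolev m u → |ℓ u| ≤ C * Real.sqrt (energy m u + ∫ x, u x ^ 2 ∂m)) {gs : ℕ → X → ℝ} (hgs : ∀ n,
    Sobolev m (gs n)) (hlim : gcb_L2Lim m gs (fun _ => 0)) {B : ℝ} (hB : ∀ n, energy m (gs n) ≤ B) :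
    Tendsto (fun n => ℓ (gs n)) atTop (𝓝 0) :=
  Conv.gcb_weak_cont_lin hS hadd hsmul hbd hgs hlim hB

theorem gcb_weak_cont (hS : Std m K N) {fs : ℕ → X → ℝ} (hfs : ∀ n, Sobolev m (fs n)) (hf :
    AEStronglyMeasurable f m) (hlim : gcb_L2Lim m fs f) {B : ℝ} (hB : ∀ n, energy m (fs n) ≤ B) (hv : LocalSobolev
    m v) (hh : AEStronglyMeasurable h m) (hhv : MemLp (fun x => h x * weakGradient m v x) 2 m) :
    Tendsto (fun n => ∫ x, h x * gamma m (fs n) v x ∂m) atTop (𝓝 (∫ x, h x * gamma m f v x ∂m)) :=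
  Conv.gcb_weak_cont hS hfs hf hlim hB hv hh hhv

theorem gcb_weak_cont_form (hS : Std m K N) {fs : ℕ → X → ℝ} (hfs : ∀ n, Sobolev m (fs n)) (hf :
    AEStronglyMeasurable f m) (hlim : gcb_L2Lim m fs f) {B : ℝ} (hB : ∀ n, energy m (fs n) ≤ B) (hv : Sobolev m v)
    :
    Tendsto (fun n => form m (fs n) v) atTop (𝓝 (form m f v)) :=
  Conv.gcb_weak_cont_form hS hfs hf hlim hB hv

theorem gcb_weak_cont_bdd (hS : Std m K N) {fs : ℕ → X → ℝ} (hfs : ∀ n, Sobolev m (fs n)) (hf :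
    AEStronglyMeasurable f m) (hlim : gcb_L2Lim m fs f) {B : ℝ} (hB : ∀ n, energy m (fs n) ≤ B) (hv : Sobolev m v)
    (hh : AEStronglyMeasurable h m) {B' : ℝ} (hb : AEBdd m h B') :
    Tendsto (fun n => ∫ x, h x * gamma m (fs n) v x ∂m) atTop (𝓝 (∫ x, h x * gamma m f v x ∂m)) :=
  Conv.gcb_weak_cont_bdd hS hfs hf hlim hB hv hh hb

theorem gcb_weak_cont_loc (hS : Std m K N) {fs : ℕ → X → ℝ} (hfs : ∀ n, Sobolev m (fs n)) (hf :
    AEStronglyMeasurable f m) (hlim : gcb_L2Lim m fs f) {B : ℝ} (hB : ∀ n, energy m (fs n) ≤ B) (hv : LocalSobolev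
    m v) (hh : AEStronglyMeasurable h m) (hb : gcb_LocBdd m h) (hs : gcb_BddSupp m h) :
    Tendsto (fun n => ∫ x, h x * gamma m (fs n) v x ∂m) atTop (𝓝 (∫ x, h x * gamma m f v x ∂m)) :=
  Conv.gcb_weak_cont_loc hS hfs hf hlim hB hv hh hb hs

theorem gcb_lsc_weighted (hS : Std m K N) {fs : ℕ → X → ℝ} (hfs : ∀ n, Sobolev m (fs n)) (hf :
    AEStronglyMeasurable f m) (hlim : gcb_L2Lim m fs f) {B : ℝ} (hB : ∀ n, energy m (fs n) ≤ B) (hh :
    AEStronglyMeasurable h m) {B' : ℝ} (hb : AEBdd m h B') (h0 : ∀ᵐ x ∂m, 0 ≤ h x) :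
    ∫ x, h x * weakGradient m f x ^ 2 ∂m ≤ Filter.liminf (fun n => ∫ x, h x * weakGradient m (fs n) x ^ 2 ∂m)
    atTop :=
  Conv.gcb_lsc_weighted hS hfs hf hlim hB hh hb h0

theorem gcb_strong_of_weak (hS : Std m K N) {fs : ℕ → X → ℝ} (hfs : ∀ n, Sobolev m (fs n)) (hf : Sobolev m f)
    (hlim : gcb_L2Lim m fs f) (hle : ∀ ε > 0, ∀ᶠ n in atTop, energy m (fs n) ≤ energy m f + ε) :
    gcb_W12Lim m fs f :=
  Conv.gcb_strong_of_weak hS hfs hf hlim hle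

theorem gcb_W12Lim_add (hS : Std m K N) {fs gs : ℕ → X → ℝ} (hfs : ∀ n, Sobolev m (fs n)) (hf : Sobolev m f)
    (hgs : ∀ n, Sobolev m (gs n)) (hg : Sobolev m g) (h1 : gcb_W12Lim m fs f) (h2 : gcb_W12Lim m gs g) :
    gcb_W12Lim m (fun n x => fs n x + gs n x) (fun x => f x + g x) :=
  Conv.gcb_W12Lim_add hS hfs hf hgs hg h1 h2

theorem gcb_W12Lim_const_mul (hS : Std m K N) (c : ℝ) {fs : ℕ → X → ℝ} (hfs : ∀ n, Sobolev m (fs n)) (hf :
    Sobolev m f) (h1 : gcb_W12Lim m fs f) :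
    gcb_W12Lim m (fun n x => c * fs n x) (fun x => c * f x) :=
  Conv.gcb_W12Lim_const_mul hS c hfs hf h1

theorem gcb_W12Lim_mul_lipB (hS : Std m K N) (hg : LipB g) {fs : ℕ → X → ℝ} (hfs : ∀ n, Sobolev m (fs n)) (hf
    : Sobolev m f) (h1 : gcb_W12Lim m fs f) :
    gcb_W12Lim m (fun n x => g x * fs n x) (fun x => g x * f x) :=
  Conv.gcb_W12Lim_mul_lipB hS hg hfs hf h1

theorem gcb_energy_tendsto (hS : Std m K N) {fs : ℕ → X → ℝ} (hfs : ∀ n, Sobolev m (fs n)) (hf : Sobolev m f)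
    (h1 : gcb_W12Lim m fs f) :
    Tendsto (fun n => energy m (fs n)) atTop (𝓝 (energy m f)) :=
  Conv.gcb_energy_tendsto hS hfs hf h1

theorem gcb_gamma_tendsto_L1 (hS : Std m K N) {fs gs : ℕ → X → ℝ} (hfs : ∀ n, Sobolev m (fs n)) (hf : Sobolev
    m f) (hgs : ∀ n, Sobolev m (gs n)) (hg : Sobolev m g) (h1 : gcb_W12Lim m fs f) (h2 : gcb_W12Lim m gs g) :
    Tendsto (fun n => ∫ x, |gamma m (fs n) (gs n) x - gamma m f g x| ∂m) atTop (𝓝 0) :=
  Conv.gcb_gamma_tendsto_L1 hS hfs hf hgs hg h1 h2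

theorem gcb_int_gamma_tendsto (hS : Std m K N) {fs gs : ℕ → X → ℝ} (hfs : ∀ n, Sobolev m (fs n)) (hf : Sobolev
    m f) (hgs : ∀ n, Sobolev m (gs n)) (hg : Sobolev m g) (h1 : gcb_W12Lim m fs f) (h2 : gcb_W12Lim m gs g) (hh :
    AEStronglyMeasurable h m) {B : ℝ} (hb : AEBdd m h B) :
    Tendsto (fun n => ∫ x, h x * gamma m (fs n) (gs n) x ∂m) atTop (𝓝 (∫ x, h x * gamma m f g x ∂m)) :=
  Conv.gcb_int_gamma_tendsto hS hfs hf hgs hg h1 h2 hh hb

theorem gcb_form_tendsto (hS : Std m K N) {fs gs : ℕ → X → ℝ} (hfs : ∀ n, Sobolev m (fs n)) (hf : Sobolev m f)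
    (hgs : ∀ n, Sobolev m (gs n)) (hg : Sobolev m g) (h1 : gcb_W12Lim m fs f) (h2 : gcb_W12Lim m gs g) :
    Tendsto (fun n => form m (fs n) (gs n)) atTop (𝓝 (form m f g)) :=
  Conv.gcb_form_tendsto hS hfs hf hgs hg h1 h2

theorem gcb_trunc_W12Lim (hS : Std m K N) (hf : Sobolev m f) :
    gcb_W12Lim m (fun (n : ℕ) x => max (min (f x) n) (-n)) f :=
  Conv.gcb_trunc_W12Lim hS hf

theorem gcb_cutoff_W12Lim (hS : Std m K N) (hf : Sobolev m f) (o : X) {χ : ℕ → X → ℝ} (hL : ∀ n : ℕ,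
    LipschitzWith (1 / ((n : ℝ≥0) + 1)) (χ n)) (h01 : ∀ n x, 0 ≤ χ n x ∧ χ n x ≤ 1) (h1 : ∀ n : ℕ, ∀ x ∈
    Metric.closedBall o n, χ n x = 1) :
    gcb_W12Lim m (fun n x => χ n x * f x) f :=
  Conv.gcb_cutoff_W12Lim hS hf o hL h01 h1

theorem gcb_cheeger_approx (hf : MemLp f 2 m) (hC : cheegerEnergy m f < ∞) :
    ∃ fs : ℕ → X → ℝ, (∀ n, GloballyLipschitz (fs n) ∧ MemLp (fs n) 2 m) ∧ gcb_L2Lim m fs f ∧ ∀ n : ℕ, (2 :
    ℝ≥0∞)⁻¹ * ∫⁻ x, localSlope (fs n) x ^ 2 ∂m ≤ cheegerEnergy m f + ENNReal.ofReal (1 / ((n : ℝ) + 1)) :=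
  Conv.gcb_cheeger_approx hf hC

theorem gcb_dense_lip (hS : Std m K N) (hf : Sobolev m f) :
    ∃ fs : ℕ → X → ℝ, (∀ n, GloballyLipschitz (fs n) ∧ Sobolev m (fs n)) ∧ gcb_W12Lim m fs f :=
  Conv.gcb_dense_lip hS hf

theorem gcb_dense_lipC (hS : Std m K N) (hf : Sobolev m f) :
    ∃ fs : ℕ → X → ℝ, (∀ n, LipC (fs n)) ∧ gcb_W12Lim m fs f :=
  Conv.gcb_dense_lipC hS hf

theorem gcb_dense_lipC_Icc (hS : Std m K N) (hf : Sobolev m f) {a b : ℝ} (ha : a ≤ 0) (hb : 0 ≤ b) (hab : ∀ᵐ x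
    ∂m, a ≤ f x ∧ f x ≤ b) :
    ∃ fs : ℕ → X → ℝ, (∀ n, LipC (fs n)) ∧ (∀ n x, a ≤ fs n x ∧ fs n x ≤ b) ∧ gcb_W12Lim m fs f :=
  Conv.gcb_dense_lipC_Icc hS hf ha hb hab

theorem gcb_dense_lipC_supp (hS : Std m K N) (hf : Sobolev m f) {a b : ℝ} (ha : a ≤ 0) (hb : 0 ≤ b) (hab : ∀ᵐ
    x ∂m, a ≤ f x ∧ f x ≤ b) {o : X} {R : ℝ} (hs : ∀ᵐ x ∂m, x ∉ Metric.ball o R → f x = 0) :
    ∃ fs : ℕ → X → ℝ, (∀ n, LipC (fs n)) ∧ (∀ n x, a ≤ fs n x ∧ fs n x ≤ b) ∧ (∀ n x, x ∉ Metric.ball o (R + 1) →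
    fs n x = 0) ∧ gcb_W12Lim m fs f :=
  Conv.gcb_dense_lipC_supp hS hf ha hb hab hs

end Claimed.Agent.R210.GCB.Ifc
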